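import Vale.Agent.P217.CharP.Theta

/-!
P217, module M8: truncations of theta at nearby points turn iterated multiplication by p into
iterated p^h-th powers, up to the truncation order.
-/

open MvPowerSeries

noncomputable section

namespace Vale.Agent.P217.CharP

variable {p n : ℕ} [Fact p.Prime]

theorem le_ord_pow_nsmul {x : C p} {c : ℚ} (h : (c : WithTop ℚ) ≤ ord x) (m : ℕ) :
    ((m • c : ℚ) : WithTop ℚ) ≤ ord (x ^ m) := by
  rw [ord_pow, WithTop.coe_nsmul]
  exact nsmul_le_nsmul_right h m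

theorem le_ord_eval₁C {R : Type*} [CommRing R] {c : R →+* C p} {f : PowerSeries R}
    (hf : IntCoeff c (f : MvPowerSeries Unit R)) {ε : ℚ} (hε0 : 0 < ε) {u : C p}
    (hu : (ε : WithTop ℚ) ≤ ord u) {N : ℕ} (hN : ∀ i < N, PowerSeries.coeff i f = 0) :
    ((N • ε : ℚ) : WithTop ℚ) ≤ ord (eval₁C p c f u) := by
  refine le_ord_evalC_of_degree hf hε0 (fun _ => hu) fun d hd => ?_
  rw [Fintype.sum_unique] at hd
  rw [show d = Finsupp.single () (d ()) from Finsupp.unique_single d]
  exact hN _ hd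

theorem toK_injective {T : Type*} :
    Function.Injective (toK : MvPowerSeries T (OC p) → MvPowerSeries T (C p)) := fun a b h =>
  MvPowerSeries.ext fun d => Subtype.coe_injective (by
    simpa using congrArg (MvPowerSeries.coeff d) h)

namespace Setup

variable {S : Setup p n}

/-- The series g of a nearby point. -/
def Near.g (δ : S.Near) : PowerSeries (C p) :=
  PowerSeries.map ((OC p).subtype.comp (evO δ.d δ.pos)) S.g

theorem Near.mulSeries_law (δ : S.Near) : mulSeries δ.law p =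
    PowerSeries.expand (p ^ S.h) (pow_ne_zero _ (Fact.out : p.Prime).ne_zero) δ.g := by
  rw [Near.law, Near.g, ← PowerSeries.map_expand, ← S.g_spec, map_mulSeries, Setup.law,
    map_map_law]
  rfl

theorem Near.g_int (δ : S.Near) :
    IntCoeff (RingHom.id (C p)) (δ.g : MvPowerSeries Unit (C p)) :=
  intCoeff_iff₁.2 fun m => by
    rw [Near.g, PowerSeries.coeff_map]
    exact ordO_nonneg _

theorem Near.g_zero (δ : S.Near) : PowerSeries.constantCoeff δ.g = 0 := by
  rw [Near.g, ← PowerSeries.coeff_zero_eq_constantCoeff_apply, PowerSeries.coeff_map,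
    PowerSeries.coeff_zero_eq_constantCoeff_apply, S.constantCoeff_g, map_zero]

theorem pow_q_pos' {W : C p} (hW : 0 < ord W) (h : ℕ) : 0 < ord (W ^ p ^ h) :=
  ord_powZ_pos hW (h : ℤ)

theorem Near.eval_mulSeries (δ : S.Near) {W : C p} (hW : 0 < ord W) :
    eval₁C p (RingHom.id (C p)) (mulSeries δ.law p) W =
      eval₁C p (RingHom.id (C p)) δ.g (W ^ p ^ S.h) := by
  have hq : p ^ S.h ≠ 0 := pow_ne_zero _ (Fact.out : p.Prime).ne_zero
  have hX : IntCoeff (RingHom.id (C p))
      ((PowerSeries.X : PowerSeries (C p)) ^ p ^ S.h : MvPowerSeries Unit (C p)) :=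
    (intCoeff_X ()).pow _
  rw [δ.mulSeries_law, PowerSeries.expand_apply,
    eval₁C_subst δ.g_int hX (by simp [zero_pow hq]) hW, eval₁C_X_pow]

theorem Near.le_ord_mulP (δ : S.Near) {W : C p} {c : ℚ} (hc : 0 < c)
    (hW : (c : WithTop ℚ) ≤ ord W) :
    ((p ^ S.h • c : ℚ) : WithTop ℚ) ≤
      ord (eval₁C p (RingHom.id (C p)) (mulSeries δ.law p) W) := by
  have hWp : 0 < ord W := lt_of_lt_of_le (WithTop.coe_pos.2 hc) hW
  rw [δ.eval_mulSeries hWp]
  have hq : 0 < p ^ S.h := pow_pos (Fact.out : p.Prime).pos _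
  have h := le_ord_eval₁C δ.g_int (ε := p ^ S.h • c) (nsmul_pos hc hq.ne')
    (le_ord_pow_nsmul hW (p ^ S.h)) (N := 1)
    (fun i hi => by
      rw [Nat.lt_one_iff] at hi
      subst hi
      rw [PowerSeries.coeff_zero_eq_constantCoeff_apply]
      exact δ.g_zero)
  simpa using h

variable {θ : PowerSeries (C p)} {B : ℕ}

/-- The truncated theta at a point, as a series. -/
def ThetaModel.series (M : S.ThetaModel θ B) (δ' : S.Near) : PowerSeries (C p) :=
  PowerSeries.mk fun i => if i < B then ((evO δ'.d δ'.pos (M.coeffs i) : OC p) : C p) else 0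

theorem ThetaModel.series_int (M : S.ThetaModel θ B) (δ' : S.Near) :
    IntCoeff (RingHom.id (C p)) (M.series δ' : MvPowerSeries Unit (C p)) :=
  intCoeff_iff₁.2 fun m => by
    simp only [ThetaModel.series, RingHom.id_apply, PowerSeries.coeff_mk]
    split_ifs
    · exact ordO_nonneg _
    · simp

theorem ThetaModel.congr (M : S.ThetaModel θ B) (hint : ∀ i, 0 ≤ ord (PowerSeries.coeff i θ))
    (h0 : PowerSeries.constantCoeff θ = 0)
    (hrec : PowerSeries.subst (PowerSeries.map constantCoeff S.gK) θ =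
      PowerSeries.map (iterateFrobenius (C p) p S.h) θ) {δ δ' : S.Near}
    (hδ : ∀ t, δ.d t = M.π * δ'.d t) {i : ℕ} (hi : i < B) :
    PowerSeries.coeff i (PowerSeries.subst δ.g (M.series δ')) =
      PowerSeries.coeff i (PowerSeries.map (iterateFrobenius (C p) p S.h) (M.series δ')) := by
  have hint' := (S.theta_spec hint h0 hrec i).2.1
  have hpow : ∀ j, PowerSeries.coeff i (δ.g ^ j) =
      ((evO δ'.d δ'.pos (S.scaleO M.π (PowerSeries.coeff i (S.g ^ j))) : OC p) : C p) := by
    intro j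
    rw [S.evO_scaleO M.π (hd := δ.pos) hδ, Near.g, ← map_pow, PowerSeries.coeff_map]
    rfl
  have key : M.coeffs i ^ p ^ S.h = ∑ j ∈ Finset.range (i + 1),
      M.coeffs j * S.scaleO M.π (PowerSeries.coeff i (S.g ^ j)) := by
    refine toK_injective ?_
    rw [map_pow, M.coeffs_eq i hi, ← map_pow, hint', map_sum, map_sum]
    refine Finset.sum_congr rfl fun j hj => ?_
    rw [map_mul, map_mul, M.coeffs_eq j (by rw [Finset.mem_range] at hj; omega), S.toK_scaleO,
      gK, ← map_pow, PowerSeries.coeff_map]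
  rw [coeff_subst_eq_sum δ.g_zero, PowerSeries.coeff_map, iterateFrobenius_def]
  simp only [ThetaModel.series, PowerSeries.coeff_mk]
  rw [if_pos hi, ← SubmonoidClass.coe_pow, ← map_pow, key, map_sum,
    AddSubmonoidClass.coe_finsetSum]
  refine Finset.sum_congr rfl fun j hj => ?_
  rw [Finset.mem_range] at hj
  rw [if_pos (show j < B by omega), hpow, map_mul, Subring.coe_mul]

theorem ThetaModel.approx_step (M : S.ThetaModel θ B)
    (hint : ∀ i, 0 ≤ ord (PowerSeries.coeff i θ))
    (h0 : PowerSeries.constantCoeff θ = 0)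
    (hrec : PowerSeries.subst (PowerSeries.map constantCoeff S.gK) θ =
      PowerSeries.map (iterateFrobenius (C p) p S.h) θ) {δ δ' : S.Near}
    (hδ : ∀ t, δ.d t = M.π * δ'.d t) {W : C p} {c : ℚ} (hc : 0 < c)
    (hW : (c : WithTop ℚ) ≤ ord W) :
    ((B • (p ^ S.h • c) : ℚ) : WithTop ℚ) ≤
      ord (eval₁C p (RingHom.id (C p)) (M.series δ')
          (eval₁C p (RingHom.id (C p)) (mulSeries δ.law p) W) -
        eval₁C p (RingHom.id (C p)) (M.series δ') W ^ p ^ S.h) := by
  have hWp : 0 < ord W := lt_of_lt_of_le (WithTop.coe_pos.2 hc) hW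
  have hyp : 0 < ord (W ^ p ^ S.h) := pow_q_pos' hWp _
  set P := M.series δ' with hP
  have hPi := M.series_int δ'
  have hFi : IntCoeff (RingHom.id (C p))
      (PowerSeries.map (iterateFrobenius (C p) p S.h) P : MvPowerSeries Unit (C p)) :=
    intCoeff_iff₁.2 fun m => by
      rw [RingHom.id_apply, PowerSeries.coeff_map, iterateFrobenius_def]
      exact (OC p).pow_mem (intCoeff_iff₁.1 hPi m) _
  have hSi : IntCoeff (RingHom.id (C p))
      (PowerSeries.subst δ.g P : MvPowerSeries Unit (C p)) :=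
    hPi.subst (fun _ => δ.g_int) (fun _ => δ.g_zero)
  have e1 : eval₁C p (RingHom.id (C p)) P W ^ p ^ S.h =
      eval₁C p (RingHom.id (C p)) (PowerSeries.map (iterateFrobenius (C p) p S.h) P)
        (W ^ p ^ S.h) := by
    have e0 := evalC_map (iterateFrobenius (C p) p S.h) (RingHom.id (C p))
      (P : MvPowerSeries Unit (C p)) (fun _ : Unit => W ^ p ^ S.h)
    have e3 := evalC_pow_char_pow hPi (x := fun _ : Unit => W) (fun _ => hWp) S.h
    rw [RingHom.id_comp] at e0
    rw [RingHom.comp_id] at e3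
    exact e3.trans e0.symm
  rw [δ.eval_mulSeries hWp, ← eval₁C_subst hPi δ.g_int δ.g_zero hyp, e1,
    ← eval₁C_sub hSi hFi hyp]
  refine le_ord_eval₁C (hSi.sub hFi) (nsmul_pos hc (pow_ne_zero _ (Fact.out : p.Prime).ne_zero))
    (le_ord_pow_nsmul hW _) fun i hi => ?_
  rw [map_sub, hP, M.congr hint h0 hrec hδ hi, sub_self]

theorem ThetaModel.approx_iterate (M : S.ThetaModel θ B)
    (hint : ∀ i, 0 ≤ ord (PowerSeries.coeff i θ))
    (h0 : PowerSeries.constantCoeff θ = 0)
    (hrec : PowerSeries.subst (PowerSeries.map constantCoeff S.gK) θ =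
      PowerSeries.map (iterateFrobenius (C p) p S.h) θ) {δ δ' : S.Near}
    (hδ : ∀ t, δ.d t = M.π * δ'.d t) {Z : C p} {c : ℚ} (hc : 0 < c)
    (hZ : (c : WithTop ℚ) ≤ ord Z) : ∀ k : ℕ,
    (((p ^ S.h) ^ k • c : ℚ) : WithTop ℚ) ≤
        ord ((eval₁C p (RingHom.id (C p)) (mulSeries δ.law p))^[k] Z) ∧
      ((B • ((p ^ S.h) ^ k • c) : ℚ) : WithTop ℚ) ≤
        ord (eval₁C p (RingHom.id (C p)) (M.series δ')
            ((eval₁C p (RingHom.id (C p)) (mulSeries δ.law p))^[k] Z) -
          eval₁C p (RingHom.id (C p)) (M.series δ') Z ^ (p ^ S.h) ^ k)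
  | 0 => ⟨by simpa using hZ, by simp [ord_zero]⟩
  | k + 1 => by
    obtain ⟨ih1, ih2⟩ := approx_iterate M hint h0 hrec hδ hc hZ k
    set f := eval₁C p (RingHom.id (C p)) (mulSeries δ.law p) with hf
    set Φ := eval₁C p (RingHom.id (C p)) (M.series δ') with hΦ
    have hq : 0 < p ^ S.h := pow_pos (Fact.out : p.Prime).pos _
    have hck : 0 < (p ^ S.h) ^ k • c := nsmul_pos hc (pow_pos hq k).ne'
    have e : (p ^ S.h) ^ (k + 1) • c = p ^ S.h • ((p ^ S.h) ^ k • c) := by
      rw [pow_succ, mul_nsmul]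
    rw [Function.iterate_succ_apply', e]
    refine ⟨δ.le_ord_mulP hck ih1, ?_⟩
    have h3 := M.approx_step hint h0 hrec hδ hck ih1
    have h4 := le_ord_pow_nsmul ih2 (p ^ S.h)
    have e2 : p ^ S.h • (B • ((p ^ S.h) ^ k • c)) = B • (p ^ S.h • ((p ^ S.h) ^ k • c)) :=
      smul_comm (p ^ S.h) B ((p ^ S.h) ^ k • c)
    rw [sub_pow_char_pow, e2] at h4
    rw [pow_succ, pow_mul]
    have h5 := le_ord_add h3 h4
    simpa only [hf, hΦ, sub_add_sub_cancel] using h5

end Setup

end Vale.Agent.P217.CharP
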