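import Vale.Agent.P217.CharP.Hom

/-!
P217, module M8: calculus of the evaluation homomorphisms.
-/

open MvPowerSeries

noncomputable section

namespace Vale.Agent.P217.CharP

variable {p : ℕ} [Fact p.Prime] {σ τ T R : Type*}

theorem ordO_zero_pos : 0 < ordO (0 : OC p) := by
  show (0 : WithTop ℚ) < ord ((0 : OC p) : C p)
  rw [ZeroMemClass.coe_zero, ord_zero]
  exact WithTop.coe_lt_top _

theorem exists_bound_O [Fintype σ] {z : σ → OC p} (hz : ∀ i, 0 < ordO (z i)) :
    ∃ ε : ℚ, 0 < ε ∧ ∀ i, (ε : WithTop ℚ) ≤ ordO (z i) :=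
  exists_pos_bound (x := fun i => (z i : C p)) hz

theorem exists_bound_A [Fintype σ] {a : σ → MvPowerSeries T (OC p)}
    (ha : ∀ i, 0 < ordO (constantCoeff (a i))) :
    ∃ ε : ℚ, 0 < ε ∧ ∀ i, a i ∈ Fil ε 1 := by
  obtain ⟨ε, hε, h⟩ := exists_bound_O ha
  exact ⟨ε, hε, fun i => mem_Fil_one (by rw [abs_of_pos hε]; exact h i)⟩

theorem ordO_evO_pos [Fintype σ] {z : σ → OC p} (hz : ∀ i, 0 < ordO (z i))
    {P : MvPowerSeries σ (OC p)} (hP : 0 < ordO (constantCoeff P)) :
    0 < ordO (evO z hz P) := by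
  have h : P = (P - MvPowerSeries.C (constantCoeff P)) + MvPowerSeries.C (constantCoeff P) := by
    ring
  rw [h, map_add, evO_C]
  show 0 < ord ((evO z hz (P - MvPowerSeries.C (constantCoeff P)) : C p) + _)
  refine lt_ord_add ?_ hP
  rw [coe_evO]
  exact ord_evalC_pos (intCoeff_of subtype_nonneg _) (by simp) hz

theorem evO_zero [Fintype σ] (P : MvPowerSeries σ (OC p)) :
    evO (fun _ => 0) (fun _ => ordO_zero_pos) P = constantCoeff P := by
  refine DFunLike.congr_fun (hom_ext_O (ε := 1) one_pos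
    (f := evO (fun _ : σ => (0 : OC p)) fun _ => ordO_zero_pos) (g := constantCoeff)
    (fun i => ?_) (fun r => by simp) (fun i => by simp)) P
  rw [evO_X]
  show (((1 : ℚ)) : WithTop ℚ) ≤ ord ((0 : OC p) : C p)
  rw [ZeroMemClass.coe_zero, ord_zero]
  exact le_top

theorem evO_congr [Fintype σ] {z z' : σ → OC p} {hz : ∀ i, 0 < ordO (z i)}
    {hz' : ∀ i, 0 < ordO (z' i)} (h : z = z') (P : MvPowerSeries σ (OC p)) :
    evO z hz P = evO z' hz' P := by subst h; rfl

theorem evA_congr [Fintype σ] [Fintype T] {a b : σ → MvPowerSeries T (OC p)}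
    {ha : ∀ i, 0 < ordO (constantCoeff (a i))} {hb : ∀ i, 0 < ordO (constantCoeff (b i))}
    (h : a = b) (P : MvPowerSeries σ (MvPowerSeries T (OC p))) :
    evA a ha P = evA b hb P := by subst h; rfl

/-- Homomorphisms to the valuation ring commute with evaluation at series. -/
theorem evO_evA [Fintype σ] [Fintype T] {d : T → OC p} (hd : ∀ t, 0 < ordO (d t))
    {a : σ → MvPowerSeries T (OC p)} (ha : ∀ i, 0 < ordO (constantCoeff (a i)))
    (P : MvPowerSeries σ (MvPowerSeries T (OC p))) :
    evO d hd (evA a ha P) =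
      evO (fun i => evO d hd (a i)) (fun i => ordO_evO_pos hd (ha i))
        (MvPowerSeries.map (evO d hd) P) := by
  obtain ⟨ε, hε, hb⟩ := exists_bound_O (z := fun i => evO d hd (a i))
    fun i => ordO_evO_pos hd (ha i)
  exact DFunLike.congr_fun (hom_ext_O hε (f := (evO d hd).comp (evA a ha))
    (g := (evO _ fun i => ordO_evO_pos hd (ha i)).comp (MvPowerSeries.map (evO d hd)))
    (fun i => by simpa using hb i) (fun r => by simp) (fun i => by simp)) P

theorem constantCoeff_evA [Fintype σ] [Fintype T] {a : σ → MvPowerSeries T (OC p)}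
    (ha : ∀ i, 0 < ordO (constantCoeff (a i)))
    (P : MvPowerSeries σ (MvPowerSeries T (OC p))) :
    constantCoeff (evA a ha P) =
      evO (fun i => constantCoeff (a i)) ha (MvPowerSeries.map constantCoeff P) := by
  obtain ⟨ε, hε, hb⟩ := exists_bound_O ha
  exact DFunLike.congr_fun (hom_ext_O hε (f := constantCoeff.comp (evA a ha))
    (g := (evO _ ha).comp (MvPowerSeries.map constantCoeff))
    (fun i => by simpa using hb i) (fun r => by simp) (fun i => by simp)) P

theorem constantCoeff_evA_pos [Fintype σ] [Fintype T] {a : σ → MvPowerSeries T (OC p)}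
    (ha : ∀ i, 0 < ordO (constantCoeff (a i)))
    {P : MvPowerSeries σ (MvPowerSeries T (OC p))}
    (hP : 0 < ordO (constantCoeff (constantCoeff P))) :
    0 < ordO (constantCoeff (evA a ha P)) := by
  rw [constantCoeff_evA]
  refine ordO_evO_pos ha ?_
  rwa [MvPowerSeries.constantCoeff_map]

theorem constantCoeff_evA_pos' [Fintype σ] [Fintype T] {a : σ → MvPowerSeries T (OC p)}
    (ha : ∀ i, 0 < ordO (constantCoeff (a i)))
    {P : MvPowerSeries σ (MvPowerSeries T (OC p))} (hP : constantCoeff P = 0) :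
    0 < ordO (constantCoeff (evA a ha P)) :=
  constantCoeff_evA_pos ha (by rw [hP, map_zero]; exact ordO_zero_pos)

/-- Evaluation of a substitution. -/
theorem evA_subst [Fintype σ] [Fintype τ] [Fintype T] {a : τ → MvPowerSeries T (OC p)}
    (ha : ∀ i, 0 < ordO (constantCoeff (a i)))
    {φ : σ → MvPowerSeries τ (MvPowerSeries T (OC p))} (hφ : ∀ i, constantCoeff (φ i) = 0)
    (P : MvPowerSeries σ (MvPowerSeries T (OC p))) :
    evA a ha (MvPowerSeries.subst φ P) =
      evA (fun i => evA a ha (φ i)) (fun i => constantCoeff_evA_pos' ha (hφ i)) P := by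
  obtain ⟨ε, hε, hb⟩ := exists_bound_A (a := fun i => evA a ha (φ i))
    fun i => constantCoeff_evA_pos' ha (hφ i)
  have hs := hasSubst_of_constantCoeff_zero hφ
  have h := DFunLike.congr_fun (hom_ext hε.ne'
    (f := (evA a ha).comp (substAlgHom hs).toRingHom)
    (g := evA _ fun i => constantCoeff_evA_pos' ha (hφ i))
    (fun i => by simpa [coe_substAlgHom hs, subst_X hs] using hb i)
    (fun r => by simp [coe_substAlgHom hs, ← MvPowerSeries.c_eq_algebraMap, MvPowerSeries.subst_C])
    (fun i => by simp [coe_substAlgHom hs, subst_X hs])) P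
  simpa [coe_substAlgHom hs] using h

/-- Congruent tuples have congruent values. -/
theorem evA_sub_mem [Fintype σ] [Fintype T] {ε : ℚ} {I : Ideal (MvPowerSeries T (OC p))}
    (hI : IsClosedFil ε I) {a b : σ → MvPowerSeries T (OC p)}
    {ha : ∀ i, 0 < ordO (constantCoeff (a i))} {hb : ∀ i, 0 < ordO (constantCoeff (b i))}
    (haε : ∀ i, a i ∈ Fil ε 1) (hbε : ∀ i, b i ∈ Fil ε 1) (hab : ∀ i, a i - b i ∈ I)
    (P : MvPowerSeries σ (MvPowerSeries T (OC p))) :
    evA a ha P - evA b hb P ∈ I :=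
  hom_congr hI (fun i => by simpa using haε i) (fun i => by simpa using hbε i)
    (fun r => by simp) (fun i => by simpa using hab i) P

section one

variable [Fintype T]

/-- Evaluation of a series in one variable at a series. -/
def ev1 (w : MvPowerSeries T (OC p)) (hw : 0 < ordO (constantCoeff w)) :
    PowerSeries (MvPowerSeries T (OC p)) →+* MvPowerSeries T (OC p) :=
  evA (fun _ : Unit => w) fun _ => hw

variable {w : MvPowerSeries T (OC p)} {hw : 0 < ordO (constantCoeff w)}

@[simp]
theorem ev1_X : ev1 w hw PowerSeries.X = w := evA_X (a := fun _ : Unit => w) ()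

@[simp]
theorem ev1_C (b : MvPowerSeries T (OC p)) : ev1 w hw (PowerSeries.C b) = b :=
  evA_C (a := fun _ : Unit => w) b

theorem ev1_congr {w' : MvPowerSeries T (OC p)} {hw' : 0 < ordO (constantCoeff w')}
    (h : w = w') (P : PowerSeries (MvPowerSeries T (OC p))) :
    ev1 w hw P = ev1 w' hw' P := by subst h; rfl

theorem ev1_subst {φ : PowerSeries (MvPowerSeries T (OC p))}
    (hφ : PowerSeries.constantCoeff φ = 0) (P : PowerSeries (MvPowerSeries T (OC p))) :
    ev1 w hw (PowerSeries.subst φ P) =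
      ev1 (ev1 w hw φ) (constantCoeff_evA_pos' (fun _ => hw) hφ) P :=
  evA_subst (σ := Unit) (τ := Unit) (fun _ => hw) (φ := fun _ => φ) (fun _ => hφ) P

theorem evA_subst1 [Fintype σ] {a : σ → MvPowerSeries T (OC p)}
    (ha : ∀ i, 0 < ordO (constantCoeff (a i)))
    {φ : MvPowerSeries σ (MvPowerSeries T (OC p))} (hφ : constantCoeff φ = 0)
    (P : PowerSeries (MvPowerSeries T (OC p))) :
    evA a ha (PowerSeries.subst φ P) = ev1 (evA a ha φ) (constantCoeff_evA_pos' ha hφ) P :=
  evA_subst (σ := Unit) ha (φ := fun _ => φ) (fun _ => hφ) P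

theorem ev1_expand {m : ℕ} (hm : m ≠ 0) (P : PowerSeries (MvPowerSeries T (OC p)))
    (hwm : 0 < ordO (constantCoeff (w ^ m))) :
    ev1 w hw (PowerSeries.expand m hm P) = ev1 (w ^ m) hwm P := by
  rw [PowerSeries.expand_apply, ev1_subst (by simp [hm])]
  exact ev1_congr (by simp) P

end one

end Vale.Agent.P217.CharP
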