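import Vale.Agent.P217.CharP.Spec

/-!
P217, module M8/D3: coefficients of a series in a formal chart.
-/

namespace Vale.Agent.P217.CharP

noncomputable section

open MvPowerSeries

variable {σ K : Type*} [Field K]

/-- `f` and `g` have order at least `a` and differ in order above `a`. -/
def SameLead (a : ℕ) (f g : MvPowerSeries σ K) : Prop :=
  (a : ℕ∞) ≤ f.order ∧ (a : ℕ∞) ≤ g.order ∧ ((a + 1 : ℕ) : ℕ∞) ≤ (f - g).order

theorem SameLead.one : SameLead 0 (1 : MvPowerSeries σ K) 1 := by
  refine ⟨zero_le, zero_le, ?_⟩
  rw [sub_self, order_zero]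
  exact le_top

theorem SameLead.mul {a b : ℕ} {f g f' g' : MvPowerSeries σ K} (h : SameLead a f g)
    (h' : SameLead b f' g') : SameLead (a + b) (f * f') (g * g') := by
  refine ⟨?_, ?_, ?_⟩
  · push_cast; exact (add_le_add h.1 h'.1).trans le_order_mul
  · push_cast; exact (add_le_add h.2.1 h'.2.1).trans le_order_mul
  · rw [show f * f' - g * g' = (f - g) * f' + g * (f' - g') by ring]
    refine le_trans (le_min ?_ ?_) min_order_le_add
    · rw [show a + b + 1 = (a + 1) + b by ring, Nat.cast_add]
      exact (add_le_add h.2.2 h'.1).trans le_order_mul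
    · rw [show a + b + 1 = a + (b + 1) by ring, Nat.cast_add]
      exact (add_le_add h.2.1 h'.2.2).trans le_order_mul

theorem SameLead.pow {f g : MvPowerSeries σ K} (h : SameLead 1 f g) :
    ∀ m : ℕ, SameLead m (f ^ m) (g ^ m)
  | 0 => by simpa using SameLead.one
  | m + 1 => by
    rw [pow_succ, pow_succ]
    exact (SameLead.pow h m).mul h

theorem SameLead.prod {ι : Type*} (s : Finset ι) {a : ι → ℕ} {f g : ι → MvPowerSeries σ K}
    (h : ∀ i, SameLead (a i) (f i) (g i)) :
    SameLead (∑ i ∈ s, a i) (∏ i ∈ s, f i) (∏ i ∈ s, g i) := by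
  classical
  induction s using Finset.induction_on with
  | empty => simpa using SameLead.one
  | @insert i s hi ih =>
    rw [Finset.sum_insert hi, Finset.prod_insert hi, Finset.prod_insert hi]
    exact (h i).mul ih

theorem le_order_finset_sum {ι : Type*} (s : Finset ι) {N : ℕ∞} {f : ι → MvPowerSeries σ K}
    (h : ∀ i ∈ s, N ≤ (f i).order) : N ≤ (∑ i ∈ s, f i).order :=
  Finset.sum_induction f (fun x => N ≤ x.order)
    (fun _ _ ha hb => (le_min ha hb).trans min_order_le_add) (by simp [order_zero]) h

/-- Any series is, degree by degree, a series in a formal chart. -/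
theorem exists_chart_coeff {r : ℕ} {T : Type*} [Fintype T] (χ : Fin r → MvPowerSeries T K)
    (h0 : ∀ s, constantCoeff (χ s) = 0)
    (hbij : Function.Bijective (fun c : T → K =>
      fun s => ∑ t, c t * coeff (Finsupp.single t 1) (χ s)))
    (P : MvPowerSeries T K) :
    ∃ a : (Fin r →₀ ℕ) → K, ∀ (B : ℕ) (S : Finset (Fin r →₀ ℕ)), (∀ m, m ∈ S ↔ m.degree < B) →
      ∀ d : T →₀ ℕ, d.degree < B →
        coeff d (P - ∑ m ∈ S, MvPowerSeries.C (a m) * ∏ s, χ s ^ m s) = 0 := by
  classical
  have hχ : HasSubst χ := hasSubst_of_constantCoeff_zero h0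
  choose col hcol using fun s : Fin r => hbij.2 (Pi.single s 1)
  have hleft : ∀ t t', ∑ s, coeff (Finsupp.single t 1) (χ s) * col s t' =
      if t' = t then 1 else 0 := by
    intro t
    have h1 : (fun c : T → K => fun s => ∑ t, c t * coeff (Finsupp.single t 1) (χ s))
        (fun t' => ∑ s, coeff (Finsupp.single t 1) (χ s) * col s t') =
        (fun c : T → K => fun s => ∑ t, c t * coeff (Finsupp.single t 1) (χ s)) (Pi.single t 1) := by
      funext s'
      simp only [Finset.sum_mul]
      rw [Finset.sum_comm]
      have h2 : ∀ s, ∑ t', col s t' * coeff (Finsupp.single t' 1) (χ s') =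
          (Pi.single s 1 : Fin r → K) s' := fun s => congrFun (hcol s) s'
      simp only [mul_assoc, ← Finset.mul_sum, h2]
      simp [Pi.single_apply]
    intro t'
    have := congrFun (hbij.1 h1) t'
    simpa [Pi.single_apply] using this
  -- linear forms inverse to the linear part
  set lin : T → MvPowerSeries (Fin r) K := fun t => ∑ s, MvPowerSeries.C (col s t) * X s with hlindef
  have hlin : ∀ t, SameLead 1 (subst χ (lin t)) (X t) := by
    intro t
    have e : subst χ (lin t) = ∑ s, MvPowerSeries.C (col s t) * χ s := by
      rw [← coe_substAlgHom hχ, hlindef, map_sum]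
      refine Finset.sum_congr rfl fun s _ => ?_
      rw [coe_substAlgHom hχ, subst_mul hχ, subst_C, subst_X hχ]
    have hc0 : constantCoeff (subst χ (lin t)) = 0 := by simp [e, h0]
    refine ⟨?_, ?_, MvPowerSeries.nat_le_order fun d hd => ?_⟩
    · exact_mod_cast one_le_order_iff_constCoeff_eq_zero.mpr hc0
    · exact_mod_cast one_le_order_iff_constCoeff_eq_zero.mpr (constantCoeff_X t)
    · rcases Nat.lt_or_ge d.degree 1 with h | h
      · have hdz : d = 0 := (Finsupp.degree_eq_zero_iff d).mp (by omega)
        subst hdz
        simp [hc0]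
      · obtain ⟨t', rfl⟩ : ∃ t', d = Finsupp.single t' 1 := by
          have h1 : d.degree = 1 := by omega
          obtain ⟨t', ht'⟩ : ∃ t', d t' ≠ 0 := by
            by_contra hc
            push Not at hc
            rw [show d = 0 from Finsupp.ext hc, map_zero] at h1
            exact one_ne_zero h1.symm
          refine ⟨t', ?_⟩
          have hle : Finsupp.single t' 1 ≤ d := Finsupp.single_le_iff.mpr (Nat.one_le_iff_ne_zero.mpr ht')
          have h2 := congrArg Finsupp.degree (tsub_add_cancel_of_le hle)
          rw [map_add, Finsupp.degree_single, h1] at h2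
          have h3 : d - Finsupp.single t' 1 = 0 := (Finsupp.degree_eq_zero_iff _).mp (by omega)
          conv_lhs => rw [← tsub_add_cancel_of_le hle, h3, zero_add]
        rw [map_sub, e, map_sum, coeff_X]
        simp only [coeff_C_mul]
        have := hleft t' t
        simp only [mul_comm (coeff _ _)] at this
        rw [this]
        simp [Finsupp.single_eq_single_iff, eq_comm]
  let corr : ℕ → MvPowerSeries T K → MvPowerSeries (Fin r) K := fun n R =>
    homogeneousComponent n
      (∑ d ∈ (Finset.univ : Finset T).finsuppAntidiag n,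
        MvPowerSeries.C (coeff d R) * ∏ t, lin t ^ d t)
  let rest : ℕ → MvPowerSeries T K := fun n => Nat.rec P (fun n R => R - subst χ (corr n R)) n
  have hrest_succ : ∀ n, rest (n + 1) = rest n - subst χ (corr n (rest n)) := fun n => rfl
  have hord : ∀ n : ℕ, (n : ℕ∞) ≤ (rest n).order := by
    intro n
    induction n with
    | zero => exact zero_le
    | succ n ih =>
      rw [hrest_succ]
      set D := (Finset.univ : Finset T).finsuppAntidiag n
      have hDmem : ∀ d : T →₀ ℕ, d ∈ D ↔ d.degree = n := fun d => by
        simp [D, Finset.mem_finsuppAntidiag, Finsupp.degree_eq_sum]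
      set U := ∑ d ∈ D, MvPowerSeries.C (coeff d (rest n)) * ∏ t, lin t ^ d t
      have hUord : (n : ℕ∞) ≤ U.order := by
        refine le_order_finset_sum D fun d hd => ?_
        refine le_trans ?_ le_order_mul
        refine le_trans ?_ (le_add_of_nonneg_left zero_le)
        refine le_trans ?_ (le_order_prod _ _)
        rw [← (hDmem d).mp hd, Finsupp.degree_eq_sum, Nat.cast_sum]
        refine Finset.sum_le_sum fun t _ => ?_
        exact le_order_pow_of_constantCoeff_eq_zero _ (by simp [lin])
      have h1 : ((n + 1 : ℕ) : ℕ∞) ≤ (U - homogeneousComponent n U).order := by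
        refine MvPowerSeries.nat_le_order fun d hd => ?_
        rw [map_sub, coeff_homogeneousComponent]
        split_ifs with h
        · exact sub_self _
        · rw [sub_zero]
          refine coeff_of_lt_order (lt_of_lt_of_le ?_ hUord)
          exact_mod_cast (show d.degree < n by omega)
      have h2 : ((n + 1 : ℕ) : ℕ∞) ≤ (subst χ (U - homogeneousComponent n U)).order := by
        refine le_trans ?_ (le_order_subst hχ _)
        exact h1.trans (le_mul_of_one_le_left zero_le (le_iInf fun s =>
          one_le_order_iff_constCoeff_eq_zero.mpr (h0 s)))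
      set M := ∑ d ∈ D, MvPowerSeries.C (coeff d (rest n)) * ∏ t, (X t : MvPowerSeries T K) ^ d t
      have h3 : ((n + 1 : ℕ) : ℕ∞) ≤ (subst χ U - M).order := by
        rw [← coe_substAlgHom hχ, map_sum, ← Finset.sum_sub_distrib]
        refine le_order_finset_sum D fun d hd => ?_
        rw [map_mul, map_prod, coe_substAlgHom hχ, subst_C, ← mul_sub]
        refine le_trans ?_ le_order_mul
        refine le_trans ?_ (le_add_of_nonneg_left zero_le)
        have h4 := SameLead.prod Finset.univ (f := fun t => subst χ (lin t ^ d t))
          (g := fun t => (X t : MvPowerSeries T K) ^ d t) (a := fun t => d t) fun t => by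
            rw [subst_pow hχ]; exact (hlin t).pow _
        have h5 : ∑ t, d t = n := by rw [← (hDmem d).mp hd, Finsupp.degree_eq_sum]
        rw [h5] at h4
        exact h4.2.2
      have h6 : ((n + 1 : ℕ) : ℕ∞) ≤ (rest n - M).order := by
        refine MvPowerSeries.nat_le_order fun d hd => ?_
        rw [map_sub]
        have hmono : ∀ e : T →₀ ℕ, (∏ t, (X t : MvPowerSeries T K) ^ e t) = monomial e 1 := by
          intro e
          rw [monomial_eq', map_one, one_mul, Finsupp.prod_fintype _ _ fun i => pow_zero _]
        have hM : coeff d M = if d.degree = n then coeff d (rest n) else 0 := by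
          simp only [M, map_sum, coeff_C_mul, hmono, coeff_monomial, mul_ite, mul_one, mul_zero]
          rw [Finset.sum_ite_eq]
          simp only [hDmem]
        rw [hM]
        split_ifs with h
        · exact sub_self _
        · rw [sub_zero]
          refine coeff_of_lt_order (lt_of_lt_of_le ?_ ih)
          exact_mod_cast (show d.degree < n by omega)
      have e : rest n - subst χ (corr n (rest n)) =
          (rest n - M) + (subst χ (U - homogeneousComponent n U) - (subst χ U - M)) := by
        have e2 : subst χ (U - homogeneousComponent n U) =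
            subst χ U - subst χ (corr n (rest n)) := subst_sub hχ _ _
        rw [e2]; ring
      rw [e]
      refine le_trans (le_min h6 ?_) min_order_le_add
      rw [sub_eq_add_neg]
      exact le_trans (le_min h2 (h3.trans (order_neg _).ge)) min_order_le_add
  refine ⟨fun m => coeff m (corr m.degree (rest m.degree)), fun B S hS d hd => ?_⟩
  have htel : ∀ n, P - subst χ (∑ i ∈ Finset.range n, corr i (rest i)) = rest n := by
    intro n
    induction n with
    | zero =>
      rw [Finset.sum_range_zero, ← coe_substAlgHom hχ, map_zero, sub_zero]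
      rfl
    | succ n ih =>
      rw [Finset.sum_range_succ, subst_add hχ, hrest_succ, ← ih]
      ring
  have hsum : ∑ i ∈ Finset.range B, corr i (rest i) =
      ∑ m ∈ S, monomial m (coeff m (corr m.degree (rest m.degree))) := by
    ext m
    simp only [map_sum, coeff_monomial]
    rw [Finset.sum_ite_eq]
    have hc : ∀ i, coeff m (corr i (rest i)) =
        if i = m.degree then coeff m (corr i (rest i)) else 0 := by
      intro i
      split_ifs with hi
      · rfl
      · simp only [corr, coeff_homogeneousComponent, if_neg (Ne.symm hi)]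
    rw [Finset.sum_congr rfl fun i _ => hc i, Finset.sum_ite_eq']
    simp only [Finset.mem_range, hS]
  have hmono : ∀ (m : Fin r →₀ ℕ) (c : K), subst χ (monomial m c) = MvPowerSeries.C c * ∏ s, χ s ^ m s := by
    intro m c
    rw [subst_monomial hχ, Finsupp.prod_fintype _ _ fun i => pow_zero _]
    exact congrArg (· * _) (MvPowerSeries.algebraMap_apply.trans rfl)
  simp only [← hmono]
  rw [← coe_substAlgHom hχ, ← map_sum, coe_substAlgHom hχ, ← hsum, htel]
  exact coeff_of_lt_order (lt_of_lt_of_le (by exact_mod_cast hd) (hord B))

theorem chartStatement (p : ℕ) [Fact p.Prime] : ChartStatement p :=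
  fun _ _ _ χ h0 hbij P => exists_chart_coeff χ h0 hbij P

end

end Vale.Agent.P217.CharP
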