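import Vale.Agent.P217.CharP.Setup

/-!
P217, module M8: iota as a series in the displacement of the point.
-/

open MvPowerSeries

noncomputable section

namespace Vale.Agent.P217.CharP

variable {p n : ℕ} [Fact p.Prime]

theorem isClosedFil_Fil' {T : Type*} {ε ε' : ℚ} (hε' : ε' ≠ 0) (N : ℕ) :
    IsClosedFil ε' (Fil (p := p) (T := T) ε N) := by
  intro a h d
  obtain ⟨M, hM⟩ := exists_nat_gt ((N : ℚ) * |ε| / |ε'|)
  obtain ⟨y, hy, z, hz, rfl⟩ := Submodule.mem_sup.1 (h (M + d.degree))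
  show _ ≤ ord ((MvPowerSeries.coeff d (y + z) : OC p) : C p)
  rw [map_add, Subring.coe_add]
  refine le_ord_add (hy d) (le_trans ?_ (hz d))
  rw [WithTop.coe_le_coe, Nat.add_sub_cancel, nsmul_eq_mul, nsmul_eq_mul]
  rw [div_lt_iff₀ (abs_pos.2 hε')] at hM
  refine le_trans (mul_le_mul_of_nonneg_right ?_ (abs_nonneg ε)) hM.le
  exact_mod_cast Nat.sub_le N d.degree

theorem le_ord_evO_of_mem_Fil {T : Type*} [Fintype T] {ε : ℚ} (hε : 0 < ε) {N : ℕ}
    {a : MvPowerSeries T (OC p)} (ha : a ∈ Fil ε N) {z : T → OC p}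
    {hz : ∀ t, 0 < ordO (z t)} (hzε : ∀ t, (ε : WithTop ℚ) ≤ ordO (z t)) :
    ((N • ε : ℚ) : WithTop ℚ) ≤ ordO (evO z hz a) := by
  show _ ≤ ord (evO z hz a : C p)
  rw [coe_evO]
  refine le_ord_evalC (intCoeff_of subtype_nonneg a) hz fun d _ => ?_
  rw [ord_mul]
  refine le_trans ?_ (add_le_add (ha d) (le_ord_prod_pow hzε d))
  rw [← WithTop.coe_add, WithTop.coe_le_coe, abs_of_pos hε, ← add_nsmul,
    ← Finsupp.degree_eq_sum]
  exact nsmul_le_nsmul_left hε.le (by omega)

namespace Setup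

variable (S : Setup p n)

/-- A positive lower bound for the coordinates of the point. -/
def eps : ℚ := (exists_bound_O (z := fun j => S.x (u p n j)) S.pos).choose

theorem eps_pos : 0 < S.eps :=
  (exists_bound_O (z := fun j => S.x (u p n j)) S.pos).choose_spec.1

theorem eps_le (j : Fin (n - 1)) : (S.eps : WithTop ℚ) ≤ ordO (S.a j) :=
  (exists_bound_O (z := fun j => S.x (u p n j)) S.pos).choose_spec.2 j

variable {S} in
/-- A nearby point within the bound. -/
def Near.Small (δ : S.Near) : Prop := ∀ t, (S.eps : WithTop ℚ) ≤ ordO (δ.d t)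

theorem base_small : S.base.Small := fun t => by
  show _ ≤ ord ((0 : OC p) : C p)
  rw [ZeroMemClass.coe_zero, ord_zero]
  exact le_top

theorem Near.Small.hom_u {S : Setup p n} {δ : S.Near} (hδ : δ.Small) (j : Fin (n - 1)) :
    (S.eps : WithTop ℚ) ≤ ordO (δ.hom (u p n j)) := by
  rw [Near.hom_u]
  split_ifs
  · exact le_ord_add (S.eps_le j) (hδ _)
  · show _ ≤ ord ((0 : OC p) : C p)
    rw [ZeroMemClass.coe_zero, ord_zero]
    exact le_top

/-- Points with values in series around the base point. -/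
abbrev Pnt : Type := {w : MvPowerSeries S.Free (OC p) // 0 < ordO (constantCoeff w)}

/-- Multiplication by p on points over series around the base point. -/
def step (w : S.Pnt) : S.Pnt :=
  ⟨ev1 w.1 w.2 (mulSeries S.law p),
    constantCoeff_evA_pos' (fun _ => w.2) (constantCoeff_mulSeries S.law p)⟩

theorem pow_q_pos (w : S.Pnt) : 0 < ordO (constantCoeff (w.1 ^ p ^ S.h)) := by
  obtain ⟨m, hm⟩ := Nat.exists_eq_succ_of_ne_zero
    (pow_ne_zero S.h (Fact.out : p.Prime).ne_zero)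
  rw [hm, pow_succ, map_mul, ordO, Subring.coe_mul, ord_mul]
  exact lt_of_lt_of_le w.2 (le_add_of_nonneg_left (ordO_nonneg _))

theorem step_eq (w : S.Pnt) :
    (S.step w).1 = ev1 (w.1 ^ p ^ S.h) (S.pow_q_pos w) S.g := by
  show ev1 w.1 w.2 (mulSeries S.law p) = _
  rw [S.g_spec, ev1_expand]

/-- Multiplication by p only depends on the p^h-th power. -/
theorem step_sub_mem {I : Ideal (MvPowerSeries S.Free (OC p))}
    (hI : ∀ ε : ℚ, ε ≠ 0 → IsClosedFil ε I) {w w' : S.Pnt}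
    (h : (w.1 - w'.1) ^ p ^ S.h ∈ I) : (S.step w).1 - (S.step w').1 ∈ I := by
  rw [step_eq, step_eq]
  obtain ⟨ε, hε, hb⟩ := exists_bound_A (a := fun i : Fin 2 => ![w.1 ^ p ^ S.h, w'.1 ^ p ^ S.h] i)
    (fun i => by fin_cases i <;> [exact S.pow_q_pos w; exact S.pow_q_pos w'])
  refine evA_sub_mem (hI ε hε.ne') (fun _ => hb 0) (fun _ => hb 1) (fun _ => ?_) S.g
  show w.1 ^ p ^ S.h - w'.1 ^ p ^ S.h ∈ I
  rw [← sub_pow_char_pow]
  exact h

theorem step_sub_Fil {N : ℕ} {w w' : S.Pnt} (h : w.1 - w'.1 ∈ Fil S.eps N) :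
    (S.step w).1 - (S.step w').1 ∈ Fil S.eps (p ^ S.h * N) :=
  S.step_sub_mem (fun _ hε => isClosedFil_Fil' hε _) (pow_mem_Fil h _)

theorem iterate_sub_Fil {N : ℕ} {w w' : S.Pnt} (h : w.1 - w'.1 ∈ Fil S.eps N) :
    ∀ l : ℕ, ((S.step^[l]) w).1 - ((S.step^[l]) w').1 ∈ Fil S.eps ((p ^ S.h) ^ l * N)
  | 0 => by simpa using h
  | l + 1 => by
    rw [Function.iterate_succ_apply', Function.iterate_succ_apply', pow_succ', mul_assoc]
    exact S.step_sub_Fil (iterate_sub_Fil h l)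

/-- Evaluation of `step` at a nearby point. -/
theorem coe_evO_step (δ : S.Near) (w : S.Pnt) :
    ((evO δ.d δ.pos (S.step w).1 : OC p) : C p) =
      eval₁C p (RingHom.id (C p)) (mulSeries δ.law p) (evO δ.d δ.pos w.1 : OC p) := by
  show ((evO δ.d δ.pos (evA _ _ _) : OC p) : C p) = _
  rw [evO_evA, coe_evO, evalC_map, eval₁C, Near.law, law, ← map_mulSeries, ← map_mulSeries]
  show evalC p _ (MvPowerSeries.map S.tay _) _ = evalC p _ (MvPowerSeries.map _ _) _
  rw [evalC_map, evalC_map]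
  rfl

theorem coe_evO_iterate (δ : S.Near) (w : S.Pnt) : ∀ l : ℕ,
    ((evO δ.d δ.pos ((S.step^[l]) w).1 : OC p) : C p) =
      (eval₁C p (RingHom.id (C p)) (mulSeries δ.law p))^[l] (evO δ.d δ.pos w.1 : OC p)
  | 0 => rfl
  | l + 1 => by
    rw [Function.iterate_succ_apply', Function.iterate_succ_apply', coe_evO_step,
      coe_evO_iterate δ w l]

/-- The root of a point, as a constant series. -/
def start (V : C p) (hV : 0 < ord V) (l : ℕ) : S.Pnt :=
  ⟨MvPowerSeries.C ⟨powZ p V (-((n : ℤ) * l)), (ord_powZ_pos hV _).le⟩,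
    by simp [ordO, ord_powZ_pos hV]⟩

theorem coe_evO_start (δ : S.Near) {V : C p} (hV : 0 < ord V) (l : ℕ) :
    ((evO δ.d δ.pos (S.start V hV l).1 : OC p) : C p) = powZ p V (-((n : ℤ) * l)) := by
  simp [start]

/-- The approximations of iota. -/
def seq (V : C p) (hV : 0 < ord V) (l : ℕ) : S.Pnt := (S.step^[l]) (S.start V hV l)

theorem coe_evO_seq (δ : S.Near) {V : C p} (hV : 0 < ord V) (l : ℕ) :
    ((evO δ.d δ.pos (S.seq V hV l).1 : OC p) : C p) =
      (eval₁C p (RingHom.id (C p)) (mulSeries δ.law p))^[l] (powZ p V (-((n : ℤ) * l))) := by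
  rw [seq, coe_evO_iterate, coe_evO_start]

theorem base_ne : S.base.hom (u p n S.i) ≠ 0 := by rw [base_hom]; exact S.ne

theorem step_start_mem {V : C p} (hV : 0 < ord V) (l : ℕ) :
    (S.step (S.start V hV (l + 1))).1 - (S.start V hV l).1 ∈ Fil S.eps 1 := by
  refine mem_Fil_one ?_
  rw [abs_of_pos S.eps_pos, ← evO_zero]
  show _ ≤ ord ((evO S.base.d S.base.pos
    ((S.step (S.start V hV (l + 1))).1 - (S.start V hV l).1) : OC p) : C p)
  rw [map_sub, AddSubgroupClass.coe_sub, coe_evO_step, coe_evO_start, coe_evO_start]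
  have hg := S.near_good S.eps_pos (base_small S).hom_u S.base_ne
  set w := powZ p V (-((n : ℤ) * ((l + 1 : ℕ) : ℤ))) with hw
  have hwpos : 0 < ord w := ord_powZ_pos hV _
  have e : powZ p V (-((n : ℤ) * (l : ℤ))) = w ^ p ^ n := by
    rw [← powZ_natCast, hw, powZ_powZ]
    congr 1
    push_cast
    ring
  have hint : IntCoeff (RingHom.id (C p))
      (mulSeries S.base.law p : MvPowerSeries Unit (C p)) :=
    intCoeff_mulSeries (fun d => hg.int d) p
  have hX : IntCoeff (RingHom.id (C p))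
      (PowerSeries.X ^ p ^ n : MvPowerSeries Unit (C p)) := (intCoeff_X ()).pow _
  rw [e, ← eval₁C_X_pow (c := RingHom.id (C p)) (u := w), ← eval₁C_sub hint hX hwpos, eval₁C]
  refine le_ord_evalC (hint.sub hX) (fun _ => hwpos) fun d _ => ?_
  rw [ord_mul]
  refine le_trans ?_ (le_add_of_nonneg_right
    ((OC p).prod_mem fun _ _ => (OC p).pow_mem hwpos.le _))
  rw [show d = Finsupp.single () (d ()) from Finsupp.unique_single d]
  exact hg.close_p (d ())

theorem seq_sub_Fil {V : C p} (hV : 0 < ord V) (l : ℕ) :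
    (S.seq V hV (l + 1)).1 - (S.seq V hV l).1 ∈ Fil S.eps ((p ^ S.h) ^ l) := by
  rw [seq, seq, Function.iterate_succ_apply]
  simpa using S.iterate_sub_Fil (S.step_start_mem hV l) l

theorem le_pow_q (l : ℕ) : l ≤ (p ^ S.h) ^ l :=
  (Nat.lt_pow_self (Nat.one_lt_pow (by have := S.one_le_h; omega)
    (Fact.out : p.Prime).one_lt)).le

theorem exists_chi {V : C p} (hV : 0 < ord V) :
    ∃ c, ∀ N, ∃ L, ∀ l ≥ L, c - (S.seq V hV l).1 ∈ Fil S.eps N :=
  exists_limit_Fil S.eps_pos.ne' (fun l => (S.seq V hV l).1) fun N => ⟨N, fun l hl =>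
    Fil_mono (hl.trans (S.le_pow_q l)) (S.seq_sub_Fil hV l)⟩

/-- Iota as a series in the displacement. -/
def chi (V : C p) (hV : 0 < ord V) : MvPowerSeries S.Free (OC p) := (S.exists_chi hV).choose

theorem chi_spec {V : C p} (hV : 0 < ord V) (N : ℕ) :
    ∃ L, ∀ l ≥ L, S.chi V hV - (S.seq V hV l).1 ∈ Fil S.eps N :=
  (S.exists_chi hV).choose_spec N

theorem chi_pos {V : C p} (hV : 0 < ord V) : 0 < ordO (constantCoeff (S.chi V hV)) := by
  obtain ⟨L, hL⟩ := S.chi_spec hV 1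
  have h : S.chi V hV = (S.chi V hV - (S.seq V hV L).1) + (S.seq V hV L).1 := by ring
  rw [h, map_add, ordO, Subring.coe_add]
  refine lt_ord_add ?_ (S.seq V hV L).2
  refine lt_of_lt_of_le (WithTop.coe_pos.2 (abs_pos.2 S.eps_pos.ne')) ?_
  simpa [ordO, MvPowerSeries.coeff_zero_eq_constantCoeff_apply] using hL L le_rfl 0

/-- The series is iota at every small nearby point. -/
theorem isIota_chi {δ : S.Near} (hδ : δ.Small) {V : C p} (hV : 0 < ord V) :
    IsIota p n δ.law V ((evO δ.d δ.pos (S.chi V hV) : OC p) : C p) := by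
  intro B
  obtain ⟨N, hN⟩ := exists_nat_gt (B / S.eps)
  obtain ⟨L, hL⟩ := S.chi_spec hV N
  refine ⟨L, fun l hl => ?_⟩
  rw [← coe_evO_seq S δ hV, ← AddSubgroupClass.coe_sub, ← map_sub]
  refine lt_of_lt_of_le ?_ (le_ord_evO_of_mem_Fil S.eps_pos (hL l hl) hδ)
  rw [WithTop.coe_lt_coe, nsmul_eq_mul]
  rwa [div_lt_iff₀ S.eps_pos] at hN

/-- The series of the root is carried to the series by multiplication by p. -/
theorem chi_eq_step {V : C p} (hV : 0 < ord V) :
    S.chi V hV =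
      (S.step ⟨S.chi (powZ p V (-(n : ℤ))) (ord_powZ_pos hV _),
        S.chi_pos _⟩).1 := by
  refine sub_eq_zero.1 (eq_zero_of_forall_mem_Fil S.eps_pos.ne' fun N => ?_)
  obtain ⟨L, hL⟩ := S.chi_spec hV N
  obtain ⟨L', hL'⟩ := S.chi_spec (ord_powZ_pos hV (-(n : ℤ))) N
  set V' := powZ p V (-(n : ℤ)) with hV'
  set m := max L L'
  have hseq : S.seq V hV (m + 1) = S.step (S.seq V' (ord_powZ_pos hV _) m) := by
    rw [seq, seq, Function.iterate_succ_apply']
    congr 2
    apply Subtype.ext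
    simp only [start]
    congr 1
    apply Subtype.ext
    show powZ p V _ = powZ p V' _
    rw [hV', powZ_powZ]
    congr 1
    push_cast
    ring
  have h1 := hL (m + 1) (by omega)
  have h2 : (S.step ⟨S.chi V' (ord_powZ_pos hV _), S.chi_pos _⟩).1 -
      (S.seq V hV (m + 1)).1 ∈ Fil S.eps N := by
    rw [hseq]
    refine Fil_mono ?_ (S.step_sub_Fil (hL' m (le_max_right _ _)))
    exact Nat.le_mul_of_pos_left N (pow_pos (Fact.out : p.Prime).pos _)
  simpa using sub_mem h1 h2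

end Setup

end Vale.Agent.P217.CharP
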