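import Vale.Agent.P217.CharP.Spec
import Vale.Agent.P217.Deform.Congr

/-!
D2: the automorphisms X +_Γ η^(p^(n k)) act trivially modulo the (k+1)-st power of the maximal
ideal.
-/

namespace Vale.Agent.P217.Deform

noncomputable section

open MvPowerSeries

variable {p n : ℕ} [Fact p.Prime]

theorem mE_eq_heightIdeal (hn : 1 ≤ n) : mE p n = heightIdeal p n n := by
  obtain ⟨h, rfl⟩ : ∃ h, n = h + 1 := ⟨n - 1, by omega⟩
  refine le_antisymm (fun f hf => ?_) ?_
  · have hlow : f - MvPowerSeries.C (constantCoeff f) ∈ lowI _ _ (0 + 1) :=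
      mem_lowI_one.mpr (by simp)
    obtain ⟨g, hg, -, -⟩ := exists_sum_X_mul hlow
    have hc : constantCoeff f ∈ Ideal.span {(p : W p (h + 1))} := by
      rw [← WittVector.ker_constantCoeff, RingHom.mem_ker]
      exact hf
    obtain ⟨c, hc⟩ := Ideal.mem_span_singleton.mp hc
    rw [← sub_add_cancel f (MvPowerSeries.C (constantCoeff f)), hg, hc, map_mul, map_natCast]
    refine add_mem (Ideal.sum_mem _ fun i _ => Ideal.mul_mem_right _ _ ?_)
      (Ideal.mul_mem_right _ _ ?_)
    · exact Ideal.subset_span (Set.mem_insert_of_mem _ ⟨i, by have := i.2; omega, rfl⟩)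
    · exact Ideal.subset_span (Set.mem_insert _ _)
  · rw [heightIdeal, Ideal.span_le]
    rintro x (rfl | ⟨i, -, rfl⟩)
    · simp [mE, res]
    · simp [mE, res, u]

end

end Vale.Agent.P217.Deform

namespace Vale.Agent.P217.CharP

noncomputable section

variable {p : ℕ} [Fact p.Prime]

/-- The proof of CongrStatement. -/
theorem congrStatement (n : ℕ) : CongrStatement p n := by
  intro hn F hF _ hA η hη k hk
  have hq := Deform.subst_X_pow_eq_pow hn η k
  have haut := Deform.isAut_near_one hn hF hη hk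
  rw [hq] at haut
  obtain ⟨φ, hφ, -⟩ := hA hn F hF _ haut
  refine ⟨φ, hφ, fun i => ?_⟩
  rw [← Deform.mE_eq_heightIdeal hn]
  refine Deform.actsBy_near_one hn hF hη k ?_ (u p n i)
  rw [hq]
  exact hφ

end

end Vale.Agent.P217.CharP
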