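import Vale.Agent.P217.CharP.Spec
import Vale.Agent.P217.Rigid.Sep

/-!
P217, module M8/D3: asymptotic vanishing along Frobenius powers gives exact vanishing of a series
over the residue field.
-/

namespace Vale.Agent.P217.CharP

noncomputable section

open MvPowerSeries Rigid

variable {p : ℕ} [Fact p.Prime]

/-- Components with distinct leading exponents cannot cancel along growing powers. -/
theorem le_of_sum_powers {m : ℕ} (e : Fin m → C p) (hne : ∀ ν, e ν ≠ 0)
    (hinj : Function.Injective fun ν => ord (e ν)) (β D : ℚ) (w : Fin m → WithTop ℚ)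
    (hyp : ∀ N : ℕ, ∃ (Q : ℕ) (u : Fin m → C p), N ≤ Q ∧
      (∀ ν, w ν < β → ord (u ν) = Q • w ν) ∧
      (∀ ν, (β : WithTop ℚ) ≤ w ν → (((Q : ℚ) * β : ℚ) : WithTop ℚ) ≤ ord (u ν)) ∧
      (((Q : ℚ) * β - D : ℚ) : WithTop ℚ) ≤ ord (∑ ν, e ν * u ν)) :
    ∀ ν, (β : WithTop ℚ) ≤ w ν := by
  classical
  by_contra hc
  push Not at hc
  obtain ⟨ν₁, hν₁⟩ := hc
  set W := Finset.univ.filter fun ν => w ν < β
  have hmemW : ∀ ν, ν ∈ W ↔ w ν < β := fun ν => by simp [W]
  have hwν : ∀ ν ∈ W, ∃ v : ℚ, (v : WithTop ℚ) = w ν := fun ν hν =>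
    WithTop.ne_top_iff_exists.mp ((hmemW ν).mp hν).ne_top
  choose! v hv using hwν
  have hene : ∀ ν, ∃ γ : ℚ, (γ : WithTop ℚ) = ord (e ν) := fun ν =>
    WithTop.ne_top_iff_exists.mp (mt ord_eq_top.mp (hne ν))
  choose γ hγ using hene
  set gap : Finset ℚ := insert 0 ((Finset.univ ×ˢ W).image fun x : Fin m × Fin m =>
      |γ x.1| + |γ x.2| + |D|)
  set G : ℚ := gap.max' ⟨0, Finset.mem_insert_self _ _⟩
  have hG : ∀ ν, ∀ ν' ∈ W, |γ ν| + |γ ν'| + |D| ≤ G := fun ν ν' hν' =>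
    Finset.le_max' gap (|γ ν| + |γ ν'| + |D|) (Finset.mem_insert_of_mem
      (Finset.mem_image.mpr ⟨(ν, ν'), Finset.mem_product.mpr ⟨Finset.mem_univ _, hν'⟩, rfl⟩))
  set diffs : Finset ℚ := insert 1 (((W ×ˢ W).image fun x => |v x.1 - v x.2|).filter (0 < ·) ∪
    W.image fun ν => β - v ν)
  set δ : ℚ := diffs.min' ⟨1, Finset.mem_insert_self _ _⟩
  have hδ0 : 0 < δ := by
    refine (Finset.lt_min'_iff diffs _).mpr fun q hq => ?_
    rcases Finset.mem_insert.mp hq with rfl | hq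
    · exact one_pos
    rcases Finset.mem_union.mp hq with hq | hq
    · exact (Finset.mem_filter.mp hq).2
    · obtain ⟨ν, hν, rfl⟩ := Finset.mem_image.mp hq
      have := (hmemW ν).mp hν
      rw [← hv ν hν, WithTop.coe_lt_coe] at this
      linarith
  obtain ⟨N, hN⟩ := exists_nat_gt (G / δ)
  have hN' : G < (N : ℚ) * δ := by rwa [div_lt_iff₀ hδ0] at hN
  obtain ⟨Q, u, hNQ, hlow, hhigh, hsum⟩ := hyp N
  have hbig : G < (Q : ℚ) * δ :=
    hN'.trans_le (mul_le_mul_of_nonneg_right (by exact_mod_cast hNQ) hδ0.le)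
  set val : Fin m → ℚ := fun ν => γ ν + (Q : ℚ) * v ν
  obtain ⟨ν₀, hν₀, hmin⟩ := Finset.exists_min_image W val ⟨ν₁, (hmemW ν₁).mpr hν₁⟩
  have hterm : ∀ ν ∈ W, ord (e ν * u ν) = ((val ν : ℚ) : WithTop ℚ) := by
    intro ν hν
    rw [ord_mul, hlow ν ((hmemW ν).mp hν), ← hγ, ← hv ν hν, ← WithTop.coe_nsmul,
      ← WithTop.coe_add, nsmul_eq_mul]
  have hgapD : ∀ ν ∈ W, δ ≤ β - v ν := fun ν hν =>
    Finset.min'_le diffs (β - v ν) (Finset.mem_insert_of_mem (Finset.mem_union_right _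
      (Finset.mem_image_of_mem _ hν)))
  have hgapW : ∀ ν ∈ W, ∀ ν' ∈ W, v ν < v ν' → δ ≤ v ν' - v ν := by
    intro ν hν ν' hν' hlt
    rw [← abs_of_pos (sub_pos.mpr hlt)]
    exact Finset.min'_le diffs |v ν' - v ν| (Finset.mem_insert_of_mem (Finset.mem_union_left _
      (Finset.mem_filter.mpr ⟨Finset.mem_image.mpr
        ⟨(ν', ν), Finset.mem_product.mpr ⟨hν', hν⟩, rfl⟩,
        abs_pos.mpr (sub_ne_zero.mpr hlt.ne')⟩)))
  have hothers : ∀ ν ≠ ν₀, ((val ν₀ : ℚ) : WithTop ℚ) < ord (e ν * u ν) := by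
    intro ν hν
    by_cases hνW : ν ∈ W
    · rw [hterm ν hνW, WithTop.coe_lt_coe]
      refine lt_of_le_of_ne (hmin ν hνW) fun heq => ?_
      have hγne : γ ν₀ ≠ γ ν := fun h =>
        hν (hinj (show ord (e ν) = ord (e ν₀) by rw [← hγ, ← hγ, h]))
      have hG' := hG ν₀ ν hνW
      rcases lt_trichotomy (v ν) (v ν₀) with hlt | heqw | hlt
      · have := hgapW ν hνW ν₀ hν₀ hlt
        simp only [val] at heq
        nlinarith [le_abs_self (γ ν), neg_abs_le (γ ν₀), abs_nonneg D]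
      · simp only [val, heqw] at heq
        exact hγne (by linarith)
      · have := hgapW ν₀ hν₀ ν hνW hlt
        simp only [val] at heq
        nlinarith [le_abs_self (γ ν₀), neg_abs_le (γ ν), abs_nonneg D]
    · rw [ord_mul, ← hγ]
      refine lt_of_lt_of_le ?_
        (add_le_add le_rfl (hhigh ν (not_lt.mp (mt (hmemW ν).mpr hνW))))
      rw [← WithTop.coe_add, WithTop.coe_lt_coe]
      have hG' := hG ν ν₀ hν₀
      have := hgapD ν₀ hν₀
      simp only [val]
      nlinarith [le_abs_self (γ ν₀), neg_abs_le (γ ν), abs_nonneg D]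
  have hrest : ((val ν₀ : ℚ) : WithTop ℚ) < ord (∑ ν ∈ Finset.univ.erase ν₀, e ν * u ν) :=
    Finset.sum_induction _ (fun x => ((val ν₀ : ℚ) : WithTop ℚ) < ord x)
      (fun _ _ => lt_ord_add) (by rw [ord_zero]; exact WithTop.coe_lt_top _)
      fun ν hν => hothers ν (Finset.ne_of_mem_erase hν)
  have hall : ((val ν₀ : ℚ) : WithTop ℚ) < ord (∑ ν, e ν * u ν) := by
    refine lt_of_lt_of_le ?_ hsum
    rw [WithTop.coe_lt_coe]
    have hG' := hG ν₀ ν₀ hν₀
    have := hgapD ν₀ hν₀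
    simp only [val]
    nlinarith [le_abs_self (γ ν₀), abs_nonneg (γ ν₀), le_abs_self D]
  have h3 := lt_ord_sub hall hrest
  rw [← Finset.add_sum_erase _ _ (Finset.mem_univ ν₀), add_sub_cancel_right,
    hterm ν₀ hν₀] at h3
  exact lt_irrefl _ h3

theorem ord_eq_of_le_sub {x y : C p} {β : WithTop ℚ} (h : β ≤ ord (y - x)) (hx : ord x < β) :
    ord y = ord x := by
  refine le_antisymm (not_lt.mp fun hlt => ?_) ?_
  · have h1 := lt_ord_sub hlt (hx.trans_le h)
    rw [sub_sub_cancel] at h1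
    exact lt_irrefl _ h1
  · calc ord x ≤ ord (x + (y - x)) := le_ord_add le_rfl (hx.le.trans h)
      _ = ord y := by rw [add_sub_cancel]

theorem echelonStatement (p : ℕ) [Fact p.Prime] : EchelonStatement p := by
  classical
  intro h r hh a ha
  obtain ⟨m₀, hm₀⟩ : ∃ m₀, a m₀ ≠ 0 := by
    by_contra hc; push Not at hc; exact ha (funext hc)
  obtain ⟨q, hq⟩ : ∃ q, (a m₀).coeff q ≠ 0 := by
    by_contra hc; push Not at hc; exact hm₀ (HahnSeries.ext (funext hc))
  set P : MvPowerSeries (Fin r) (Kb p) := fun d => (a d).coeff q with hP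
  refine ⟨P, fun hc => hq (congrFun hc m₀), fun x hx => ?_⟩
  obtain ⟨c, hc0, hcx, hasymp⟩ := hx
  have hx0 : ∀ i, 0 < ord (x i) := fun i => (WithTop.coe_pos.mpr hc0).trans_le (hcx i)
  refine eq_zero_of_forall_lt_ord fun B₀ => ?_
  obtain ⟨B, hB⟩ := exists_nat_gt (max 0 (B₀ / c))
  have hB0 : (0 : ℚ) < B := lt_of_le_of_lt (le_max_left _ _) hB
  have hBB : B₀ < (B : ℚ) * c := by
    have := lt_of_le_of_lt (le_max_right _ _) hB
    rwa [div_lt_iff₀ hc0] at this
  have hβ0 : (0 : ℚ) < (B : ℚ) * c := mul_pos hB0 hc0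
  set T : Finset (Fin r →₀ ℕ) :=
    ((finite_exponents (σ := Fin r) B).toFinset).filter fun d => ∑ i, d i < B
  have hTmem : ∀ d, d ∈ T ↔ d.degree < B := by
    intro d
    simp only [T, Finset.mem_filter, Set.Finite.mem_toFinset, Set.mem_ofPred_eq,
      Finsupp.degree_eq_sum, and_iff_right_iff_imp]
    exact fun hd i =>
      (Finset.single_le_sum (fun j _ => Nat.zero_le (d j)) (Finset.mem_univ i)).trans_lt hd
  obtain ⟨n, e, hne, hinj, hspan⟩ := exists_distinct_ord_span T a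
  choose b hb using hspan
  let Pν : Fin n → MvPowerSeries (Fin r) (Kb p) := fun ν d => if hd : d ∈ T then b d hd ν else 0
  have hPc : ∀ ν d, coeff d (Pν ν) = if hd : d ∈ T then b d hd ν else 0 := fun ν d => rfl
  have hPsum : ∀ ν (z : Fin r → C p), ev (Pν ν) z =
      ∑ d ∈ T, HahnSeries.C (coeff d (Pν ν)) * ∏ i, z i ^ d i := by
    intro ν z
    refine HasEvalC.evalC_eq (hasSumC_of_support_subset T fun d hd => ?_)
    rw [hPc, dif_neg hd, map_zero, zero_mul]
  obtain ⟨M, hM, hfix⟩ :=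
    exists_period (T.attach.biUnion fun d => Finset.univ.image fun ν => b d.1 d.2 ν)
  have hfixP : ∀ ν l d, coeff d (Pν ν) ^ p ^ (M * l) = coeff d (Pν ν) := by
    intro ν l d
    rw [hPc]
    split_ifs with hd
    · refine pow_mul_eq_self (hfix _ ?_) l
      exact Finset.mem_biUnion.mpr ⟨⟨d, hd⟩, Finset.mem_attach _ _,
        Finset.mem_image.mpr ⟨ν, Finset.mem_univ _, rfl⟩⟩
    · exact zero_pow (pow_ne_zero _ (Fact.out : p.Prime).ne_zero)
  obtain ⟨D, k₀, hk⟩ := hasymp B T hTmem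
  have hsmall : ∀ ν, (((B : ℚ) * c : ℚ) : WithTop ℚ) ≤ ord (ev (Pν ν) x) := by
    refine le_of_sum_powers e hne hinj _ D (fun ν => ord (ev (Pν ν) x)) fun N => ?_
    set k := M * (N + k₀) with hkdef
    have hk0 : k₀ ≤ k := by
      calc k₀ = 1 * k₀ := (one_mul _).symm
        _ ≤ M * (N + k₀) := Nat.mul_le_mul hM (Nat.le_add_left _ _)
    obtain ⟨y, hyx, hy⟩ := hk k hk0
    have hy0 : ∀ i, 0 < ord (y i) := by
      intro i
      rw [show y i = (y i - x i) + x i by ring]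
      exact lt_ord_add ((WithTop.coe_pos.mpr hβ0).trans_le (hyx i)) (hx0 i)
    set Q := p ^ (h * k) with hQ
    refine ⟨Q, fun ν => ev (Pν ν) (fun i => y i ^ Q), ?_, ?_, ?_, ?_⟩
    · refine le_trans ?_ (Nat.lt_pow_self (Fact.out : p.Prime).one_lt).le
      calc N = 1 * (1 * N) := by simp
        _ ≤ h * (M * (N + k₀)) :=
            Nat.mul_le_mul hh (Nat.mul_le_mul hM (Nat.le_add_right _ _))
    all_goals
      have hpow : ∀ ν, ev (Pν ν) (fun i => y i ^ Q) = ev (Pν ν) y ^ Q := fun ν =>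
        ev_pow_of_fixed hy0 _ fun d => by
          rw [hkdef, Nat.mul_left_comm]; exact hfixP ν (h * (N + k₀)) d
      have hlip : ∀ ν, (((B : ℚ) * c : ℚ) : WithTop ℚ) ≤
          ord (ev (Pν ν) y - ev (Pν ν) x) := fun ν =>
        le_ord_evalC_sub (intCoeff_residue _) hy0 hx0 hyx
    · intro ν hν
      dsimp only
      rw [hpow, ord_pow, ord_eq_of_le_sub (hlip ν) hν]
    · intro ν hν
      dsimp only
      rw [hpow, ord_pow, ← nsmul_eq_mul, WithTop.coe_nsmul]
      refine nsmul_le_nsmul_right ?_ _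
      rw [show ev (Pν ν) y = (ev (Pν ν) y - ev (Pν ν) x) + ev (Pν ν) x by ring]
      exact le_ord_add (hlip ν) hν
    · have hsum : ∑ ν, e ν * ev (Pν ν) (fun i => y i ^ Q) =
          ∑ m ∈ T, a m * ∏ s, y s ^ (p ^ (h * k) * m s) := by
        simp only [hPsum, Finset.mul_sum]
        rw [Finset.sum_comm]
        refine Finset.sum_congr rfl fun d hd => ?_
        simp only [hPc, dif_pos hd]
        rw [hb d hd, Finset.sum_mul]
        refine Finset.sum_congr rfl fun ν _ => ?_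
        simp only [← pow_mul, hQ]
        ring
      rw [hsum]
      convert hy using 2
      push_cast [hQ]
      ring
  -- assemble
  have hQev : HasSumC p (fun d => HahnSeries.C (coeff d P) * ∏ i, x i ^ d i) (ev P x) :=
    hasEvalC (intCoeff_residue P) hx0
  have hsplit : (∑ d ∈ T, HahnSeries.C (coeff d P) * ∏ i, x i ^ d i) =
      ∑ ν, HahnSeries.C ((e ν).coeff q) * ev (Pν ν) x := by
    simp only [hPsum, Finset.mul_sum]
    rw [Finset.sum_comm]
    refine Finset.sum_congr rfl fun d hd => ?_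
    have hcoef : coeff d P = ∑ ν, b d hd ν * (e ν).coeff q := by
      show (a d).coeff q = _
      rw [hb d hd, HahnSeries.coeff_sum]
      refine Finset.sum_congr rfl fun ν _ => ?_
      rw [HahnSeries.C_mul_eq_smul, HahnSeries.coeff_smul, smul_eq_mul]
    simp only [hPc, dif_pos hd]
    rw [hcoef, map_sum, Finset.sum_mul]
    refine Finset.sum_congr rfl fun ν _ => ?_
    rw [map_mul]
    ring
  have hlt : (B₀ : WithTop ℚ) < (((B : ℚ) * c : ℚ) : WithTop ℚ) := WithTop.coe_lt_coe.mpr hBB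
  have h1 : (B₀ : WithTop ℚ) < ord (∑ d ∈ T, HahnSeries.C (coeff d P) * ∏ i, x i ^ d i) := by
    rw [hsplit]
    refine hlt.trans_le (le_ord_sum _ fun ν _ => ?_)
    rw [ord_mul]
    exact (hsmall ν).trans (le_add_of_nonneg_left (ord_C_nonneg _))
  have h2 : (B₀ : WithTop ℚ) <
      ord (ev P x - ∑ d ∈ T, HahnSeries.C (coeff d P) * ∏ i, x i ^ d i) := by
    have h4 : HasSumC p (fun d => if d ∈ T then HahnSeries.C (coeff d P) * ∏ i, x i ^ d i else 0)
        (∑ d ∈ T, HahnSeries.C (coeff d P) * ∏ i, x i ^ d i) := by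
      have := hasSumC_of_support_subset
        (a := fun d => if d ∈ T then HahnSeries.C (coeff d P) * ∏ i, x i ^ d i else 0) T
        fun d hd => if_neg hd
      rwa [Finset.sum_congr rfl fun d hd => if_pos hd] at this
    refine (hQev.sub h4).lt_ord fun d => ?_
    split_ifs with hd
    · rw [sub_self, ord_zero]; exact WithTop.coe_lt_top _
    rw [hTmem, not_lt] at hd
    rw [sub_zero, ord_mul]
    refine hlt.trans_le (le_trans ?_ (le_add_of_nonneg_left (ord_C_nonneg _)))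
    refine le_trans ?_ (le_ord_prod_pow hcx d)
    rw [WithTop.coe_le_coe, nsmul_eq_mul]
    refine mul_le_mul_of_nonneg_right ?_ hc0.le
    rw [Finsupp.degree_eq_sum] at hd
    exact_mod_cast hd
  have := lt_ord_add h2 h1
  rwa [sub_add_cancel] at this

end

end Vale.Agent.P217.CharP
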