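import Vale.Agent.P217.Iface

/-!
P217, module M8/D4: roots of unity of order dividing p^n - 1 scale the Honda law of height n.
-/

namespace Vale.Agent.P217.CharP

noncomputable section

open MvPowerSeries

/-- A law whose logarithm lives in degrees congruent to 1 modulo N does too. -/
theorem coeff_eq_zero_of_log {K : Type*} [Field K] (ζ : K)
    (L : FormalGroup K) (f : PowerSeries K) (hf0 : PowerSeries.constantCoeff f = 0)
    (hf1 : PowerSeries.coeff 1 f = 1)
    (hfs : ∀ i, PowerSeries.coeff i f ≠ 0 → ζ ^ i = ζ)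
    (hlog : PowerSeries.subst (L : MvPowerSeries (Fin 2) K) f =
      PowerSeries.subst (X (0 : Fin 2) : MvPowerSeries (Fin 2) K) f +
        PowerSeries.subst (X (1 : Fin 2) : MvPowerSeries (Fin 2) K) f)
    (d : Fin 2 →₀ ℕ) (hd : ζ ^ (∑ i, d i) ≠ ζ) : coeff d (L : MvPowerSeries (Fin 2) K) = 0 := by
  set a : Fin 2 → MvPowerSeries (Fin 2) K := fun i => MvPowerSeries.C ζ * X i
  have ha0 : ∀ i, constantCoeff (a i) = 0 := fun i => by simp [a]
  have ha : HasSubst a := hasSubst_of_constantCoeff_zero ha0
  have hL : PowerSeries.HasSubst (L : MvPowerSeries (Fin 2) K) :=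
    PowerSeries.HasSubst.of_constantCoeff_zero L.zero_constantCoeff
  have hscale : ∀ b : MvPowerSeries (Fin 2) K, constantCoeff b = 0 →
      PowerSeries.subst (MvPowerSeries.C ζ * b) f =
        MvPowerSeries.C ζ * PowerSeries.subst b f := by
    intro b hb
    have hb' := PowerSeries.HasSubst.of_constantCoeff_zero hb
    have h1 : PowerSeries.subst (PowerSeries.C ζ * PowerSeries.X : PowerSeries K) f =
        PowerSeries.C ζ * f := by
      rw [← PowerSeries.smul_eq_C_mul, ← PowerSeries.rescale_eq_subst]
      ext i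
      rw [PowerSeries.coeff_rescale, PowerSeries.coeff_C_mul]
      by_cases hi : PowerSeries.coeff i f = 0
      · simp [hi]
      · rw [hfs i hi]
    have hX : PowerSeries.HasSubst (PowerSeries.C ζ * PowerSeries.X : PowerSeries K) :=
      PowerSeries.HasSubst.of_constantCoeff_zero' (by simp)
    have hC : PowerSeries.subst b (PowerSeries.C ζ : PowerSeries K) = MvPowerSeries.C ζ := by
      rw [PowerSeries.subst_C]
    have := congrArg (PowerSeries.subst b) h1
    rw [PowerSeries.subst_comp_subst_apply hX hb', PowerSeries.subst_mul hb', hC,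
      PowerSeries.subst_X hb', PowerSeries.subst_mul hb', hC] at this
    exact this
  have hcomp : ∀ b : MvPowerSeries (Fin 2) K, PowerSeries.HasSubst b →
      subst a (PowerSeries.subst b f) = PowerSeries.subst (subst a b) f := by
    intro b hb
    exact subst_comp_subst_apply hb.const ha f
  have hL0 : constantCoeff (subst a (L : MvPowerSeries (Fin 2) K)) = 0 :=
    constantCoeff_subst_eq_zero ha ha0 L.zero_constantCoeff
  have key : PowerSeries.subst (subst a (L : MvPowerSeries (Fin 2) K)) f =
      PowerSeries.subst (MvPowerSeries.C ζ * (L : MvPowerSeries (Fin 2) K)) f := by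
    rw [← hcomp _ hL, hlog, subst_add ha, hcomp _ (PowerSeries.HasSubst.X 0),
      hcomp _ (PowerSeries.HasSubst.X 1), subst_X ha, subst_X ha,
      hscale _ L.zero_constantCoeff, hlog, mul_add]
    simp only [a]
    rw [hscale _ (constantCoeff_X 0), hscale _ (constantCoeff_X 1)]
  have hu : IsUnit (PowerSeries.coeff 1 f) := by rw [hf1]; exact isUnit_one
  have hfsub : PowerSeries.HasSubst f := PowerSeries.HasSubst.of_constantCoeff_zero' hf0
  have hinv : ∀ b : MvPowerSeries (Fin 2) K, constantCoeff b = 0 →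
      PowerSeries.subst (PowerSeries.subst b f) (PowerSeries.substInvOfIsUnit f hu) = b := by
    intro b hb
    have hb' := PowerSeries.HasSubst.of_constantCoeff_zero hb
    rw [← PowerSeries.subst_comp_subst_apply hfsub hb',
      PowerSeries.subst_substInvOfIsUnit_left f hf0 hu, PowerSeries.subst_X hb']
  have heq : subst a (L : MvPowerSeries (Fin 2) K) =
      MvPowerSeries.C ζ * (L : MvPowerSeries (Fin 2) K) := by
    rw [← hinv _ hL0, key, hinv _ (by simp [L.zero_constantCoeff])]
  have hco := congrArg (coeff d) heq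
  have hresc : subst a (L : MvPowerSeries (Fin 2) K) =
      rescale (fun _ => ζ) (L : MvPowerSeries (Fin 2) K) := by
    rw [rescale_eq_subst]
    congr 1
    funext i
    simp [a, smul_eq_C_mul]
  rw [hresc, coeff_rescale, coeff_C_mul, Finsupp.prod_fintype _ _ (fun i => pow_zero _),
    Finset.prod_pow_eq_pow_sum] at hco
  by_contra hc
  exact hd (mul_right_cancel₀ hc hco)

variable (p n : ℕ) [Fact p.Prime]

theorem pow_card_pow_eq {M : Type*} [Monoid M] {x : M} {q : ℕ} (h : x ^ q = x) :
    ∀ i, x ^ q ^ i = x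
  | 0 => by rw [pow_zero, pow_one]
  | i + 1 => by rw [pow_succ, pow_mul, pow_card_pow_eq h i, h]

/-- The coefficients of the Honda law sit in degrees congruent to 1 modulo p^n - 1. -/
theorem honda_coeff_pow_eq (hn : 1 ≤ n) {Γk : FormalGroup (K p n)} (hΓ : IsHonda p n Γk)
    {d : Fin 2 →₀ ℕ} (hd : coeff d (Γk : MvPowerSeries (Fin 2) (K p n)) ≠ 0) (ω : K p n) :
    ω ^ (∑ i, d i) = ω := by
  obtain ⟨_, L, rfl, f, hf, hlog⟩ := hΓ
  have hp : 1 < p := (Fact.out : p.Prime).one_lt
  have hpn : 1 < p ^ n := Nat.one_lt_pow (by omega) hp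
  set N := p ^ n - 1
  have hN : N ≠ 0 := by omega
  have : NeZero (N : AlgebraicClosure ℚ_[p]) := ⟨Nat.cast_ne_zero.mpr hN⟩
  obtain ⟨ζ, hζ⟩ := HasEnoughRootsOfUnity.exists_primitiveRoot (AlgebraicClosure ℚ_[p]) N
  set e : ℚ_[p] →+* AlgebraicClosure ℚ_[p] := algebraMap _ _
  have hq : ζ ^ (p ^ n) = ζ := by
    rw [show p ^ n = N + 1 by omega, pow_succ, hζ.pow_eq_one, one_mul]
  have hmain : ζ ^ (∑ i, d i) = ζ := by
    by_contra hc
    apply hd
    have h1 := coeff_eq_zero_of_log ζ ((L.map PadicInt.Coe.ringHom).map e)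
      (PowerSeries.map e f) ?_ ?_ ?_ ?_ d hc
    · have h2 : coeff d (L : MvPowerSeries (Fin 2) ℤ_[p]) = 0 := by
        simp only [FormalGroup.map_toPowerSeries, coeff_map] at h1
        exact Subtype.coe_injective (e.injective (h1.trans (map_zero e).symm))
      simp [h2]
    · rw [← PowerSeries.coeff_zero_eq_constantCoeff_apply, PowerSeries.coeff_map, hf 0]
      simp [(Fact.out : p.Prime).ne_zero]
    · rw [PowerSeries.coeff_map, hf 1, Finset.sum_range_succ, Finset.sum_range_one]
      simp [hp.ne', Nat.one_le_iff_ne_zero.mp hn]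
    · intro i hi
      rw [PowerSeries.coeff_map, hf i] at hi
      obtain ⟨j, hj⟩ : ∃ j, p ^ (j * n) = i := by
        by_contra hne
        push Not at hne
        rw [Finset.sum_eq_zero (fun j _ => if_neg (hne j)), map_zero] at hi
        exact hi rfl
      rw [← hj, mul_comm, pow_mul]
      exact pow_card_pow_eq hq j
    · have := congrArg (MvPowerSeries.map e) hlog
      rw [map_add, PowerSeries.map_subst (PowerSeries.HasSubst.of_constantCoeff_zero
          (L.map PadicInt.Coe.ringHom).zero_constantCoeff),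
        PowerSeries.map_subst (PowerSeries.HasSubst.X _),
        PowerSeries.map_subst (PowerSeries.HasSubst.X _)] at this
      simpa only [MvPowerSeries.map_X, FormalGroup.map_toPowerSeries] using this
  rcases eq_or_ne ω 0 with rfl | hω
  · refine zero_pow fun h0 => hd ?_
    rw [show d = 0 from Finsupp.ext fun i =>
      Finset.sum_eq_zero_iff.mp h0 i (Finset.mem_univ i), coeff_zero_eq_constantCoeff,
      FormalGroup.zero_constantCoeff]
  · have : Fintype (K p n) := Fintype.ofFinite _
    have hcard : Fintype.card (K p n) = p ^ n := by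
      rw [← Nat.card_eq_fintype_card, GaloisField.card p n (by omega)]
    have hωN : ω ^ N = 1 := by
      have := FiniteField.pow_card_sub_one_eq_one ω hω
      rwa [hcard] at this
    -- the exponent is 1 modulo N
    have hS : ∑ i, d i ≠ 0 := by
      intro h0
      rw [h0, pow_zero] at hmain
      refine hd ?_
      rw [show d = 0 from Finsupp.ext fun i =>
        Finset.sum_eq_zero_iff.mp h0 i (Finset.mem_univ i), coeff_zero_eq_constantCoeff,
        FormalGroup.zero_constantCoeff]
    obtain ⟨m, hm⟩ := Nat.exists_eq_succ_of_ne_zero hS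
    have hζ0 : ζ ≠ 0 := hζ.ne_zero hN
    have hdvd : N ∣ m := by
      rw [← hζ.pow_eq_one_iff_dvd]
      rw [hm, pow_succ] at hmain
      exact (mul_left_eq_self₀.mp hmain).resolve_right hζ0
    obtain ⟨t, rfl⟩ := hdvd
    rw [hm, pow_succ, pow_mul, hωN, one_pow, one_mul]

/-- Scaling by a constant of the residue field is an endomorphism of the Honda law. -/
theorem isHom_scale (hn : 1 ≤ n) {Γk : FormalGroup (K p n)} (hΓ : IsHonda p n Γk) (ω : K p n) :
    IsHom Γk Γk (PowerSeries.C ω * PowerSeries.X) := by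
  refine ⟨by simp, ?_⟩
  have hG := PowerSeries.HasSubst.of_constantCoeff_zero Γk.zero_constantCoeff
  have hC : ∀ b : MvPowerSeries (Fin 2) (K p n), PowerSeries.HasSubst b →
      PowerSeries.subst b (PowerSeries.C ω * PowerSeries.X) = MvPowerSeries.C ω * b := by
    intro b hb
    rw [PowerSeries.subst_mul hb, PowerSeries.subst_C, PowerSeries.subst_X hb]
  rw [hC _ hG, hC _ (PowerSeries.HasSubst.X 0), hC _ (PowerSeries.HasSubst.X 1)]
  have hresc : (Γk : MvPowerSeries (Fin 2) (K p n)).subst
      ![MvPowerSeries.C ω * X 0, MvPowerSeries.C ω * X 1] =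
      rescale (fun _ => ω) (Γk : MvPowerSeries (Fin 2) (K p n)) := by
    rw [rescale_eq_subst]
    congr 1
    funext i
    fin_cases i <;> simp [smul_eq_C_mul]
  rw [hresc]
  ext d
  rw [coeff_rescale, coeff_C_mul, Finsupp.prod_fintype _ _ (fun i => pow_zero _),
    Finset.prod_pow_eq_pow_sum]
  by_cases hd : coeff d (Γk : MvPowerSeries (Fin 2) (K p n)) = 0
  · simp [hd]
  · rw [honda_coeff_pow_eq p n hn hΓ hd]

end

end Vale.Agent.P217.CharP
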