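import Vale.Agent.P217.CharP.Spec
import Vale.Agent.P217.CharP.HondaScale
import Vale.Agent.P217.Series
import Vale.Agent.P217.Rigid

/-!
P217, module M8/D4: no nonzero series over the residue field vanishes on the orbit of an
independent tuple.
-/

namespace Vale.Agent.P217.CharP

noncomputable section

open MvPowerSeries

variable {p : ℕ} [Fact p.Prime]

theorem id_nonneg_of_OC {ψ : PowerSeries (C p)} (h : ∀ i, 0 ≤ ord (PowerSeries.coeff i ψ)) :
    IntCoeff (RingHom.id (C p)) (ψ : MvPowerSeries Unit (C p)) :=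
  intCoeff_iff₁.mpr h

theorem evalC_map_C {σ : Type*} [Fintype σ] (f : MvPowerSeries σ (Kb p)) (x : σ → C p) :
    evalC p (RingHom.id (C p)) (MvPowerSeries.map HahnSeries.C f) x =
      evalC p HahnSeries.C f x := by
  rw [evalC_map, RingHom.id_comp]

theorem fadd_map_C (H : FormalGroup (Kb p)) (u w : C p) :
    fadd p (RingHom.id (C p)) (H.map HahnSeries.C) u w = fadd p HahnSeries.C H u w :=
  evalC_map_C _ _

theorem eval₁C_map_C (f : PowerSeries (Kb p)) (u : C p) :
    eval₁C p (RingHom.id (C p)) (PowerSeries.map HahnSeries.C f) u =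
      eval₁C p HahnSeries.C f u :=
  evalC_map_C _ _

theorem intCoeff_map_C {σ : Type*} (f : MvPowerSeries σ (Kb p)) :
    IntCoeff (RingHom.id (C p)) (MvPowerSeries.map HahnSeries.C f) := fun d => by
  rw [coeff_map]
  exact ord_C_nonneg _

/-- A homomorphism is additive on points. -/
theorem IsHom.eval_fadd {R : Type*} [CommRing R] {c : R →+* C p} {G G' : FormalGroup R}
    {ψ : PowerSeries R} (hψ : IsHom G G' ψ) (hG : IntCoeff c G.toPowerSeries)
    (hG' : IntCoeff c G'.toPowerSeries) (hi : IntCoeff c (ψ : MvPowerSeries Unit R))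
    {u w : C p} (hu : 0 < ord u) (hw : 0 < ord w) :
    eval₁C p c ψ (fadd p c G u w) = fadd p c G' (eval₁C p c ψ u) (eval₁C p c ψ w) := by
  have hx := vec2_pos hu hw
  have h := congrArg (fun F => evalC p c F ![u, w]) hψ.2
  have hX : ∀ i : Fin 2, IntCoeff c (PowerSeries.subst (X i : MvPowerSeries (Fin 2) R) ψ) :=
    fun i => IntCoeff.subst hi (fun _ => intCoeff_X _) (fun _ => constantCoeff_X _)
  have hX0 : ∀ i : Fin 2,
      constantCoeff (PowerSeries.subst (X i : MvPowerSeries (Fin 2) R) ψ) = 0 := fun i =>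
    PowerSeries.constantCoeff_subst_eq_zero (constantCoeff_X i) _ hψ.1
  simp only [evalC_subst₁ hi hG G.zero_constantCoeff hx,
    evalC_fgl_subst hG' (hX 0) (hX 1) (hX0 0) (hX0 1) hx,
    evalC_subst₁ hi (intCoeff_X _) (constantCoeff_X _) hx, evalC_X] at h
  exact h

/-- Sums of endomorphisms are endomorphisms. -/
theorem isHom_add {R : Type*} [CommRing R] (G : FormalGroup R) [G.IsComm] {a b : PowerSeries R}
    (ha : IsHom G G a) (hb : IsHom G G b) :
    IsHom G G ((G : MvPowerSeries (Fin 2) R).subst ![a, b]) := by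
  have hs : HasSubst (![a, b] : Fin 2 → PowerSeries R) := hasSubst_pair ha.1 hb.1
  refine ⟨constantCoeff_subst_pair G ha.1 hb.1, ?_⟩
  have hcomp : ∀ z : MvPowerSeries (Fin 2) R, PowerSeries.HasSubst z →
      PowerSeries.subst z ((G : MvPowerSeries (Fin 2) R).subst ![a, b]) =
        (G : MvPowerSeries (Fin 2) R).subst ![PowerSeries.subst z a, PowerSeries.subst z b] := by
    intro z hz
    rw [PowerSeries.subst, subst_comp_subst_apply hs hz.const]
    congr 1
    funext i
    fin_cases i <;> rfl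
  have hG := PowerSeries.HasSubst.of_constantCoeff_zero G.zero_constantCoeff
  rw [hcomp _ hG, hcomp _ (PowerSeries.HasSubst.X 0), hcomp _ (PowerSeries.HasSubst.X 1),
    ha.2, hb.2]
  have hp : ∀ (i : Fin 2) (c : PowerSeries R), PowerSeries.constantCoeff c = 0 →
      PowerSeries.HasSubst (PowerSeries.subst (X i : MvPowerSeries (Fin 2) R) c) := fun i c hc =>
    PowerSeries.HasSubst.of_constantCoeff_zero
      (PowerSeries.constantCoeff_subst_eq_zero (constantCoeff_X i) _ hc)
  let A0 : G.Point (Fin 2) := ⟨_, hp 0 a ha.1⟩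
  let A1 : G.Point (Fin 2) := ⟨_, hp 1 a ha.1⟩
  let B0 : G.Point (Fin 2) := ⟨_, hp 0 b hb.1⟩
  let B1 : G.Point (Fin 2) := ⟨_, hp 1 b hb.1⟩
  exact congrArg Subtype.val (add_add_add_comm A0 A1 B0 B1)

theorem mulSeries_honda_ord {H : FormalGroup (Kb p)} {h : ℕ} (hH : IsHondaKb p h H)
    {G : FormalGroup (C p)} {θ : PowerSeries (C p)} (hθ : IsHom G (H.map HahnSeries.C) θ)
    (hθi : ∀ i, 0 ≤ ord (PowerSeries.coeff i θ))
    (hG : IntCoeff (RingHom.id (C p)) G.toPowerSeries) {w : C p} (hw : 0 < ord w) :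
    eval₁C p (RingHom.id (C p)) θ (eval₁C p (RingHom.id (C p)) (mulSeries G p) w) =
      eval₁C p (RingHom.id (C p)) θ w ^ p ^ h := by
  have key : ∀ m, eval₁C p (RingHom.id (C p)) θ (eval₁C p (RingHom.id (C p)) (mulSeries G m) w) =
      eval₁C p HahnSeries.C (mulSeries H m) (eval₁C p (RingHom.id (C p)) θ w) := by
    intro m
    induction m with
    | zero =>
      rw [eval₁C_mulSeries_zero, eval₁C_mulSeries_zero]
      exact Rigid_ev_zero θ hθ.1
    | succ m ih =>
      have hm : 0 < ord (eval₁C p (RingHom.id (C p)) (mulSeries G m) w) :=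
        ord_eval₁C_pos (intCoeff_mulSeries hG m) (constantCoeff_mulSeries G m) hw
      have hθw : 0 < ord (eval₁C p (RingHom.id (C p)) θ w) :=
        ord_eval₁C_pos (id_nonneg_of_OC hθi) hθ.1 hw
      rw [eval₁C_mulSeries_succ hG hw,
        IsHom.eval_fadd hθ hG (intCoeff_map_C _) (id_nonneg_of_OC hθi) hw hm, fadd_map_C, ih,
        eval₁C_mulSeries_succ (intCoeff_residue _) hθw]
  rw [key, hH.1, eval₁C_X_pow]
where
  Rigid_ev_zero (θ : PowerSeries (C p)) (h0 : PowerSeries.constantCoeff θ = 0) :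
      eval₁C p (RingHom.id (C p)) θ 0 = 0 := by
    classical
    refine HasEvalC.evalC_eq ?_
    have h : (fun d : Unit →₀ ℕ => (RingHom.id (C p))
        (MvPowerSeries.coeff d (θ : MvPowerSeries Unit (C p))) * ∏ i : Unit, (0 : C p) ^ d i) =
        fun _ => 0 := by
      funext d
      by_cases hd : d = 0
      · subst hd
        rw [coeff_zero_eq_constantCoeff]
        show (MvPowerSeries.constantCoeff (θ : MvPowerSeries Unit (C p))) * _ = 0
        rw [show MvPowerSeries.constantCoeff (θ : MvPowerSeries Unit (C p)) = 0 from h0, zero_mul]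
      · obtain ⟨i, hi⟩ := Finsupp.ne_iff.mp hd
        have hi' : d i ≠ 0 := by simpa using hi
        rw [Finset.prod_eq_zero (Finset.mem_univ i) (show (0 : C p) ^ d i = 0 from zero_pow hi'), mul_zero]
    show HasSumC p _ 0
    rw [h]
    exact hasSumC_zero

theorem powZ_C (ω : Kb p) (j : ℕ) :
    powZ p (HahnSeries.C ω) (j : ℤ) = HahnSeries.C (ω ^ p ^ j) := by
  rw [powZ_natCast, map_pow]

theorem isLn_zero {L : Type} [Field L] (U : Untilt p L) (m : ℕ) : U.IsLn m (0 : C p) 0 := by
  intro B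
  refine ⟨0, fun N _ => ?_⟩
  simp [powZ_zero_left, U.sharp_zero]

theorem isLn_fsum {L : Type} [Field L] (U : Untilt p L) {m : ℕ} {G : FormalGroup (Kb p)}
    (hadd : ∀ V V' : C p, 0 < ord V → 0 < ord V' → ∀ y y', U.IsLn m V y → U.IsLn m V' y' →
      U.IsLn m (fadd p HahnSeries.C G V V') (y + y')) :
    ∀ {r : ℕ} (x : Fin r → C p) (y : Fin r → L), (∀ i, 0 < ord (x i)) →
      (∀ i, U.IsLn m (x i) (y i)) → U.IsLn m (fsum p HahnSeries.C G x) (∑ i, y i)
  | 0, _, _, _, _ => by simpa [fsum] using isLn_zero U m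
  | r + 1, x, y, hx, hy => by
    rw [Fin.sum_univ_succ]
    exact hadd _ _ (hx 0) (Rigid.fsum_pos G _ fun i => hx i.succ) _ _ (hy 0)
      (isLn_fsum U hadd _ _ (fun i => hx i.succ) fun i => hy i.succ)

theorem sharp_C_injective {L : Type} [Field L] (U : Untilt p L) :
    Function.Injective fun ω : Kb p => U.sharp (HahnSeries.C ω) := by
  intro a b hab
  by_contra hne
  have hne' : a - b ≠ 0 := sub_ne_zero.mpr hne
  have hu : U.v (U.sharp (HahnSeries.C (a - b))) = 0 := by
    rw [U.v_sharp, ord, HahnSeries.C_apply, HahnSeries.orderTop_single hne']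
    rfl
  have h := U.sharp_add (HahnSeries.C b) (HahnSeries.C (a - b)) (ord_C_nonneg _) (ord_C_nonneg _)
  rw [← map_add, add_sub_cancel] at h
  simp only at hab
  rw [hab, sub_self, zero_sub, AddValuation.map_neg, hu] at h
  exact absurd h (not_le.mpr (by exact_mod_cast (one_pos : (0 : ℚ) < 1)))

/-- The value of a series of exact order `d` with unit leading coefficient. -/
theorem ord_eval_residue {f : PowerSeries (Kb p)} {d : ℕ}
    (hd : PowerSeries.coeff d f ≠ 0) (hlow : ∀ i < d, PowerSeries.coeff i f = 0)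
    {u : C p} {q : ℚ} (hu : ord u = q) (hq : 0 < q) :
    ord (eval₁C p HahnSeries.C f u) = ((d * q : ℚ) : WithTop ℚ) := by
  have hu0 : 0 < ord u := by rw [hu]; exact WithTop.coe_pos.mpr hq
  have hs := hasSumC_eval₁ (intCoeff_residue (f : MvPowerSeries Unit (Kb p))) hu0
  have h1 : HasSumC p (fun m : ℕ => if m = d then
      HahnSeries.C (PowerSeries.coeff d f) * u ^ d else 0)
      (HahnSeries.C (PowerSeries.coeff d f) * u ^ d) := by
    have := hasSumC_of_support_subset (p := p)
      (a := fun m : ℕ => if m = d then HahnSeries.C (PowerSeries.coeff d f) * u ^ d else 0) {d}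
      fun m hm => if_neg fun h => hm (Finset.mem_singleton.mpr h)
    simpa using this
  have hmain : ord (HahnSeries.C (PowerSeries.coeff d f) * u ^ d) =
      ((d * q : ℚ) : WithTop ℚ) := by
    rw [ord_mul, ord_pow, hu, ord, HahnSeries.C_apply, HahnSeries.orderTop_single hd,
      ← WithTop.coe_nsmul, ← WithTop.coe_add, nsmul_eq_mul, zero_add]
  have hrest : ((((d : ℚ) + 1) * q : ℚ) : WithTop ℚ) ≤
      ord (eval₁C p HahnSeries.C f u - HahnSeries.C (PowerSeries.coeff d f) * u ^ d) := by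
    refine (hs.sub h1).le_ord fun m => ?_
    rcases lt_trichotomy m d with hm | rfl | hm
    · simp [hlow m hm, hm.ne]
    · simp
    · rw [if_neg hm.ne', sub_zero, ord_mul]
      refine le_trans ?_ (le_add_of_nonneg_left (ord_C_nonneg _))
      rw [ord_pow, hu, ← WithTop.coe_nsmul, WithTop.coe_le_coe, nsmul_eq_mul]
      refine mul_le_mul_of_nonneg_right ?_ hq.le
      exact_mod_cast hm
  have hlt : (((d : ℚ) * q : ℚ) : WithTop ℚ) < (((d + 1) * q : ℚ) : WithTop ℚ) :=
    WithTop.coe_lt_coe.mpr (by nlinarith)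
  calc ord (eval₁C p HahnSeries.C f u)
      = ord (HahnSeries.C (PowerSeries.coeff d f) * u ^ d +
          (eval₁C p HahnSeries.C f u - HahnSeries.C (PowerSeries.coeff d f) * u ^ d)) := by
        rw [add_sub_cancel]
    _ = _ := (HahnSeries.orderTop_add_eq_left
        ((hmain.le.trans_lt hlt).trans_le hrest)).trans hmain

/-- The value of an integral series with nonzero linear term at a small point. -/
theorem ord_eval_linear {θ : PowerSeries (C p)} (h0 : PowerSeries.constantCoeff θ = 0)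
    (hi : ∀ i, 0 ≤ ord (PowerSeries.coeff i θ)) {γ q : ℚ}
    (h1 : ord (PowerSeries.coeff 1 θ) = γ) (hγq : γ < q) {u : C p} (hu : ord u = q) :
    ord (eval₁C p (RingHom.id (C p)) θ u) = ((γ + q : ℚ) : WithTop ℚ) := by
  have hγ0 : 0 ≤ γ := by exact_mod_cast (h1 ▸ hi 1)
  have hq : 0 < q := hγ0.trans_lt hγq
  have hu0 : 0 < ord u := by rw [hu]; exact WithTop.coe_pos.mpr hq
  have hs := hasSumC_eval₁ (id_nonneg_of_OC hi) hu0
  simp only [RingHom.id_apply] at hs
  have hlin : HasSumC p (fun m : ℕ => if m = 1 then PowerSeries.coeff 1 θ * u else 0)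
      (PowerSeries.coeff 1 θ * u) := by
    have := hasSumC_of_support_subset (p := p)
      (a := fun m : ℕ => if m = 1 then PowerSeries.coeff 1 θ * u else 0) {1}
      fun m hm => if_neg fun h => hm (Finset.mem_singleton.mpr h)
    simpa using this
  have hmain : ord (PowerSeries.coeff 1 θ * u) = ((γ + q : ℚ) : WithTop ℚ) := by
    rw [ord_mul, h1, hu, WithTop.coe_add]
  have hrest : ((2 * q : ℚ) : WithTop ℚ) ≤
      ord (eval₁C p (RingHom.id (C p)) θ u - PowerSeries.coeff 1 θ * u) := by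
    refine (hs.sub hlin).le_ord fun m => ?_
    rcases Nat.lt_or_ge m 2 with hm | hm
    · interval_cases m
      · simp [PowerSeries.coeff_zero_eq_constantCoeff_apply, h0]
      · simp
    · rw [if_neg (by omega : m ≠ 1), sub_zero, ord_mul]
      refine le_trans ?_ (le_add_of_nonneg_left (hi m))
      rw [ord_pow, hu, ← WithTop.coe_nsmul, WithTop.coe_le_coe, nsmul_eq_mul]
      refine mul_le_mul_of_nonneg_right ?_ hq.le
      exact_mod_cast hm
  calc ord (eval₁C p (RingHom.id (C p)) θ u)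
      = ord (PowerSeries.coeff 1 θ * u +
          (eval₁C p (RingHom.id (C p)) θ u - PowerSeries.coeff 1 θ * u)) := by
        rw [add_sub_cancel]
    _ = _ := (HahnSeries.orderTop_add_eq_left
        ((hmain.le.trans_lt (WithTop.coe_lt_coe.mpr (by linarith))).trans_le hrest)).trans hmain

/-- The tuple of logarithms determines the relation: only the zero one. -/
theorem coeff_matrix_eq_zero {n h : ℕ} (hh : 1 ≤ h) (hn : h < n)
    {Γk : FormalGroup (K p n)} (l : K p n →+* Kb p) (hΓ : IsHondaKb p n (Γk.map l))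
    {L : Type} [Field L] (U : Untilt p L) (hLn : LnStatement p) (hRank : RankStatement p)
    (v : Fin (n - h) → C p) (hv : ∀ s, 0 < ord (v s)) (hind : Indep p (Γk.map l) v)
    (c : Fin (n - h) → Fin n → L)
    (hc : ∀ (ω : K p n) (N : ℕ) (z : Fin (n - h) → Fin n → L),
      (∀ (s : Fin (n - h)) (j : Fin n),
        U.IsLn n (powZ p (HahnSeries.C (l ω) * v s ^ p ^ N) ((j : ℕ) : ℤ)) (z s j)) →
        ∑ s, ∑ j, c s j * z s j = 0) : c = 0 := by
  classical
  have hn1 : 1 ≤ n := by omega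
  obtain ⟨hex, -, hscal, hpow, -⟩ := hLn L _ U n hn1
  have hexy : ∀ (s : Fin (n - h)) (M : ℤ), ∃ y, U.IsLn n (powZ p (v s) M) y := fun s M =>
    (hex _ (ord_powZ_pos (hv s) M)).exists
  choose y hy using hexy
  have : Fintype (K p n) := Fintype.ofFinite _
  have hcard : Fintype.card (K p n) = p ^ n := by
    rw [← Nat.card_eq_fintype_card, GaloisField.card p n (by omega)]
  have hfix : ∀ (ω : K p n) (j : ℕ), ((l ω) ^ p ^ j) ^ p ^ n = (l ω) ^ p ^ j := by
    intro ω j
    have h1 : ω ^ p ^ n = ω := by rw [← hcard]; exact FiniteField.pow_card ω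
    rw [← pow_mul, mul_comm, pow_mul, ← map_pow l, h1]
  -- relations along every residue scalar
  have hrel : ∀ (N : ℕ) (j : Fin n), ∑ s, c s j * y s ((N : ℤ) + (j : ℕ)) = 0 := by
    intro N
    set a : Fin n → L := fun j => ∑ s, c s j * y s ((N : ℤ) + (j : ℕ))
    have hpoly : ∀ ω : K p n, ∑ j : Fin n, a j * U.sharp (HahnSeries.C (l ω)) ^ p ^ (j : ℕ) = 0 := by
      intro ω
      have hz : ∀ (s : Fin (n - h)) (j : Fin n),
          U.IsLn n (powZ p (HahnSeries.C (l ω) * v s ^ p ^ N) ((j : ℕ) : ℤ))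
            (U.sharp (HahnSeries.C (l ω ^ p ^ (j : ℕ))) * y s ((N : ℤ) + (j : ℕ))) := by
        intro s j
        rw [powZ_mul, powZ_C, ← powZ_natCast (v s) N, powZ_powZ]
        exact hscal _ (hfix ω j) _ _ (hy s _)
      refine Eq.trans ?_ (hc ω N _ hz)
      rw [Finset.sum_comm]
      refine Finset.sum_congr rfl fun j _ => ?_
      simp only [a, Finset.sum_mul, map_pow]
      exact Finset.sum_congr rfl fun s _ => by ring
    set P : Polynomial L := ∑ j : Fin n, Polynomial.monomial (p ^ (j : ℕ)) (a j) with hPdef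
    have hP : P = 0 := by
      refine Polynomial.eq_zero_of_natDegree_lt_card_of_eval_eq_zero P
        (f := fun ω : K p n => U.sharp (HahnSeries.C (l ω)))
        ((sharp_C_injective U).comp l.injective) (fun ω => ?_) ?_
      · simp only [hPdef, Polynomial.eval_finsetSum, Polynomial.eval_monomial]
        exact hpoly ω
      · rw [hcard, hPdef]
        refine lt_of_le_of_lt (Polynomial.natDegree_sum_le_of_forall_le _ _ fun j _ =>
          (Polynomial.natDegree_monomial_le (a j)).trans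
            (Nat.pow_le_pow_right (Fact.out : p.Prime).pos (show (j : ℕ) ≤ n - 1 by omega))) ?_
        exact Nat.pow_lt_pow_right (Fact.out : p.Prime).one_lt (by omega)
    intro j
    have h2 := congrArg (fun Q => Polynomial.coeff Q (p ^ (j : ℕ))) hP
    simp only [hPdef, Polynomial.finsetSum_coeff, Polynomial.coeff_monomial,
      Polynomial.coeff_zero] at h2
    rwa [Finset.sum_eq_single j (fun i _ hi => if_neg fun h => hi (Fin.ext
      ((Nat.pow_right_injective (Fact.out : p.Prime).two_le) h)))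
      (by simp), if_pos rfl] at h2
  -- descend along the period
  have hperiod : ∀ (s : Fin (n - h)) (M : ℤ), y s (M + n) = (p : L) * y s M := by
    intro s M
    refine (hex _ (ord_powZ_pos (hv s) (M + n))).unique (hy s _) ?_
    rw [← powZ_powZ, powZ_natCast]
    exact hpow _ _ (hy s M)
  have hp0 : (p : L) ≠ 0 := by
    intro h0
    have := congrArg U.v U.p_eq
    rw [h0, AddValuation.map_zero, U.v_sharp, ord_tpow] at this
    exact WithTop.top_ne_coe this
  funext s₀ j
  have hall : ∀ M : ℤ, ∑ s, c s j * y s M = 0 := by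
    suffices ∀ (k : ℕ) (M : ℤ), (j : ℤ) - k * n ≤ M → ∑ s, c s j * y s M = 0 by
      intro M
      refine this ((j : ℤ) - M).toNat M ?_
      have : ((j : ℤ) - M) ≤ (((j : ℤ) - M).toNat : ℤ) := Int.self_le_toNat _
      nlinarith [show (1 : ℤ) ≤ n by exact_mod_cast hn1]
    intro k
    induction k with
    | zero =>
      intro M hM
      have h0 : (j : ℤ) ≤ M := by simpa using hM
      have := hrel (M - (j : ℤ)).toNat j
      rwa [Int.toNat_of_nonneg (by omega), show M - (j : ℤ) + ((j : ℕ) : ℤ) = M by ring] at this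
    | succ k ih =>
      intro M hM
      have h1 := ih (M + n) (by push_cast at hM; linarith)
      simp only [hperiod] at h1
      rw [show ∑ s, c s j * ((p : L) * y s M) = (p : L) * ∑ s, c s j * y s M by
        rw [Finset.mul_sum]; exact Finset.sum_congr rfl fun s _ => by ring] at h1
      exact (mul_eq_zero.mp h1).resolve_left hp0
  have := hRank L _ U n (n - h) (by omega) (Γk.map l) hΓ v hv hind y hy (fun s => c s j) hall
  simpa using congrFun this s₀

theorem isHom_frob {n : ℕ} {Γk : FormalGroup (K p n)} (hΓ : IsHonda p n Γk) (N : ℕ) :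
    IsHom Γk Γk (PowerSeries.X ^ p ^ N : PowerSeries (K p n)) := by
  have hp := (Fact.out : p.Prime)
  refine ⟨by simp [hp.ne_zero], ?_⟩
  have hG := PowerSeries.HasSubst.of_constantCoeff_zero Γk.zero_constantCoeff
  rw [PowerSeries.subst_pow hG, PowerSeries.subst_X hG,
    PowerSeries.subst_pow (PowerSeries.HasSubst.X 0),
    PowerSeries.subst_pow (PowerSeries.HasSubst.X 1),
    PowerSeries.subst_X (PowerSeries.HasSubst.X 0),
    PowerSeries.subst_X (PowerSeries.HasSubst.X 1)]
  have hfix : MvPowerSeries.map (iterateFrobenius (K p n) p N) Γk.toPowerSeries =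
      Γk.toPowerSeries := by
    obtain ⟨_, L, rfl, -⟩ := hΓ
    ext d
    simp only [FormalGroup.map_toPowerSeries, coeff_map, RingHom.comp_apply,
      iterateFrobenius_def, ← map_pow]
    congr 1
    rw [map_pow, ZMod.pow_card_pow]
  conv_lhs => rw [← MvPowerSeries.map_iterateFrobenius_expand p hp.ne_zero]
  rw [MvPowerSeries.map_expand, hfix, MvPowerSeries.expand, substAlgHom_apply]
  congr 1
  funext i
  fin_cases i <;> rfl

theorem pt_pos {n : ℕ} (l : K p n →+* Kb p) {η : PowerSeries (K p n)}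
    (hη : PowerSeries.constantCoeff η = 0) {u : C p} (hu : 0 < ord u) :
    0 < ord (eval₁C p HahnSeries.C (PowerSeries.map l η) u) :=
  ord_eval₁C_pos (intCoeff_residue _)
    (by rw [← PowerSeries.coeff_zero_eq_constantCoeff_apply, PowerSeries.coeff_map,
      PowerSeries.coeff_zero_eq_constantCoeff_apply, hη, map_zero]) hu

/-- If the series vanishes on the orbit, homomorphisms kill the orbit. -/
theorem exists_hom_relation {n h : ℕ} {ε : ℚ} {Γk : FormalGroup (K p n)} (l : K p n →+* Kb p)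
    {H : FormalGroup (Kb p)} {G : FormalGroup (C p)} {θ : PowerSeries (C p)}
    (hΓk : IsHonda p n Γk) (hΓc : Γk.IsComm) (hH : IsHondaKb p h H)
    (hgood : Good p n h ε (Γk.map l) G) (hθ : IsIso G (H.map HahnSeries.C) θ)
    (hθi : ∀ i, 0 ≤ ord (PowerSeries.coeff i θ)) (hRigid : RigidStatement p)
    (hIE : IotaExistsStatement p) (hIA : IotaAddStatement p) (hIP : IotaPowStatement p)
    {v : Fin (n - h) → C p} (hv : ∀ s, 0 < ord (v s))
    {P : MvPowerSeries (Fin (n - h)) (Kb p)} (hP : P ≠ 0)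
    (hcon : ∀ (η : PowerSeries (K p n)) (w : Fin (n - h) → C p), IsHom Γk Γk η →
      (∀ s, IsIota p n G (eval₁C p HahnSeries.C (PowerSeries.map l η) (v s)) (w s)) →
      evalC p HahnSeries.C P (fun s => eval₁C p (RingHom.id (C p)) θ (w s)) = 0) :
    ∃ φ : Fin (n - h) → PowerSeries (Kb p), (∀ s, IsHom H H (φ s)) ∧ φ ≠ 0 ∧
      ∀ (η : PowerSeries (K p n)) (w : Fin (n - h) → C p), IsHom Γk Γk η →
        (∀ s, IsIota p n G (eval₁C p HahnSeries.C (PowerSeries.map l η) (v s)) (w s)) →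
        fsum p HahnSeries.C H
          (fun s => eval₁C p HahnSeries.C (φ s) (eval₁C p (RingHom.id (C p)) θ (w s))) = 0 := by
  classical
  have hh := hgood.one_le
  have hn : h < n := hgood.lt
  have hGc : IntCoeff (RingHom.id (C p)) G.toPowerSeries := hgood.int
  have hθc := id_nonneg_of_OC hθi
  have hθ0 : PowerSeries.constantCoeff θ = 0 := hθ.1.1
  set Γ := Γk.map l
  -- the orbit
  set pt : PowerSeries (K p n) → Fin (n - h) → C p := fun η s =>
    eval₁C p HahnSeries.C (PowerSeries.map l η) (v s)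
  have hpt : ∀ η, IsHom Γk Γk η → ∀ s, 0 < ord (pt η s) := fun η hη s =>
    pt_pos l hη.1 (hv s)
  set S : Set (Fin (n - h) → C p) := {x | ∃ (η : PowerSeries (K p n)) (w : Fin (n - h) → C p),
    IsHom Γk Γk η ∧ (∀ s, IsIota p n G (pt η s) (w s)) ∧
      x = fun s => eval₁C p (RingHom.id (C p)) θ (w s)}
  have hwpos : ∀ η, IsHom Γk Γk η → ∀ w : Fin (n - h) → C p,
      (∀ s, IsIota p n G (pt η s) (w s)) → ∀ s, 0 < ord (w s) := fun η hη w hw s =>
    (hIE n h ε Γ G hgood).2 _ _ (hpt η hη s) (hw s)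
  have hpos : ∀ x ∈ S, ∀ s, 0 < ord (x s) := by
    rintro x ⟨η, w, hη, hw, rfl⟩ s
    exact ord_eval₁C_pos hθc hθ0 (hwpos η hη w hw s)
  have hadd : ∀ x ∈ S, ∀ x' ∈ S, (fun s => fadd p HahnSeries.C H (x s) (x' s)) ∈ S := by
    rintro x ⟨η, w, hη, hw, rfl⟩ x' ⟨η', w', hη', hw', rfl⟩
    refine ⟨(Γk : MvPowerSeries (Fin 2) (K p n)).subst ![η, η'],
      fun s => fadd p (RingHom.id (C p)) G (w s) (w' s), isHom_add Γk hη hη', fun s => ?_, ?_⟩
    · have h1 : pt ((Γk : MvPowerSeries (Fin 2) (K p n)).subst ![η, η']) s =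
          fadd p HahnSeries.C Γ (pt η s) (pt η' s) := by
        have h0 : ∀ z : PowerSeries (K p n), PowerSeries.constantCoeff z = 0 →
            MvPowerSeries.constantCoeff (PowerSeries.map l z : MvPowerSeries Unit (Kb p)) = 0 :=
          fun z hz => by
            show PowerSeries.constantCoeff (PowerSeries.map l z) = 0
            rw [← PowerSeries.coeff_zero_eq_constantCoeff_apply, PowerSeries.coeff_map,
              PowerSeries.coeff_zero_eq_constantCoeff_apply, hz, map_zero]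
        have h2 : PowerSeries.map l ((Γk : MvPowerSeries (Fin 2) (K p n)).subst ![η, η']) =
            (Γ : MvPowerSeries (Fin 2) (Kb p)).subst
              ![PowerSeries.map l η, PowerSeries.map l η'] :=
          map_subst_pair l Γk hη.1 hη'.1
        show eval₁C p HahnSeries.C _ (v s) = _
        rw [h2]
        exact evalC_fgl_subst (intCoeff_residue _) (intCoeff_residue _) (intCoeff_residue _)
          (h0 η hη.1) (h0 η' hη'.1) (fun _ => hv s)
      rw [h1]
      exact hIA n h ε Γ G hgood _ _ _ _ (hpt η hη s) (hpt η' hη' s) (hw s) (hw' s)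
    · funext s
      rw [IsHom.eval_fadd hθ.1 hGc (intCoeff_map_C _) hθc (hwpos η hη w hw s)
        (hwpos η' hη' w' hw' s), fadd_map_C]
  have hfrob : ∀ x ∈ S, (fun s => x s ^ p ^ h) ∈ S := by
    rintro x ⟨η, w, hη, hw, rfl⟩
    have := hgood.honda_comm
    have : Γk.IsComm := hΓc
    refine ⟨η ^ p ^ n, fun s => eval₁C p (RingHom.id (C p)) (mulSeries G p) (w s), ?_,
      fun s => ?_, ?_⟩
    · have h1 := IsHom.comp hη (mulSeries_isHom Γk p)
      rwa [hΓk.1, PowerSeries.subst_pow hη.hasSubst, PowerSeries.subst_X hη.hasSubst] at h1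
    · have h1 : pt (η ^ p ^ n) s = pt η s ^ p ^ n := by
        show eval₁C p HahnSeries.C (PowerSeries.map l (η ^ p ^ n)) (v s) = _
        rw [map_pow]
        exact evalC_pow (intCoeff_residue _) (fun _ => hv s) _
      rw [h1]
      exact hIP n h ε Γ G hgood _ _ (hpt η hη s) (hw s)
    · funext s
      exact (mulSeries_honda_ord hH hθ.1 hθi hGc (hwpos η hη w hw s)).symm
  have hvan : ∀ x ∈ S, evalC p HahnSeries.C P x = 0 := by
    rintro x ⟨η, w, hη, hw, rfl⟩
    exact hcon η w hη hw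
  obtain ⟨φ, hφ, hφ0, hrel⟩ :=
    hRigid h hh H hH (n - h) (by omega) S hpos hadd hfrob P hP hvan
  exact ⟨φ, hφ, hφ0, fun η w hη hw => hrel _ ⟨η, w, hη, hw, rfl⟩⟩

/-- The linearised coefficients of a relation vanish. -/
theorem linear_coeff_eq_zero {n h : ℕ} {ε : ℚ} {Γk : FormalGroup (K p n)} (l : K p n →+* Kb p)
    {H : FormalGroup (Kb p)} {G : FormalGroup (C p)} (hΓk : IsHonda p n Γk)
    (hH : IsHondaKb p h H) (hgood : Good p n h ε (Γk.map l) G) (hLn : LnStatement p)
    (hRank : RankStatement p) (hIE : IotaExistsStatement p)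
    {v : Fin (n - h) → C p} (hv : ∀ s, 0 < ord (v s)) (hind : Indep p (Γk.map l) v)
    {ψ : Fin (n - h) → PowerSeries (C p)} (hψ : ∀ s, IsHom G (H.map HahnSeries.C) (ψ s))
    (hψi : ∀ s i, 0 ≤ ord (PowerSeries.coeff i (ψ s)))
    (hrel : ∀ (η : PowerSeries (K p n)) (w : Fin (n - h) → C p), IsHom Γk Γk η →
      (∀ s, IsIota p n G (eval₁C p HahnSeries.C (PowerSeries.map l η) (v s)) (w s)) →
      fsum p HahnSeries.C H (fun s => eval₁C p (RingHom.id (C p)) (ψ s) (w s)) = 0)
    {L : Type} [iL : Field L] (U : Untilt p L) (c : Fin (n - h) → Fin n → L)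
    (hc : ∀ s, ∀ V w : C p, 0 < ord V → IsIota p n G V w → ∀ (y : L) (z : Fin n → L),
      U.IsLn h (eval₁C p (RingHom.id (C p)) (ψ s) w) y →
      (∀ j : Fin n, U.IsLn n (powZ p V ((j : ℕ) : ℤ)) (z j)) → y = ∑ j, c s j * z j) :
    c = 0 := by
  classical
  have hh := hgood.one_le
  have hn : h < n := hgood.lt
  have hn1 : 1 ≤ n := by omega
  set Γ := Γk.map l
  set pt : PowerSeries (K p n) → Fin (n - h) → C p := fun η s =>
    eval₁C p HahnSeries.C (PowerSeries.map l η) (v s)
  have hpt : ∀ η, IsHom Γk Γk η → ∀ s, 0 < ord (pt η s) := fun η hη s =>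
    pt_pos l hη.1 (hv s)
  have hwpos : ∀ η, IsHom Γk Γk η → ∀ w : Fin (n - h) → C p,
      (∀ s, IsIota p n G (pt η s) (w s)) → ∀ s, 0 < ord (w s) := fun η hη w hw s =>
    (hIE n h ε Γ G hgood).2 _ _ (hpt η hη s) (hw s)
  obtain ⟨hex_h, hadd_h, -, -, -⟩ := hLn L iL U h hh
  refine coeff_matrix_eq_zero hh hn l hgood.honda U hLn hRank v hv hind c fun ω N z hz => ?_
  set η : PowerSeries (K p n) := PowerSeries.C ω * PowerSeries.X ^ p ^ N
  have hη : IsHom Γk Γk η := by
    have hXp : IsHom Γk Γk (PowerSeries.X ^ p ^ N : PowerSeries (K p n)) := isHom_frob hΓk N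
    have h1 := IsHom.comp hXp (isHom_scale p n hn1 hΓk ω)
    have hs : PowerSeries.HasSubst (PowerSeries.X ^ p ^ N : PowerSeries (K p n)) :=
      hXp.hasSubst
    rwa [PowerSeries.subst_mul hs, PowerSeries.subst_C, PowerSeries.subst_X hs] at h1
  have hptη : ∀ s, pt η s = HahnSeries.C (l ω) * v s ^ p ^ N := by
    intro s
    show eval₁C p HahnSeries.C (PowerSeries.map l η) (v s) = _
    simp only [η, map_mul, PowerSeries.map_C, map_pow, PowerSeries.map_X]
    rw [eval₁C_mul (intCoeff_residue _) (intCoeff_residue _) (hv s), eval₁C_X_pow]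
    exact congrArg (· * _) (evalC_C _)
  choose w hw using fun s => ((hIE n h ε Γ G hgood).1 _ (hpt η hη s)).exists
  choose yh hyh using fun s => (hex_h _ (ord_eval₁C_pos (id_nonneg_of_OC (hψi s)) (hψ s).1
    (hwpos η hη w hw s))).exists
  have h0 : fsum p HahnSeries.C H
      (fun s => eval₁C p (RingHom.id (C p)) (ψ s) (w s)) = 0 := hrel η w hη hw
  have h1 := isLn_fsum U (hadd_h H hH) _ yh
    (fun s => ord_eval₁C_pos (id_nonneg_of_OC (hψi s)) (hψ s).1 (hwpos η hη w hw s)) hyh
  rw [h0] at h1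
  have h2 : ∑ s, yh s = 0 := by
    have hz0 : U.IsLn h (0 : C p) (0 : L) := isLn_zero U h
    exact (hex_h 0 (Rigid.ord_zero_pos)).unique h1 hz0
  rw [← h2]
  refine Finset.sum_congr rfl fun s _ => ?_
  refine (hc s _ _ (hpt η hη s) (hw s) (yh s) (z s) (hyh s) fun j => ?_).symm
  rw [hptη]
  exact hz s j

theorem false_of_linear {n h : ℕ} {ε : ℚ} (hh : 1 ≤ h) {Γ : FormalGroup (Kb p)}
    {H : FormalGroup (Kb p)} (_hH : IsHondaKb p h H) {G : FormalGroup (C p)}
    (hgood : Good p n h ε Γ G) (hIS : IotaSurjStatement p) (hLn : LnStatement p)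
    {θ : PowerSeries (C p)} (hθ : IsIso G (H.map HahnSeries.C) θ)
    (hθi : ∀ i, 0 ≤ ord (PowerSeries.coeff i θ))
    {φ : PowerSeries (Kb p)} (hφ : IsHom H H φ) (hφ0 : φ ≠ 0) {L : Type} [iL : Field L]
    (U : Untilt p L)
    (hzero : ∀ V w : C p, 0 < ord V → IsIota p n G V w → ∀ y : L,
      U.IsLn h (eval₁C p HahnSeries.C φ (eval₁C p (RingHom.id (C p)) θ w)) y → y = 0) :
    False := by
  classical
  have hθ0 : PowerSeries.constantCoeff θ = 0 := hθ.1.1
  obtain ⟨hex_h, -, -, -, hnz⟩ := hLn L iL U h hh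
  have hex : ∃ d, PowerSeries.coeff d φ ≠ 0 := by
    by_contra hall; push Not at hall; exact hφ0 (PowerSeries.ext fun d => by simpa using hall d)
  set d := Nat.find hex
  have hd : PowerSeries.coeff d φ ≠ 0 := Nat.find_spec hex
  have hlow : ∀ i < d, PowerSeries.coeff i φ = 0 := fun i hi =>
    not_not.mp (Nat.find_min hex hi)
  have hd1 : 1 ≤ d := by
    rcases Nat.eq_zero_or_pos d with h0 | h0
    · exfalso; apply hd; rw [h0, PowerSeries.coeff_zero_eq_constantCoeff_apply, hφ.1]
    · exact h0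
  obtain ⟨γ, hγ⟩ := WithTop.ne_top_iff_exists.mp (mt ord_eq_top.mp hθ.2.ne_zero)
  have hγ0 : 0 ≤ γ := by exact_mod_cast (hγ ▸ hθi 1)
  obtain ⟨q, hq, hqne⟩ := hnz (2 * γ * d)
  have hd0 : (0 : ℚ) < d := by exact_mod_cast hd1
  have hqd : γ < q / d - γ := by
    have : 2 * γ < q / d := by rw [lt_div_iff₀ hd0]; exact hq
    linarith
  set W : C p := tpow p (q / d - γ)
  have hW : ord W = ((q / d - γ : ℚ) : WithTop ℚ) := ord_tpow p _
  have hWpos : 0 < ord W := by rw [hW]; exact WithTop.coe_pos.mpr (by linarith)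
  obtain ⟨V, hV, hVW⟩ := hIS n h ε Γ G hgood W hWpos
  have hordθ : ord (eval₁C p (RingHom.id (C p)) θ W) = ((q / d : ℚ) : WithTop ℚ) := by
    rw [ord_eval_linear hθ0 hθi hγ.symm hqd hW, add_sub_cancel]
  have hord : ord (eval₁C p HahnSeries.C φ (eval₁C p (RingHom.id (C p)) θ W)) =
      (q : WithTop ℚ) := by
    rw [ord_eval_residue hd hlow hordθ (by linarith)]
    congr 1
    field_simp
  obtain ⟨yW, hyW⟩ := (hex_h _ (by rw [hord]; exact WithTop.coe_pos.mpr (lt_of_le_of_lt
    (mul_nonneg (mul_nonneg two_pos.le hγ0) hd0.le) hq))).exists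
  exact hqne _ _ hord hyW (hzero V W hV hVW yW hyW)

theorem isHom_comp_map {R S : Type*} [CommRing R] [CommRing S] (e : R →+* S) {H : FormalGroup R}
    {G : FormalGroup S} {θ : PowerSeries S} {φ : PowerSeries R} (hθ : IsHom G (H.map e) θ)
    (hφ : IsHom H H φ) : IsHom G (H.map e) (PowerSeries.subst θ (PowerSeries.map e φ)) :=
  hθ.comp (hφ.map e)

theorem compHom_facts {h : ℕ} {H : FormalGroup (Kb p)} {G : FormalGroup (C p)}
    {θ : PowerSeries (C p)} (hθ : IsHom G (H.map HahnSeries.C) θ)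
    (hθi : ∀ i, 0 ≤ ord (PowerSeries.coeff i θ)) (_hH : IsHondaKb p h H)
    {φ : PowerSeries (Kb p)} (hφ : IsHom H H φ) :
    ∃ ψ : PowerSeries (C p), IsHom G (H.map HahnSeries.C) ψ ∧
      (∀ i, 0 ≤ ord (PowerSeries.coeff i ψ)) ∧ ∀ w : C p, 0 < ord w →
        eval₁C p (RingHom.id (C p)) ψ w =
          eval₁C p HahnSeries.C φ (eval₁C p (RingHom.id (C p)) θ w) := by
  have hθc := id_nonneg_of_OC hθi
  have hθ0 : ∀ _i : Unit, MvPowerSeries.constantCoeff (θ : MvPowerSeries Unit (C p)) = 0 :=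
    fun _ => hθ.1
  have hmap : IntCoeff (RingHom.id (C p))
      (PowerSeries.map (HahnSeries.C : Kb p →+* C p) φ : MvPowerSeries Unit (C p)) :=
    intCoeff_iff₁.mpr fun m => by
      rw [PowerSeries.coeff_map]
      exact ord_C_nonneg _
  have hψ : IsHom G (H.map (HahnSeries.C : Kb p →+* C p))
      (PowerSeries.subst θ (PowerSeries.map (HahnSeries.C : Kb p →+* C p) φ)) :=
    isHom_comp_map (HahnSeries.C : Kb p →+* C p) hθ hφ
  have hint : IntCoeff (RingHom.id (C p)) (MvPowerSeries.subst (fun _ : Unit => θ)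
      (PowerSeries.map (HahnSeries.C : Kb p →+* C p) φ : MvPowerSeries Unit (C p)) :
        MvPowerSeries Unit (C p)) :=
    IntCoeff.subst hmap (fun _ => hθc) hθ0
  refine ⟨_, hψ, intCoeff_iff₁.mp hint, fun w hw => ?_⟩
  rw [eval₁C_subst hmap hθc hθ.1 hw, eval₁C_map_C]

/-- Nonzero homomorphisms cannot kill the orbit. -/
theorem eq_zero_of_kills_orbit {n h : ℕ} {ε : ℚ} {Γk : FormalGroup (K p n)}
    (l : K p n →+* Kb p) {H : FormalGroup (Kb p)} {G : FormalGroup (C p)} {θ : PowerSeries (C p)}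
    (hΓk : IsHonda p n Γk) (hH : IsHondaKb p h H) (hgood : Good p n h ε (Γk.map l) G)
    (hθ : IsIso G (H.map HahnSeries.C) θ) (hθi : ∀ i, 0 ≤ ord (PowerSeries.coeff i θ))
    (hU : UntiltStatement p) (hLn : LnStatement p) (hRank : RankStatement p)
    (hLin : LinearStatement p) (hIE : IotaExistsStatement p) (hIS : IotaSurjStatement p)
    {v : Fin (n - h) → C p} (hv : ∀ s, 0 < ord (v s)) (hind : Indep p (Γk.map l) v)
    {φ : Fin (n - h) → PowerSeries (Kb p)} (hφ : ∀ s, IsHom H H (φ s))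
    {ψ : Fin (n - h) → PowerSeries (C p)} (hψ : ∀ s, IsHom G (H.map HahnSeries.C) (ψ s))
    (hψi : ∀ s i, 0 ≤ ord (PowerSeries.coeff i (ψ s)))
    (hψev : ∀ s (w : C p), 0 < ord w → eval₁C p (RingHom.id (C p)) (ψ s) w =
      eval₁C p HahnSeries.C (φ s) (eval₁C p (RingHom.id (C p)) θ w))
    (hrel : ∀ (η : PowerSeries (K p n)) (w : Fin (n - h) → C p), IsHom Γk Γk η →
      (∀ s, IsIota p n G (eval₁C p HahnSeries.C (PowerSeries.map l η) (v s)) (w s)) →
      fsum p HahnSeries.C H (fun s => eval₁C p (RingHom.id (C p)) (ψ s) (w s)) = 0)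
    (s₀ : Fin (n - h)) : φ s₀ = 0 := by
  by_contra hs₀
  have hh := hgood.one_le
  have hn1 : 1 ≤ n := by have := hgood.lt; omega
  obtain ⟨L, iL, ⟨U⟩⟩ := hU
  obtain ⟨hex_n, -, -, -, -⟩ := hLn L iL U n hn1
  choose c hc using fun s => hLin L iL U n h hh hn1 (Γk.map l) H hgood.honda hH G ε hgood.eps_pos
    hgood.int hgood.close hgood.close_p (ψ s) (hψi s) (hψ s)
  have hc0 : c = 0 :=
    linear_coeff_eq_zero l hΓk hH hgood hLn hRank hIE hv hind hψ hψi hrel U c hc
  refine false_of_linear hh hH hgood hIS hLn hθ hθi (hφ s₀) hs₀ U ?_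
  intro V w hV hVw y hy
  have hw : 0 < ord w := (hIE n h ε (Γk.map l) G hgood).2 V w hV hVw
  have hy' : U.IsLn h (eval₁C p (RingHom.id (C p)) (ψ s₀) w) y := by
    rw [hψev s₀ w hw]; exact hy
  choose z hz using fun j : Fin n => (hex_n _ (ord_powZ_pos hV ((j : ℕ) : ℤ))).exists
  rw [hc s₀ V w hV hVw y z hy' hz]
  refine Finset.sum_eq_zero fun j _ => ?_
  rw [hc0, Pi.zero_apply, Pi.zero_apply, zero_mul]

/-- D4. -/
theorem endgameStatement (p n : ℕ) [Fact p.Prime] (hU : UntiltStatement p) (hLn : LnStatement p)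
    (hRank : RankStatement p) (hLin : LinearStatement p) (hRigid : RigidStatement p)
    (hIE : IotaExistsStatement p) (hIA : IotaAddStatement p) (hIP : IotaPowStatement p)
    (hIS : IotaSurjStatement p) : EndgameStatement p n := by
  intro h ε Γk l H G θ hΓk hΓc hH hgood hθ hθi v hv hind P hP
  by_contra hcon
  push Not at hcon
  obtain ⟨φ, hφ, hφ0, hrel⟩ :=
    exists_hom_relation l hΓk hΓc hH hgood hθ hθi hRigid hIE hIA hIP hv hP hcon
  choose ψ hψ hψi hψev using fun s => compHom_facts hθ.1 hθi hH (hφ s)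
  refine hφ0 (funext fun s₀ => eq_zero_of_kills_orbit l hΓk hH hgood hθ hθi hU hLn hRank hLin hIE
    hIS hv hind hφ hψ hψi hψev (fun η w hη hw => ?_) s₀)
  refine Eq.trans ?_ (hrel η w hη hw)
  congr 1
  funext s
  exact hψev s _ ((hIE n h ε _ G hgood).2 _ _ (pt_pos l hη.1 (hv s)) (hw s))

end

end Vale.Agent.P217.CharP
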