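import Vale.Agent.P217.CharP.Iota
import Vale.Agent.P217.Rigid.Law

/-!
P217, module M8, D1: the kernel of multiplication by p, the kernel of iota, and the test for
series additive on the torsion.
-/

open MvPowerSeries

noncomputable section

namespace Vale.Agent.P217.CharP

variable {p : ℕ} [Fact p.Prime]

theorem exists_span_indep_of_module {A : Type} [AddCommGroup A] [Finite A] [Module (ZMod p) A]
    {r : ℕ} (hcard : Nat.card A = p ^ r) :
    ∃ b : Fin r → A, (∀ c : Fin r → ℕ, (∃ s, ¬ p ∣ c s) → ∑ s, c s • b s ≠ 0) ∧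
      ∀ x : A, ∃ m : Fin r → ℕ, ∑ s, m s • b s = x := by
  have hfin : Module.Finite (ZMod p) A := Module.Finite.of_finite
  have hrank : Module.finrank (ZMod p) A = r := by
    have h1 := Module.natCard_eq_pow_finrank (K := ZMod p) (V := A)
    rw [hcard, Nat.card_zmod] at h1
    exact (Nat.pow_right_injective (Fact.out : p.Prime).two_le h1).symm
  let b := Module.finBasisOfFinrankEq (ZMod p) A hrank
  refine ⟨b, fun c hc h1 => ?_, fun x => ⟨fun s => (b.repr x s).val, ?_⟩⟩
  · obtain ⟨s, hs⟩ := hc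
    have h2 : ∑ s, (c s : ZMod p) • b s = 0 := by
      simp only [Nat.cast_smul_eq_nsmul]
      exact h1
    exact hs ((ZMod.natCast_eq_zero_iff _ _).mp
      (Fintype.linearIndependent_iff.mp b.linearIndependent _ h2 s))
  · simp only [← Nat.cast_smul_eq_nsmul (ZMod p), ZMod.natCast_zmod_val]
    exact b.sum_repr x

/-- A group of exponent p with p^r elements has r elements independent modulo p that span. -/
theorem exists_span_indep {A : Type} [AddCommGroup A] [Finite A] (h0 : ∀ x : A, p • x = 0) {r : ℕ}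
    (hcard : Nat.card A = p ^ r) :
    ∃ b : Fin r → A, (∀ c : Fin r → ℕ, (∃ s, ¬ p ∣ c s) → ∑ s, c s • b s ≠ 0) ∧
      ∀ x : A, ∃ m : Fin r → ℕ, ∑ s, m s • b s = x :=
  @exists_span_indep_of_module p _ A _ _ (AddCommGroup.zmodModule h0) r hcard

theorem eval₁C_expand {g : PowerSeries (C p)}
    (hg : IntCoeff (RingHom.id (C p)) (g : MvPowerSeries Unit (C p))) {q : ℕ} (hq : q ≠ 0)
    {z : C p} (hz : 0 < ord z) :
    eval₁C p (RingHom.id (C p)) (PowerSeries.expand q hq g) z =
      eval₁C p (RingHom.id (C p)) g (z ^ q) := by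
  have hX : IntCoeff (RingHom.id (C p))
      ((PowerSeries.X ^ q : PowerSeries (C p)) : MvPowerSeries Unit (C p)) :=
    (intCoeff_X ()).pow _
  rw [PowerSeries.expand_apply,
    eval₁C_subst hg hX (by rw [map_pow, PowerSeries.constantCoeff_X, zero_pow hq]) hz,
    eval₁C_X_pow]

theorem eval₁C_prod_roots (s : Multiset (C p)) (hs : ∀ y ∈ s, 0 ≤ ord y) {u : C p}
    (hu : 0 < ord u) :
    IntCoeff (RingHom.id (C p))
        ((((s.map fun y => Polynomial.X - Polynomial.C y).prod : Polynomial (C p)) :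
          PowerSeries (C p)) : MvPowerSeries Unit (C p)) ∧
      eval₁C p (RingHom.id (C p))
        (((s.map fun y => Polynomial.X - Polynomial.C y).prod : Polynomial (C p)) :
          PowerSeries (C p)) u = (s.map fun y => u - y).prod := by
  induction s using Multiset.induction with
  | empty =>
    simp only [Multiset.map_zero, Multiset.prod_zero, Polynomial.coe_one]
    exact ⟨intCoeff_one, evalC_one⟩
  | cons y t ih =>
    obtain ⟨hi, he⟩ := ih fun z hz => hs z (Multiset.mem_cons_of_mem hz)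
    have iX : IntCoeff (RingHom.id (C p))
        ((PowerSeries.X : PowerSeries (C p)) : MvPowerSeries Unit (C p)) := intCoeff_X ()
    have iC : IntCoeff (RingHom.id (C p))
        ((PowerSeries.C y : PowerSeries (C p)) : MvPowerSeries Unit (C p)) :=
      intCoeff_C (hs y (Multiset.mem_cons_self y t))
    simp only [Multiset.map_cons, Multiset.prod_cons, Polynomial.coe_mul, Polynomial.coe_sub,
      Polynomial.coe_X, Polynomial.coe_C]
    refine ⟨(iX.sub iC).mul hi, ?_⟩
    rw [eval₁C_mul (iX.sub iC) hi hu, he, eval₁C_sub iX iC hu, eval₁C_X]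
    congr 2
    exact evalC_C _

variable {n h : ℕ} {ε : ℚ} {Γ : FormalGroup (Kb p)} {G : FormalGroup (C p)}

/-- The points killed by p. -/
abbrev Tors (G : FormalGroup (C p)) : Type := {x : C p // 0 < ord x ∧ mulP G x = 0}

namespace Good

/-- The zeros of the factor of multiplication by p are simple, so there are p^(n - h) of them. -/
theorem exists_zeros (hg : Good p n h ε Γ G) {g : PowerSeries (C p)}
    (hghom : IsHom (G.map (iterateFrobenius (C p) p h)) G g) (hlin : PowerSeries.coeff 1 g ≠ 0)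
    (hc : ∀ i, PowerSeries.coeff i g = PowerSeries.coeff (p ^ h * i) (mulSeries G p))
    (hint : IntCoeff (RingHom.id (C p)) (g : MvPowerSeries Unit (C p))) :
    ∃ Z : Finset (C p), Z.card = p ^ (n - h) ∧
      ∀ z, z ∈ Z ↔ 0 < ord z ∧ eval₁C p (RingHom.id (C p)) g z = 0 := by
  classical
  obtain ⟨hlow, hD⟩ := hg.residual_degree hc
  obtain ⟨s, U, hcard, hU, hU0, hmem, hfac⟩ := exists_roots hint hlow hD
  suffices hs : s.Nodup from
    ⟨⟨s, hs⟩, hcard, fun z => by rw [Finset.mem_mk]; exact hmem z⟩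
  rw [Multiset.nodup_iff_count_le_one]
  by_contra hn
  push Not at hn
  obtain ⟨z, hz⟩ := hn
  obtain ⟨t', ht'⟩ : ∃ t, s = Multiset.replicate 2 z + t :=
    Multiset.le_iff_exists_add.mp (Multiset.le_count_iff_replicate_le.mp hz)
  obtain ⟨hzpos, hz0⟩ := (hmem z).mp (Multiset.count_pos.mp (by omega))
  have hG₁ : IntCoeff (RingHom.id (C p))
      (G.map (iterateFrobenius (C p) p h)).toPowerSeries := fun d => by
    rw [RingHom.id_apply, FormalGroup.map_toPowerSeries, MvPowerSeries.coeff_map,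
      iterateFrobenius_def]
    exact (OC p).pow_mem (hg.int d) _
  obtain ⟨γ, hγ⟩ := WithTop.ne_top_iff_exists.mp (mt ord_eq_top.mp hlin)
  set T : ℚ := max γ 0 + 1
  have hT0 : 0 < T := by have := le_max_right γ 0; linarith
  have hTγ : γ < T := by have := le_max_left γ 0; linarith
  set t := tpow p T
  have ht : ord t = T := ord_tpow p T
  have htpos : 0 < ord t := by rw [ht]; exact WithTop.coe_pos.mpr hT0
  set u := fadd p (RingHom.id (C p)) (G.map (iterateFrobenius (C p) p h)) z t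
  have hupos : 0 < ord u := ord_fadd_pos hG₁ hzpos htpos
  have huz : (T : WithTop ℚ) ≤ ord (u - z) := by
    have h1 := le_ord_fadd_sub hG₁ hzpos htpos hzpos ord_zero_pos' (δ := (T : WithTop ℚ))
      (by rw [sub_self, ord_zero]; exact le_top) (by rw [sub_zero, ht])
    rwa [fadd_zero hG₁ hzpos] at h1
  have hgu : eval₁C p (RingHom.id (C p)) g u = eval₁C p (RingHom.id (C p)) g t := by
    rw [eval₁C_fadd hghom hG₁ hg.intG hint hzpos htpos, hz0,
      zero_fadd hg.intG (ord_eval₁C_pos hint hghom.1 htpos)]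
  have h2T : ((2 • T : ℚ) : WithTop ℚ) ≤ ord (eval₁C p (RingHom.id (C p)) g u) := by
    have hs0 : ∀ y ∈ s, 0 ≤ ord y := fun y hy => ((hmem y).mp hy).1.le
    obtain ⟨iP, hP⟩ := eval₁C_prod_roots s hs0 hupos
    rw [hfac, eval₁C_mul iP (intCoeff_iff₁.mpr hU) hupos, hP, ht', Multiset.map_add,
      Multiset.prod_add, Multiset.map_replicate, Multiset.prod_replicate, ord_mul, ord_mul]
    refine le_trans ?_ ((le_add_of_nonneg_right ?_).trans
      (le_add_of_nonneg_right (ord_eval₁C_of_unit hU hU0 hupos).ge))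
    · rw [ord_pow, WithTop.coe_nsmul]
      exact nsmul_le_nsmul_right huz 2
    · refine (OC p).multiset_prod_mem _ fun a ha => ?_
      obtain ⟨y, hy, rfl⟩ := Multiset.mem_map.mp ha
      exact le_ord_sub hupos.le (hs0 y (ht' ▸ Multiset.mem_add.mpr (Or.inr hy)))
  have iL : IntCoeff (RingHom.id (C p)) ((PowerSeries.C (PowerSeries.coeff 1 g) *
      PowerSeries.X : PowerSeries (C p)) : MvPowerSeries Unit (C p)) :=
    (intCoeff_C (intCoeff_iff₁.mp hint 1)).mul (intCoeff_X ())
  have hrest : ((2 • T : ℚ) : WithTop ℚ) ≤ ord (eval₁C p (RingHom.id (C p))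
      (g - PowerSeries.C (PowerSeries.coeff 1 g) * PowerSeries.X) t) := by
    refine le_ord_evalC_of_degree (hint.sub iL) hT0 (fun _ => ht.ge) fun d hd => ?_
    rw [show d = Finsupp.single () (d ()) from Finsupp.unique_single d]
    have hd2 : d () < 2 := by simpa using hd
    show PowerSeries.coeff (d ()) (g - PowerSeries.C (PowerSeries.coeff 1 g) * PowerSeries.X) = 0
    rw [map_sub, PowerSeries.coeff_C_mul, PowerSeries.coeff_X]
    interval_cases h0 : d ()
    · rw [if_neg zero_ne_one, mul_zero, sub_zero, PowerSeries.coeff_zero_eq_constantCoeff_apply]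
      exact hghom.1
    · rw [if_pos rfl, mul_one, sub_self]
  have hL : eval₁C p (RingHom.id (C p))
      (PowerSeries.C (PowerSeries.coeff 1 g) * PowerSeries.X) t =
      PowerSeries.coeff 1 g * t := by
    have iC : IntCoeff (RingHom.id (C p)) ((PowerSeries.C (PowerSeries.coeff 1 g) :
        PowerSeries (C p)) : MvPowerSeries Unit (C p)) := intCoeff_C (intCoeff_iff₁.mp hint 1)
    have iX : IntCoeff (RingHom.id (C p))
        ((PowerSeries.X : PowerSeries (C p)) : MvPowerSeries Unit (C p)) := intCoeff_X ()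
    rw [eval₁C_mul iC iX htpos, eval₁C_X]
    exact congrArg (· * t) (evalC_C _)
  rw [eval₁C_sub hint iL htpos, hL] at hrest
  rw [hgu] at h2T
  have h3 := le_ord_sub h2T hrest
  rw [sub_sub_cancel, ord_mul, ← hγ, ht, ← WithTop.coe_add, WithTop.coe_le_coe, two_nsmul] at h3
  linarith

theorem tors_add_mem (hg : Good p n h ε Γ G) (x y : Tors G) :
    0 < ord (fadd p (RingHom.id (C p)) G x.1 y.1) ∧
      mulP G (fadd p (RingHom.id (C p)) G x.1 y.1) = 0 := by
  refine ⟨ord_fadd_pos hg.intG x.2.1 y.2.1, ?_⟩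
  rw [hg.mulP_fadd x.2.1 y.2.1, x.2.2, y.2.2, fadd_zero hg.intG ord_zero_pos']

theorem tors_mul_mem (hg : Good p n h ε Γ G) (x : Tors G) :
    ∀ m, 0 < ord (eval₁C p (RingHom.id (C p)) (mulSeries G m) x.1) ∧
      mulP G (eval₁C p (RingHom.id (C p)) (mulSeries G m) x.1) = 0
  | 0 => by
    rw [eval₁C_mulSeries_zero]
    exact ⟨ord_zero_pos', hg.mulP_zero⟩
  | m + 1 => by
    rw [eval₁C_mulSeries_succ hg.intG x.2.1]
    exact hg.tors_add_mem x ⟨_, hg.tors_mul_mem x m⟩

/-- The group of points killed by p. -/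
@[reducible] def torsGroup (hg : Good p n h ε Γ G) : AddCommGroup (Tors G) :=
  haveI := hg.comm
  letI : Add (Tors G) :=
    ⟨fun x y => ⟨fadd p (RingHom.id (C p)) G x.1 y.1, hg.tors_add_mem x y⟩⟩
  letI : Zero (Tors G) := ⟨⟨0, ord_zero_pos', hg.mulP_zero⟩⟩
  letI : Neg (Tors G) :=
    ⟨fun x => ⟨eval₁C p (RingHom.id (C p)) (mulSeries G (p - 1)) x.1,
      hg.tors_mul_mem x (p - 1)⟩⟩
  { AddGroup.ofLeftAxioms (G := Tors G)
      (fun x y z => Subtype.ext (fadd_assoc hg.intG x.2.1 y.2.1 z.2.1))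
      (fun x => Subtype.ext (zero_fadd hg.intG x.2.1))
      (fun x => Subtype.ext (by
        show fadd p (RingHom.id (C p)) G (eval₁C p (RingHom.id (C p)) (mulSeries G (p - 1)) x.1)
          x.1 = 0
        rw [fadd_comm hg.intG (hg.tors_mul_mem x (p - 1)).1 x.2.1,
          ← eval₁C_mulSeries_succ hg.intG x.2.1,
          Nat.sub_add_cancel (Fact.out : p.Prime).one_le]
        exact x.2.2)) with
    add_comm := fun x y => Subtype.ext (fadd_comm hg.intG x.2.1 y.2.1) }

/-- Lifts through iota of independent torsion points are independent. -/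
theorem indep_of_bound (hg : Good p n h ε Γ G) {r : ℕ} {V v w z : Fin r → C p}
    (hVpos : ∀ s, 0 < ord (V s)) (hvpos : ∀ s, 0 < ord (v s)) (hwpos : ∀ s, 0 < ord (w s))
    (hzpos : ∀ s, 0 < ord (z s)) (hV : ∀ s, IsIota p n G (V s) (z s))
    (hVw : ∀ s, V s ^ p ^ n = w s) (hvw : ∀ s, fadd p HahnSeries.C Γ (v s) (w s) = 0) {M : ℚ}
    (hM : ∀ c : Fin r → ℕ, (∃ s, ¬ p ∣ c s) → ord (fsum p (RingHom.id (C p)) G
      fun s => eval₁C p (RingHom.id (C p)) (mulSeries G (c s)) (z s)) ≤ (M : WithTop ℚ)) :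
    Indep p Γ v := by
  have hp : p.Prime := Fact.out
  have := hg.honda_comm
  obtain ⟨l, hl⟩ := exists_lt_sched hg.q_gt hg.eps_pos M
  refine ⟨p ^ n • (p ^ (n * l) • M), fun c hcs => ?_⟩
  set X := fsum p HahnSeries.C Γ fun s => eval₁C p HahnSeries.C (mulSeries Γ (c s)) (v s)
  set Y := fsum p HahnSeries.C Γ fun s => eval₁C p HahnSeries.C (mulSeries Γ (c s)) (w s)
  set U := fsum p HahnSeries.C Γ fun s => eval₁C p HahnSeries.C (mulSeries Γ (c s)) (V s)
  set e := fsum p (RingHom.id (C p)) G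
    fun s => eval₁C p (RingHom.id (C p)) (mulSeries G (c s)) (z s)
  have hXY : (0 < ord X ∧ 0 < ord Y) ∧ fadd p HahnSeries.C Γ X Y = 0 := by
    refine rel_combination (intCoeff_residue _) (intCoeff_residue _)
      (fun a a' => (0 < ord a ∧ 0 < ord a') ∧ fadd p HahnSeries.C Γ a a' = 0)
      ⟨⟨ord_zero_pos', ord_zero_pos'⟩, fadd_zero (intCoeff_residue _) ord_zero_pos'⟩
      (fun a a' h1 => h1.1) (fun a a' b b' h1 h2 => ⟨⟨ord_fadd_pos (intCoeff_residue _) h1.1.1
        h2.1.1, ord_fadd_pos (intCoeff_residue _) h1.1.2 h2.1.2⟩, ?_⟩) c v w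
      fun s => ⟨⟨hvpos s, hwpos s⟩, hvw s⟩
    rw [fadd_fadd_fadd_comm (intCoeff_residue _) h1.1.1 h2.1.1 h1.1.2 h2.1.2, h1.2, h2.2,
      fadd_zero (intCoeff_residue _) ord_zero_pos']
  have hUY : (0 < ord U ∧ 0 < ord Y) ∧ U ^ p ^ n = Y := by
    refine rel_combination (intCoeff_residue _) (intCoeff_residue _)
      (fun a a' => (0 < ord a ∧ 0 < ord a') ∧ a ^ p ^ n = a')
      ⟨⟨ord_zero_pos', ord_zero_pos'⟩, zero_pow (pow_ne_zero n hp.ne_zero)⟩
      (fun a a' h1 => h1.1) (fun a a' b b' h1 h2 => ⟨⟨ord_fadd_pos (intCoeff_residue _) h1.1.1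
        h2.1.1, ord_fadd_pos (intCoeff_residue _) h1.1.2 h2.1.2⟩, ?_⟩) c V w
      fun s => ⟨⟨hVpos s, hwpos s⟩, hVw s⟩
    have hfix : ∀ d, MvPowerSeries.coeff d Γ.toPowerSeries ^ p ^ n =
        MvPowerSeries.coeff d Γ.toPowerSeries := fun d => by
      simpa using pow_fix_iterate (hg.coeff_fix d) n
    rw [fadd, evalC_pow_fix hfix (vec2_pos h1.1.1 h2.1.1), ← h1.2, ← h2.2, fadd]
    congr 1
    funext i
    fin_cases i <;> rfl
  have hUe : (0 < ord U ∧ 0 < ord e) ∧ IsIota p n G U e :=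
    rel_combination (intCoeff_residue _) hg.intG
      (fun a a' => (0 < ord a ∧ 0 < ord a') ∧ IsIota p n G a a')
      ⟨⟨ord_zero_pos', ord_zero_pos'⟩, hg.iota_zero⟩
      (fun a a' h1 => h1.1) (fun a a' b b' h1 h2 => ⟨⟨ord_fadd_pos (intCoeff_residue _) h1.1.1
        h2.1.1, ord_fadd_pos hg.intG h1.1.2 h2.1.2⟩, hg.iota_add h1.1.1 h2.1.1 h1.2 h2.2⟩)
      c V z fun s => ⟨⟨hVpos s, hzpos s⟩, hV s⟩
  by_contra hB
  rw [not_le] at hB
  have hYX : ord X ≤ ord Y := by
    have h1 := le_ord_fadd_sub (c := HahnSeries.C) (G := Γ) (intCoeff_residue _) hXY.1.1 hXY.1.2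
      ord_zero_pos' hXY.1.2 (δ := ord X) (by rw [sub_zero])
      (by rw [sub_self, ord_zero]; exact le_top)
    rwa [hXY.2, zero_fadd (intCoeff_residue _) hXY.1.2, zero_sub, ord_neg] at h1
  have hU : ((p ^ (n * l) • M : ℚ) : WithTop ℚ) < ord U :=
    lt_ord_of_lt_ord_pow (k := p ^ n) (by rw [hUY.2]; exact hB.trans_le hYX)
  set a := powZ p U (-((n * l : ℕ) : ℤ))
  have ha : 0 < ord a := ord_powZ_pos hUe.1.1 _
  have haM : (M : WithTop ℚ) < ord a :=
    lt_ord_of_lt_ord_pow (k := p ^ (n * l)) (by rw [powZ_neg_pow]; exact hU)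
  have h1 : ord a ≤ ord (approx n G U l) := by
    have h2 := hg.contract_iterate ha ord_zero_pos' (δ := ord a) (by rw [sub_zero]) l
    rw [Function.iterate_fixed hg.mulP_zero l, sub_zero] at h2
    refine le_trans ?_ h2
    simpa using nsmul_le_nsmul_left ha.le (Nat.one_le_pow l (p ^ h) (pow_pos hp.pos h))
  refine not_lt.mpr (hM c hcs) ?_
  show _ < ord e
  rw [show e = (e - approx n G U l) + approx n G U l by ring]
  exact lt_ord_add ((hl l le_rfl).trans_le (hg.iota_bound hUe.1.1 hUe.2 l))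
    (haM.trans_le h1)

/-- A series in X^(p^h) vanishing on the torsion has positive low coefficients. -/
theorem pos_coeff_of_vanish (hg : Good p n h ε Γ G) {D : PowerSeries (C p)}
    (hDint : ∀ i, 0 ≤ ord (PowerSeries.coeff i D))
    (hDdvd : ∀ i, ¬ p ^ h ∣ i → PowerSeries.coeff i D = 0)
    (hvan : ∀ x, 0 < ord x → mulP G x = 0 → eval₁C p (RingHom.id (C p)) D x = 0) :
    ∀ i < p ^ n, 0 < ord (PowerSeries.coeff i D) := by
  classical
  have hp : p.Prime := Fact.out
  obtain ⟨g, hghom, hlin, hc, hint, heval⟩ := hg.exists_factor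
  obtain ⟨Z, hZcard, hZ⟩ := hg.exists_zeros hghom hlin hc hint
  set D₀ : PowerSeries (C p) := PowerSeries.mk fun m => PowerSeries.coeff (p ^ h * m) D
  have hq : p ^ h ≠ 0 := pow_ne_zero h hp.ne_zero
  have hD₀ : IntCoeff (RingHom.id (C p)) (D₀ : MvPowerSeries Unit (C p)) :=
    intCoeff_iff₁.mpr fun m => by simpa [D₀] using hDint _
  have hDexp : D = PowerSeries.expand (p ^ h) hq D₀ := by
    ext i : 1
    rw [PowerSeries.coeff_expand]
    split_ifs with hi
    · rw [PowerSeries.coeff_mk, Nat.mul_div_cancel' hi]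
    · exact hDdvd i hi
  intro i hi
  by_contra hbad
  by_cases hdiv : p ^ h ∣ i
  · obtain ⟨m, rfl⟩ := hdiv
    have hex : ∃ m, ¬ 0 < ord (PowerSeries.coeff m D₀) := ⟨m, by simpa [D₀] using hbad⟩
    have hm : m < p ^ (n - h) := by
      refine Nat.lt_of_mul_lt_mul_left (a := p ^ h) ?_
      rwa [← pow_add, Nat.add_sub_cancel' hg.lt.le]
    obtain ⟨S, -, hScard, -, -, hSmem, -⟩ := exists_roots hD₀ (D := Nat.find hex)
      (fun k hk => not_not.mp (Nat.find_min hex hk))
      (le_antisymm (not_lt.mp (Nat.find_spec hex)) (intCoeff_iff₁.mp hD₀ _))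
    have hsub : Z ⊆ S.toFinset := by
      intro u hu
      obtain ⟨hu1, hu2⟩ := (hZ u).mp hu
      rw [Multiset.mem_toFinset, hSmem]
      refine ⟨hu1, ?_⟩
      have hpos : 0 < ord (powZ p u (-(h : ℤ))) := ord_powZ_pos hu1 _
      have h0 := hvan _ hpos (by rw [heval _ hpos, powZ_neg_pow]; exact hu2)
      rwa [hDexp, eval₁C_expand hD₀ hq hpos, powZ_neg_pow] at h0
    have h1 := (Finset.card_le_card hsub).trans (Multiset.toFinset_card_le S)
    rw [hZcard, hScard] at h1
    exact absurd (h1.trans (Nat.find_le (by simpa [D₀] using hbad))) (not_le.mpr hm)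
  · refine hbad ?_
    rw [hDdvd i hdiv, ord_zero]
    exact WithTop.coe_lt_top _

theorem torsion (hg : Good p n h ε Γ G) :
    ∃ v w z : Fin (n - h) → C p, (∀ s, 0 < ord (v s)) ∧ (∀ s, 0 < ord (w s)) ∧
      (∀ s, 0 < ord (z s)) ∧ (∀ s, IsIota p n G (v s) 0) ∧
      (∀ s, fadd p HahnSeries.C Γ (v s) (w s) = 0) ∧ Indep p Γ v ∧
      (∀ s, IsIota p n G (powZ p (w s) (-(n : ℤ))) (z s)) ∧
      (∀ s, eval₁C p (RingHom.id (C p)) (mulSeries G p) (z s) = 0) ∧
      ∀ D : PowerSeries (C p), (∀ i, 0 ≤ ord (PowerSeries.coeff i D)) →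
        (∀ i, ¬ p ^ h ∣ i → PowerSeries.coeff i D = 0) →
        (∀ y y' : C p, 0 < ord y → 0 < ord y' →
          eval₁C p (RingHom.id (C p)) (mulSeries G p) y = 0 →
          eval₁C p (RingHom.id (C p)) (mulSeries G p) y' = 0 →
          eval₁C p (RingHom.id (C p)) D (fadd p (RingHom.id (C p)) G y y') =
            eval₁C p (RingHom.id (C p)) D y + eval₁C p (RingHom.id (C p)) D y') →
        (∀ s, eval₁C p (RingHom.id (C p)) D (z s) = 0) →
        ∀ i < p ^ n, 0 < ord (PowerSeries.coeff i D) := by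
  classical
  have hp : p.Prime := Fact.out
  obtain ⟨g, hghom, hlin, hc, hint, heval⟩ := hg.exists_factor
  obtain ⟨Z, hZcard, hZ⟩ := hg.exists_zeros hghom hlin hc hint
  let := hg.torsGroup
  have hval_add : ∀ x y : Tors G, (x + y).1 = fadd p (RingHom.id (C p)) G x.1 y.1 :=
    fun _ _ => rfl
  have hval_zero : (0 : Tors G).1 = 0 := rfl
  have hval_nsmul : ∀ (m : ℕ) (x : Tors G),
      (m • x).1 = eval₁C p (RingHom.id (C p)) (mulSeries G m) x.1 := by
    intro m x
    induction m with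
    | zero => rw [zero_nsmul, hval_zero, eval₁C_mulSeries_zero]
    | succ m ih => rw [succ_nsmul', hval_add, ih, eval₁C_mulSeries_succ hg.intG x.2.1]
  have hval_sum : ∀ (r : ℕ) (x : Fin r → Tors G),
      (∑ s, x s).1 = fsum p (RingHom.id (C p)) G fun s => (x s).1 := by
    intro r
    induction r with
    | zero => intro x; rw [Finset.univ_eq_empty, Finset.sum_empty]; rfl
    | succ r ih => intro x; rw [Fin.sum_univ_succ, hval_add, ih]; rfl
  -- the torsion points are the q-th roots of the zeros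
  set K := Z.image fun u => powZ p u (-(h : ℤ)) with hKdef
  have hK : ∀ x, x ∈ K ↔ 0 < ord x ∧ mulP G x = 0 := by
    intro x
    rw [hKdef, Finset.mem_image]
    constructor
    · rintro ⟨u, hu, rfl⟩
      obtain ⟨hu1, hu2⟩ := (hZ u).mp hu
      refine ⟨ord_powZ_pos hu1 _, ?_⟩
      rw [heval _ (ord_powZ_pos hu1 _), powZ_neg_pow]
      exact hu2
    · rintro ⟨hx1, hx2⟩
      refine ⟨x ^ p ^ h, (hZ _).mpr ⟨?_, ?_⟩, pow_powZ_neg x h⟩
      · rw [← powZ_natCast]
        exact ord_powZ_pos hx1 _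
      · rw [← heval x hx1]
        exact hx2
  let : Fintype (Tors G) := Fintype.subtype K hK
  have hcard : Nat.card (Tors G) = p ^ (n - h) := by
    rw [Nat.subtype_card K hK, hKdef, Finset.card_image_of_injOn, hZcard]
    intro u _ u' _ huu
    have h1 := congrArg (fun y : C p => y ^ p ^ h) huu
    simpa [powZ_neg_pow] using h1
  obtain ⟨b, hbind, hbspan⟩ := exists_span_indep (A := Tors G) (p := p)
    (fun x => Subtype.ext (by rw [hval_nsmul]; exact x.2.2)) hcard
  choose V hVpos hV using fun s => hg.iota_surj (b s).2.1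
  have := hg.honda_comm
  obtain ⟨ι, hιhom, hι⟩ := Rigid.exists_neg_isHom Γ
  set w : Fin (n - h) → C p := fun s => V s ^ p ^ n
  set v : Fin (n - h) → C p := fun s => eval₁C p HahnSeries.C ι (w s)
  have hwpos : ∀ s, 0 < ord (w s) := fun s => by
    show 0 < ord (V s ^ p ^ n)
    rw [← powZ_natCast]
    exact ord_powZ_pos (hVpos s) _
  have hvpos : ∀ s, 0 < ord (v s) := fun s =>
    ord_eval₁C_pos (intCoeff_residue _) hιhom.1 (hwpos s)
  have hneg : ∀ a, 0 < ord a → fadd p HahnSeries.C Γ a (eval₁C p HahnSeries.C ι a) = 0 := by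
    intro a ha
    have h1 := congrArg (fun f : MvPowerSeries Unit (Kb p) =>
      evalC p HahnSeries.C f fun _ => a) hι
    rw [evalC_zero, evalC_fgl_subst (intCoeff_residue _) (intCoeff_residue _) (intCoeff_residue _)
      PowerSeries.constantCoeff_X hιhom.1 (fun _ : Unit => ha)] at h1
    rw [show evalC p HahnSeries.C ((PowerSeries.X : PowerSeries (Kb p)) : MvPowerSeries Unit (Kb p))
      (fun _ => a) = a from eval₁C_X] at h1
    exact h1
  have hvw : ∀ s, fadd p HahnSeries.C Γ (v s) (w s) = 0 := fun s => by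
    rw [fadd_comm (intCoeff_residue _) (hvpos s) (hwpos s)]
    exact hneg _ (hwpos s)
  have hw0 : ∀ s, IsIota p n G (w s) 0 := fun s => by
    have h1 := hg.iota_pow (hVpos s) (hV s)
    rwa [(b s).2.2] at h1
  refine ⟨v, w, fun s => (b s).1, hvpos, hwpos, fun s => (b s).2.1, fun s => ?_, hvw, ?_,
    fun s => ?_, fun s => (b s).2.2, fun D hDint hDdvd hDadd hDz => ?_⟩
  · obtain ⟨y, hypos, hy, -⟩ := hg.exists_iota (hvpos s)
    have h1 := hg.iota_add (hvpos s) (hwpos s) hy (hw0 s)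
    rw [hvw s, fadd_zero hg.intG hypos] at h1
    rwa [isIota_unique h1 hg.iota_zero] at hy
  · -- independence
    refine hg.indep_of_bound hVpos hvpos hwpos (fun s => (b s).2.1) hV (fun s => rfl) hvw
      (M := ∑ x : Tors G, |x.1.order|) fun c hcs => ?_
    set e : Tors G := ∑ s, c s • b s with he
    have heq : e.1 = fsum p (RingHom.id (C p)) G
        fun s => eval₁C p (RingHom.id (C p)) (mulSeries G (c s)) (b s).1 := by
      rw [he, hval_sum]
      simp only [hval_nsmul]
    have hene : e.1 ≠ 0 := fun h0 => hbind c hcs (Subtype.ext h0)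
    rw [← heq, ord, ← HahnSeries.order_eq_orderTop_of_ne_zero hene]
    exact WithTop.coe_le_coe.mpr ((le_abs_self _).trans
      (Finset.single_le_sum (f := fun x : Tors G => |x.1.order|) (fun x _ => abs_nonneg _)
        (Finset.mem_univ e)))
  · show IsIota p n G (powZ p (V s ^ p ^ n) (-(n : ℤ))) (b s).1
    rw [pow_powZ_neg]
    exact hV s
  · -- the test for series
    let φ : Tors G →+ C p :=
      AddMonoidHom.mk' (fun x => eval₁C p (RingHom.id (C p)) D x.1)
        fun x y => hDadd x.1 y.1 x.2.1 y.2.1 x.2.2 y.2.2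
    have hφ : ∀ x, φ x = 0 := by
      intro x
      obtain ⟨m, rfl⟩ := hbspan x
      rw [map_sum]
      refine Finset.sum_eq_zero fun s _ => ?_
      rw [map_nsmul]
      show _ • eval₁C p (RingHom.id (C p)) D (b s).1 = 0
      rw [hDz s, smul_zero]
    exact hg.pos_coeff_of_vanish hDint hDdvd fun x hx hx0 => hφ ⟨x, hx, hx0⟩

end Good

variable (p)

theorem torsionStatement : TorsionStatement p := fun _ _ _ _ _ hg => hg.torsion

end Vale.Agent.P217.CharP
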