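import Vale.Agent.P217.CharP.Density
import Vale.Agent.P217.CharP.Torsion
import Vale.Agent.P217.CharP.Chart
import Vale.Agent.P217.CharP.Echelon
import Vale.Agent.P217.CharP.Endgame
import Vale.Agent.P217.Classify
import Vale.Agent.P217.Fgl.Nice

/-!
P217, module M8: orbits of points of height h are dense in their stratum.
-/

open MvPowerSeries

noncomputable section

namespace Vale.Agent.P217.CharP

variable {p n : ℕ} [Fact p.Prime]

/-- A Honda law of every height exists over the algebraic closure of F_p. -/
theorem exists_hondaKb (h : ℕ) (hh : 1 ≤ h) : ∃ H : FormalGroup (Kb p), IsHondaKb p h H := by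
  obtain ⟨F, hF⟩ := fglStatement (p := p) (n := h) hh
  let e : K p h →+* Kb p :=
    (IsAlgClosed.lift (R := ZMod p) (S := K p h) (M := Kb p)).toRingHom
  obtain ⟨hp, L, hL, f, hf, hlog⟩ := hF.honda
  refine ⟨(F.map (res p h)).map e, ?_, L, ?_, f, hf, hlog⟩
  · rw [← map_mulSeries, hp]
    simp
  · rw [← hL, Setup.map_map_law, ← RingHom.comp_assoc,
      Subsingleton.elim (e.comp (algebraMap (ZMod p) (K p h))) (algebraMap (ZMod p) (Kb p))]

namespace Setup

variable (S : Setup p n)

/-- The constants of the residue field in the valuation ring. -/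
def lamO : K p n →+* OC p :=
  ((HahnSeries.C : Kb p →+* C p).comp S.l).codRestrict (OC p) fun _ => ord_C_nonneg _

/-- The projection to the free coordinates, over the valuation ring. -/
def proj : E p n →+* MvPowerSeries (Fin (n - 1)) (OC p) :=
  (MvPowerSeries.map S.lamO).comp (restrictHom p n S.i)

theorem proj_C (w : W p n) : S.proj (MvPowerSeries.C w) = MvPowerSeries.C (S.κ w) := by
  classical
  ext1 d
  simp only [proj, RingHom.comp_apply, MvPowerSeries.coeff_map, coeff_restrictHom,
    MvPowerSeries.coeff_C]
  have hk : S.lamO (WittVector.constantCoeff w) = S.κ w :=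
    Subtype.ext (S.κ_eq w).symm
  by_cases hd : d = 0
  · subst hd
    rw [if_pos (show P217.Free n (S.i : ℕ) 0 from fun i _ => rfl), if_pos rfl, if_pos rfl, hk]
  · rw [if_neg hd, if_neg hd]
    split_ifs <;> simp

theorem proj_u (j : Fin (n - 1)) :
    S.proj (u p n j) = if (S.i : ℕ) ≤ j then MvPowerSeries.X j else 0 := by
  classical
  ext1 d
  simp only [proj, RingHom.comp_apply, MvPowerSeries.coeff_map, coeff_restrictHom, u,
    MvPowerSeries.coeff_X]
  by_cases hd : d = Finsupp.single j 1
  · subst hd
    by_cases hj : (S.i : ℕ) ≤ j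
    · rw [if_pos hj, MvPowerSeries.coeff_X, if_pos rfl,
        if_pos (fun i hi => Finsupp.single_eq_of_ne (fun h => by subst h; omega))]
      simp
    · rw [if_neg hj, if_neg (fun h => by simpa using h j (by omega))]
      simp
  · by_cases hj : (S.i : ℕ) ≤ j
    · rw [if_pos hj, if_neg hd, MvPowerSeries.coeff_X, if_neg hd]
      split_ifs <;> simp
    · rw [if_neg hj, if_neg hd]
      split_ifs <;> simp

/-- The Taylor homomorphism detects the height ideal. -/
theorem mem_heightIdeal_of_tay {f : E p n} (hf : S.tay f = 0) :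
    f ∈ heightIdeal p n S.h := by
  classical
  -- move the base point back to the origin
  let back : S.Free → MvPowerSeries S.Free (OC p) := fun t =>
    MvPowerSeries.C (-S.a t.1) + MvPowerSeries.X t
  have hback : ∀ t, 0 < ordO (constantCoeff (back t)) := fun t => by
    simpa [back, ordO, ord_neg, a] using S.pos t.1
  let G : MvPowerSeries S.Free (OC p) →+* MvPowerSeries S.Free (OC p) :=
    (evA back hback).comp (MvPowerSeries.map MvPowerSeries.C)
  let R : MvPowerSeries S.Free (OC p) →+* MvPowerSeries (Fin (n - 1)) (OC p) :=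
    (MvPowerSeries.rename (Function.Embedding.subtype fun j : Fin (n - 1) => (S.i : ℕ) ≤ j) :
      MvPowerSeries S.Free (OC p) →ₐ[OC p] MvPowerSeries (Fin (n - 1)) (OC p)).toRingHom
  have hRC : ∀ b : OC p, R (MvPowerSeries.C b) = MvPowerSeries.C b := fun b => by
    simp [R]
  have hRX : ∀ t : S.Free, R (MvPowerSeries.X t) = MvPowerSeries.X t.1 := fun t => by
    simp [R]
  have hGu : ∀ j, R (G (S.tay (u p n j))) =
      if (S.i : ℕ) ≤ j then MvPowerSeries.X j else 0 := fun j => by
    rw [tay_u, coord]
    split_ifs with hj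
    · simp [G, back, hRC, hRX]
    · simp
  have h : (R.comp G).comp S.tay = S.proj := by
    refine hom_ext (ε := 1) one_ne_zero (fun j => ?_) (fun w => ?_) fun j => ?_
    · show R (G (S.tay (u p n j))) ∈ _
      rw [hGu]
      split_ifs
      · refine mem_Fil_one ?_
        rw [MvPowerSeries.constantCoeff_X, ordO, ZeroMemClass.coe_zero, ord_zero]
        exact le_top
      · exact zero_mem _
    · rw [S.proj_C]
      simp [G, hRC, tay_C]
    · show R (G (S.tay (u p n j))) = S.proj (u p n j)
      rw [hGu, S.proj_u]
  have h0 := DFunLike.congr_fun h f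
  simp only [RingHom.comp_apply, hf, map_zero, proj] at h0
  have hinj : Function.Injective S.lamO := S.lamO.injective
  have h1 : restrictHom p n S.i f = 0 := by
    ext1 d
    refine hinj ?_
    have h2 := congrArg (MvPowerSeries.coeff d) h0.symm
    rw [MvPowerSeries.coeff_map] at h2
    rw [h2]
    simp
  rw [Setup.h, ← ker_restrictHom]
  exact h1

/-- Vanishing on the orbit of the point puts a series in the height ideal. -/
theorem mem_heightIdeal_of_orbit (hU : IsUniversal p n S.F) (hA : ActionStatement p n)
    (hEnd : EndgameStatement p n) {f : E p n}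
    (hf : ∀ g φ, ActsBy p n S.F g φ → S.x (φ f) = 0) : f ∈ heightIdeal p n S.h := by
  classical
  by_contra hfn
  have hgood := S.near_good S.eps_pos (base_small S).hom_u S.base_ne
  obtain ⟨H, hH⟩ := exists_hondaKb (p := p) S.h S.one_le_h
  obtain ⟨θ, hθ, hθint⟩ := classifyStatement (p := p) S.h S.one_le_h H hH S.base.law hgood.comm
    hgood.int hgood.low hgood.lead
  have hθ0 : PowerSeries.constantCoeff θ = 0 := hθ.1.1
  have hrec := S.theta_rec hH hθ.1
  obtain ⟨v, w, z, hv, hw, hz, hv0, hvw, hind, hzI, -, htest⟩ :=
    torsionStatement (p := p) n S.h S.eps S.Gam S.base.law hgood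
  have hJ := S.chart_bijective hw hzI htest hz
  have hchi0 := S.constantCoeff_chi_eq_zero hv hw hv0 hvw
  have hlin : ∀ (s : Fin (n - S.h)) (t : S.Free),
      MvPowerSeries.coeff (Finsupp.single t 1) (S.chart θ w hw s) =
        PowerSeries.coeff 1 θ *
          MvPowerSeries.coeff (Finsupp.single t 1) (toK (S.chi (w s) (hw s))) := by
    intro s t
    rw [coeff_chart (B := 2) (hchi0 s) (by simp)]
    have h1 : constantCoeff (toK (S.chi (w s) (hw s))) = 0 := by
      rw [MvPowerSeries.constantCoeff_map, hchi0 s, map_zero]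
    have h2 : (∑ i ∈ Finset.range 2, S.theta θ i * toK (S.chi (w s) (hw s)) ^ i) =
        S.theta θ 1 * toK (S.chi (w s) (hw s)) := by
      rw [Finset.sum_range_succ, Finset.sum_range_one]
      simp [theta]
    rw [h2, coeff_single_mul, h1, mul_zero, add_zero,
      (S.theta_spec hθint hθ0 hrec 1).1]
  have hθ1 : PowerSeries.coeff 1 θ ≠ 0 := hθ.2.ne_zero
  have hJ' : Function.Bijective (fun c : S.Free → C p => fun s =>
      ∑ t, c t * MvPowerSeries.coeff (Finsupp.single t 1) (S.chart θ w hw s)) := by
    have e : (fun c : S.Free → C p => fun s =>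
        ∑ t, c t * MvPowerSeries.coeff (Finsupp.single t 1) (S.chart θ w hw s)) =
        (Equiv.piCongrRight fun _ : Fin (n - S.h) =>
            Equiv.mulLeft₀ (PowerSeries.coeff 1 θ) hθ1) ∘
          (fun c : S.Free → C p => fun s =>
            ∑ t, c t * MvPowerSeries.coeff (Finsupp.single t 1)
              (toK (S.chi (w s) (hw s)))) := by
      funext c s
      show _ = PowerSeries.coeff 1 θ * ∑ t, c t * MvPowerSeries.coeff (Finsupp.single t 1)
        (toK (S.chi (w s) (hw s)))
      rw [Finset.mul_sum]
      exact Finset.sum_congr rfl fun t _ => by rw [hlin]; ring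
    rw [e]
    exact (Equiv.bijective _).comp hJ
  obtain ⟨a, ha⟩ := chartStatement p (n - S.h) S.Free (fun s => S.chart θ w hw s)
    (fun s => constantCoeff_chart s) hJ' (toK (S.tay f))
  have ha0 : a ≠ 0 := by
    intro h0
    apply hfn
    refine S.mem_heightIdeal_of_tay (toK_injective ?_)
    rw [map_zero]
    ext1 d
    have hfin : {m : Fin (n - S.h) →₀ ℕ | m.degree < d.degree + 1}.Finite := by
      refine (finite_exponents (d.degree + 1)).subset fun m hm i => ?_
      exact lt_of_le_of_lt (Finsupp.le_degree i m) hm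
    have h1 := ha (d.degree + 1) hfin.toFinset (fun m => by simp) d (by omega)
    rw [h0] at h1
    simpa using h1
  obtain ⟨P, hP, hPvan⟩ := echelonStatement p S.h (n - S.h) S.one_le_h a ha0
  have := S.nice.comm
  obtain ⟨η, wη, hη, hwη, hne⟩ := hEnd S.h S.eps (S.F.map (res p n)) S.l H S.base.law θ
    S.nice.honda (Rigid.isComm_map S.F (res p n)) hH hgood hθ hθint v hv hind P hP
  apply hne
  have e : ∀ s, wη s =
      ((constantCoeff (S.chi (S.resEval η (v s)) (S.resEval_pos hη.1 (hv s))) : OC p) : C p) := by
    intro s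
    refine isIota_unique (hwη s) ?_
    have h := S.isIota_chi (base_small S) (S.resEval_pos hη.1 (hv s))
    rw [S.coe_evO_base] at h
    exact h
  simp only [e]
  exact hPvan _ (S.asympZero hU hA hθint hθ0 hrec hv hw hv0 hvw hJ hf ha hη)

end Setup

/-- Orbits of points of height h are dense in their stratum. -/
theorem charPCore (hA : ActionStatement p n) (hEnd : EndgameStatement p n) : CharPCore p n := by
  intro hn F hF hU i x hx0 hpos hlow hne f hf
  let S : Setup p n :=
    { F := F
      nice := hF
      i := i
      x := x.codRestrict (OC p) hx0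
      pos := hpos
      low := fun j hj => by
        refine Subtype.ext (hlow _ ?_)
        rw [heightIdeal]
        exact Ideal.subset_span (Set.mem_insert_of_mem _ ⟨j, hj, rfl⟩)
      ne := fun h => hne (congrArg Subtype.val h) }
  exact S.mem_heightIdeal_of_orbit hU hA hEnd fun g φ h => Subtype.ext (hf g φ h)

end Vale.Agent.P217.CharP
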