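import Vale.Agent.P217.CharP.Jacobian
import Vale.Agent.P217.CharP.Congr
import Vale.Agent.P217.Converse

/-!
P217, module M8: points of the orbit near the base point, and their coordinates in the chart.
-/

open MvPowerSeries

noncomputable section

namespace Vale.Agent.P217.CharP

variable {p n : ℕ} [Fact p.Prime]

namespace Setup

variable (S : Setup p n)

/-- A series over the residue field `K p n` at a point. -/
def resEval (η : PowerSeries (K p n)) (V : C p) : C p :=
  eval₁C p HahnSeries.C (PowerSeries.map S.l η) V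

theorem resEval_pos {η : PowerSeries (K p n)} (hη : PowerSeries.constantCoeff η = 0) {V : C p}
    (hV : 0 < ord V) : 0 < ord (S.resEval η V) :=
  ord_eval₁C_pos (intCoeff_residue _)
    (by rw [← PowerSeries.coeff_zero_eq_constantCoeff_apply, PowerSeries.coeff_map,
      PowerSeries.coeff_zero_eq_constantCoeff_apply, hη, map_zero]) hV

theorem coe_base_hom (e : E p n) : S.base.hom e = S.x e := by rw [S.base_hom]

theorem coe_evO_base (a : MvPowerSeries S.Free (OC p)) :
    evO S.base.d S.base.pos a = constantCoeff a := evO_zero a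

theorem x_heightIdeal {e : E p n} (he : e ∈ heightIdeal p n S.h) : S.x e = 0 := by
  rw [← coe_base_hom, Near.hom, RingHom.comp_apply, S.tay_heightIdeal he, map_zero]

theorem ord_x_ker_res {e : E p n} (he : res p n e = 0) : (S.eps : WithTop ℚ) ≤ ordO (S.x e) := by
  have h := S.hom_congr_res S.eps_pos.le (base_small S).hom_u e
  rw [he, map_zero, map_zero, sub_zero] at h
  rwa [coe_base_hom] at h

/-- Points of the orbit near the base point. -/
theorem exists_near (hU : IsUniversal p n S.F) (hA : ActionStatement p n)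
    {η : PowerSeries (K p n)} (hη : IsHom (S.F.map (res p n)) (S.F.map (res p n)) η)
    {k : ℕ} (hk : 1 ≤ k)
    (hbig : ordO (S.a S.i) < ((((k + 1) • S.eps) : ℚ) : WithTop ℚ)) {r : ℕ} {v w : Fin r → C p} (hv : ∀ s, 0 < ord (v s))
    (hw : ∀ s, 0 < ord (w s)) (hv0 : ∀ s, IsIota p n S.base.law (v s) 0)
    (hvw : ∀ s, fadd p HahnSeries.C S.Gam (v s) (w s) = 0) :
    ∃ (g : PowerSeries (K p n)) (φ : E p n →ₐ[W p n] E p n) (δ : S.Near),
      ActsBy p n S.F g φ ∧ δ.Small ∧
      (∀ t, ((((k + 1) • S.eps) : ℚ) : WithTop ℚ) ≤ ordO (δ.d t)) ∧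
      (∀ e, δ.hom e = S.x (φ e)) ∧
      ∀ s, ((evO δ.d δ.pos (S.chi (w s) (hw s)) : OC p) : C p) =
        (eval₁C p (RingHom.id (C p)) (mulSeries δ.law p))^[k]
          ((evO δ.d δ.pos (S.chi (S.resEval η (v s)) (S.resEval_pos hη.1 (hv s))) : OC p) :
            C p) := by
  classical
  obtain ⟨φ, hact, hcongr⟩ := congrStatement n S.one_le_n S.F S.nice hU hA η hη k hk
  set g := (S.F.map (res p n)).toPowerSeries.subst ![PowerSeries.X, η ^ p ^ (n * k)] with hg
  obtain ⟨-, hres, ψ, hψ, hψg⟩ := id hact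
  have hε := S.eps_pos
  -- powers of the maximal ideal
  have hpow : ∀ m : ℕ, ∀ e ∈ heightIdeal p n n ^ m,
      ((m • S.eps : ℚ) : WithTop ℚ) ≤ ordO (S.x e) := by
    intro m e he
    have hle : Ideal.map S.x (heightIdeal p n n) ≤ tIdeal p S.eps hε.le := by
      refine Ideal.map_le_iff_le_comap.2 fun y hy => ?_
      exact (mem_tIdeal hε.le).2
        (S.ord_x_ker_res (RingHom.mem_ker.1 (heightIdeal_le_ker_res p n n hy)))
    have h := Ideal.pow_right_mono hle m (by
      rw [← Ideal.map_pow]; exact Ideal.mem_map_of_mem _ he)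
    exact (mem_tIdeal_pow hε.le m).1 h
  have hk1 : S.eps ≤ (k + 1) • S.eps := by
    calc S.eps = 1 • S.eps := (one_nsmul _).symm
      _ ≤ _ := nsmul_le_nsmul_left hε.le (by omega)
  let dd : S.Free → OC p := fun t => S.x (φ (u p n t.1)) - S.a t.1
  have hd : ∀ t, ((((k + 1) • S.eps) : ℚ) : WithTop ℚ) ≤ ordO (dd t) := by
    intro t
    have h := hpow (k + 1) _ (hcongr t.1)
    rw [map_sub] at h
    exact h
  have hdpos : ∀ t, 0 < ordO (dd t) := fun t =>
    lt_of_lt_of_le (WithTop.coe_pos.2 (nsmul_pos hε (by omega))) (hd t)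
  let δ : S.Near := ⟨dd, hdpos⟩
  have hsmall : δ.Small := fun t => (WithTop.coe_le_coe.2 hk1).trans (hd t)
  have hhom : S.x.comp (φ : E p n →+* E p n) = δ.hom := by
    refine S.eq_hom_of (fun w => ?_) fun j => ?_
    · show S.x (φ (MvPowerSeries.C w)) = _
      rw [show φ (MvPowerSeries.C w) = MvPowerSeries.C w from φ.commutes w]
      rfl
    · rw [Near.hom_u]
      show S.x (φ (u p n j)) = _
      split_ifs with hj
      · simp [δ, dd]
      · apply S.x_heightIdeal
        refine ((converseStatement p n S.one_le_n S.F S.nice S.h S.h_lt.le).2.1 g φ hact _ ?_)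
        rw [h, heightIdeal]
        exact Ideal.subset_span (Set.mem_insert_of_mem _ ⟨j, by omega, rfl⟩)
  refine ⟨g, φ, δ, hact, hsmall, hd, fun e => (RingHom.congr_fun hhom e).symm, fun s => ?_⟩
  -- the isomorphism between the laws
  set c₀ : E p n →+* C p := (OC p).subtype.comp S.base.hom with hc₀
  have hgood₀ := S.near_good hε (base_small S).hom_u S.base_ne
  have hne : δ.hom (u p n S.i) ≠ 0 := by
    intro h0
    rw [Near.hom_u, dif_pos le_rfl, add_eq_zero_iff_eq_neg] at h0
    have h1 := hbig.trans_le (hd ⟨S.i, le_rfl⟩)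
    rw [ordO, h0, NegMemClass.coe_neg, ord_neg] at h1
    exact lt_irrefl _ h1
  have hgood := S.near_good hε hsmall.hom_u hne
  have hΨ : IsHom S.base.law δ.law (PowerSeries.map c₀ ψ) := by
    have h := hψ.1.map c₀
    have hmap : (S.F.map (φ : E p n →+* E p n)).map c₀ = δ.law := by
      rw [map_map_law, Near.law, hc₀, RingHom.comp_assoc]
      congr 2
      exact RingHom.ext fun e => (coe_base_hom S _).trans (RingHom.congr_fun hhom e)
    rwa [hmap] at h
  have hΨint : ∀ i, 0 ≤ ord (PowerSeries.coeff i (PowerSeries.map c₀ ψ)) := fun i => by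
    rw [PowerSeries.coeff_map]
    exact ordO_nonneg _
  set gK : PowerSeries (Kb p) := PowerSeries.map S.l g with hgK
  have hη0 : PowerSeries.constantCoeff η = 0 := hη.1
  have hq0 : p ^ (n * k) ≠ 0 := pow_ne_zero _ (Fact.out : p.Prime).ne_zero
  have hηq : PowerSeries.constantCoeff (η ^ p ^ (n * k)) = 0 := by
    rw [map_pow, hη0, zero_pow hq0]
  have hg0 : PowerSeries.constantCoeff g = 0 :=
    constantCoeff_subst_pair (S.F.map (res p n)) (f := (PowerSeries.X : PowerSeries (K p n)))
      (g := η ^ p ^ (n * k)) PowerSeries.constantCoeff_X hηq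
  have hfix : ∀ i, PowerSeries.coeff i gK ^ p ^ n = PowerSeries.coeff i gK := by
    intro i
    rw [hgK, PowerSeries.coeff_map, ← map_pow]
    congr 1
    have := Fintype.ofFinite (K p n)
    have h := FiniteField.pow_card (PowerSeries.coeff i g)
    rwa [← Nat.card_eq_fintype_card, GaloisField.card p n S.n_ne] at h
  have hclose : ∀ i, (S.eps : WithTop ℚ) ≤ ord (PowerSeries.coeff i (PowerSeries.map c₀ ψ) -
      HahnSeries.C (PowerSeries.coeff i gK)) := by
    intro i
    rw [PowerSeries.coeff_map, hgK, PowerSeries.coeff_map, ← hψg, PowerSeries.coeff_map]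
    exact S.hom_congr_res hε.le (base_small S).hom_u _
  have hgK0 : PowerSeries.constantCoeff gK = 0 := by
    rw [hgK, ← PowerSeries.coeff_zero_eq_constantCoeff_apply, PowerSeries.coeff_map,
      PowerSeries.coeff_zero_eq_constantCoeff_apply, hg0, map_zero]
  have hint0 : IntCoeff (RingHom.id (C p)) δ.law.toPowerSeries := hgood.int
  have hk0 := iotaHom p n S.h S.eps S.Gam S.base.law δ.law hgood₀ hgood _ gK hΨ hΨint hgK0
    hfix hclose (v s) 0 (hv s) (hv0 s)
  rw [eval₁C_zero_point (intCoeff_iff₁.2 hΨint) hΨ.1] at hk0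
  -- the value of g at v
  set V := S.resEval η (v s) with hV
  have hVpos : 0 < ord V := S.resEval_pos hη0 (hv s)
  have hVk : 0 < ord (V ^ p ^ (n * k)) := ord_powZ_pos hVpos ((n * k : ℕ) : ℤ)
  have hgv : eval₁C p HahnSeries.C gK (v s) =
      fadd p HahnSeries.C S.Gam (v s) (V ^ p ^ (n * k)) := by
    rw [hgK, hg, eval₁C]
    show evalC p HahnSeries.C (MvPowerSeries.map S.l
      ((S.F.map (res p n)).toPowerSeries.subst ![PowerSeries.X, η ^ p ^ (n * k)])) _ = _
    rw [map_subst_pair S.l (S.F.map (res p n)) (f := (PowerSeries.X : PowerSeries (K p n)))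
      (g := η ^ p ^ (n * k)) PowerSeries.constantCoeff_X hηq]
    rw [evalC_fgl_subst (intCoeff_residue _) (intCoeff_residue _) (intCoeff_residue _)
      (by simp [PowerSeries.X]) (by
        rw [MvPowerSeries.constantCoeff_map, show MvPowerSeries.constantCoeff
          (η ^ p ^ (n * k) : MvPowerSeries Unit (K p n)) = 0 from hηq, map_zero])
      (fun _ => hv s)]
    rw [Gam]
    congr 1
    · simp [PowerSeries.X, evalC_X]
    · rw [map_pow, evalC_pow (intCoeff_residue _) fun _ => hv s]
      rfl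
  set a' := ((evO δ.d δ.pos (S.chi (v s) (hv s)) : OC p) : C p)
  set b' := ((evO δ.d δ.pos (S.chi (w s) (hw s)) : OC p) : C p)
  set Z := ((evO δ.d δ.pos (S.chi V hVpos) : OC p) : C p)
  set f := eval₁C p (RingHom.id (C p)) (mulSeries δ.law p) with hf
  have hiter : ∀ j : ℕ, IsIota p n δ.law (V ^ p ^ (n * j)) (f^[j] Z) := by
    intro j
    induction j with
    | zero => simpa using S.isIota_chi hsmall hVpos
    | succ j ih =>
      have h := iotaPow p n S.h S.eps S.Gam δ.law hgood _ _
        (ord_powZ_pos hVpos ((n * j : ℕ) : ℤ)) ih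
      rw [Function.iterate_succ_apply']
      rwa [powZ_natCast, ← pow_mul, ← pow_add, ← Nat.mul_succ] at h
  have hP := hiter k
  have hPpos : 0 < ord (f^[k] Z) := (iotaExists p n S.h S.eps S.Gam δ.law hgood).2 _ _ hVk hP
  have ha' := S.isIota_chi hsmall (hv s)
  have hb' := S.isIota_chi hsmall (hw s)
  have ha'pos : 0 < ord a' := (iotaExists p n S.h S.eps S.Gam δ.law hgood).2 _ _ (hv s) ha'
  have hb'pos : 0 < ord b' := (iotaExists p n S.h S.eps S.Gam δ.law hgood).2 _ _ (hw s) hb'
  have h1 : fadd p (RingHom.id (C p)) δ.law a' (f^[k] Z) = 0 := by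
    refine isIota_unique (iotaAdd p n S.h S.eps S.Gam δ.law hgood _ _ _ _ (hv s) hVk ha' hP) ?_
    rw [← hgv]
    exact hk0
  have := S.gam_comm
  have := hgood.comm
  have h2 : fadd p (RingHom.id (C p)) δ.law b' a' = 0 := by
    refine isIota_unique (iotaAdd p n S.h S.eps S.Gam δ.law hgood _ _ _ _ (hw s) (hv s)
      hb' ha') ?_
    rw [fadd_comm (intCoeff_residue _) (hw s) (hv s), hvw s]
    exact hgood.iota_zero
  have h3 := fadd_assoc hint0 hb'pos ha'pos hPpos
  rw [h1, h2, zero_fadd hint0 hPpos, fadd_zero hint0 hb'pos] at h3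
  exact h3.symm

end Setup

end Vale.Agent.P217.CharP
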