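import Vale.Agent.P217.CharP.Approx
import Vale.Agent.P217.CharP.Orbit

/-!
P217, module M8: a series vanishing on the orbit of the point vanishes asymptotically at the
coordinates of every endomorphism.
-/

open MvPowerSeries

noncomputable section

namespace Vale.Agent.P217.CharP

variable {p n : ℕ} [Fact p.Prime]

/-- Series over `C p` without coefficients in degree below `B`. -/
def lowK {T : Type*} (B : ℕ) : Ideal (MvPowerSeries T (C p)) where
  carrier := {a | ∀ d : T →₀ ℕ, d.degree < B → MvPowerSeries.coeff d a = 0}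
  add_mem' {a b} ha hb d hd := by simp [ha d hd, hb d hd]
  zero_mem' d _ := by simp
  smul_mem' r {a} ha d hd := by
    classical
    rw [smul_eq_mul, MvPowerSeries.coeff_mul]
    refine Finset.sum_eq_zero fun x hx => ?_
    rw [ha x.2 ?_, mul_zero]
    have := congrArg Finsupp.degree (Finset.HasAntidiagonal.mem_antidiagonal.1 hx)
    rw [map_add] at this
    omega

theorem scale_mem_lowK {T : Type*} {B : ℕ} {a : MvPowerSeries T (C p)} (π : C p)
    (ha : a ∈ lowK B) : scale π a ∈ lowK B := fun d hd => by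
  rw [coeff_scale, ha d hd, mul_zero]

theorem le_ord_evO_of_degIdeal {T : Type*} [Fintype T] {B : ℕ} {a : MvPowerSeries T (OC p)}
    (ha : a ∈ degIdeal B) {ρ : ℚ} (hρ : 0 < ρ) {z : T → OC p} {hz : ∀ t, 0 < ordO (z t)}
    (hzρ : ∀ t, (ρ : WithTop ℚ) ≤ ordO (z t)) :
    ((B • ρ : ℚ) : WithTop ℚ) ≤ ord ((evO z hz a : OC p) : C p) :=
  le_ord_evO_of_mem_Fil hρ (degIdeal_le_Fil B ha) hzρ

theorem le_ord_evO_sub_const {T : Type*} [Fintype T] (a : MvPowerSeries T (OC p)) {ρ : ℚ}
    (hρ : 0 < ρ) {z : T → OC p} {hz : ∀ t, 0 < ordO (z t)}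
    (hzρ : ∀ t, (ρ : WithTop ℚ) ≤ ordO (z t)) :
    (ρ : WithTop ℚ) ≤ ord (((evO z hz a : OC p) : C p) - ((constantCoeff a : OC p) : C p)) := by
  have h := le_ord_evO_of_degIdeal (mem_degIdeal_one
    (a := a - MvPowerSeries.C (constantCoeff a)) (by simp)) hρ (hz := hz) hzρ
  rw [map_sub, evO_C, AddSubgroupClass.coe_sub, one_nsmul] at h
  exact h

theorem exists_denominator {ι : Type*} (s : Finset ι) (a : ι → C p) :
    ∃ q : ℚ, 0 ≤ q ∧ ∀ i ∈ s, 0 ≤ ord (tpow p q * a i) := by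
  classical
  induction s using Finset.induction_on with
  | empty => exact ⟨0, le_rfl, by simp⟩
  | @insert i s hi ih =>
    obtain ⟨q, hq, hqs⟩ := ih
    cases hu : ord (a i) with
    | top =>
      refine ⟨q, hq, fun j hj => ?_⟩
      rcases Finset.mem_insert.1 hj with rfl | hj
      · rw [ord_mul, hu, WithTop.add_top]; exact le_top
      · exact hqs j hj
    | coe u =>
      refine ⟨max q (-u), hq.trans (le_max_left _ _), fun j hj => ?_⟩
      rcases Finset.mem_insert.1 hj with rfl | hj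
      · rw [ord_mul, ord_tpow, hu, ← WithTop.coe_add, WithTop.coe_nonneg]
        linarith [le_max_right q (-u)]
      · refine (hqs j hj).trans ?_
        rw [ord_mul, ord_mul, ord_tpow, ord_tpow]
        exact add_le_add (WithTop.coe_le_coe.2 (le_max_left _ _)) le_rfl

theorem exists_inverse_bound {T : Type*} [Fintype T] {r : ℕ} {J : Fin r → T → C p}
    (hJ : Function.Bijective (fun c : T → C p => fun s => ∑ t, c t * J s t)) :
    ∃ D : ℚ, 0 ≤ D ∧ ∀ (u : T → C p) (m : ℚ),
      (∀ s, (m : WithTop ℚ) ≤ ord (∑ t, u t * J s t)) →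
        ∀ t, ((m - D : ℚ) : WithTop ℚ) ≤ ord (u t) := by
  classical
  have hb : ∀ s, ∃ b : T → C p, ∀ s', ∑ t, b t * J s' t = if s = s' then 1 else 0 :=
    fun s => (hJ.2 fun s' => if s = s' then 1 else 0).imp fun b h s' => congrFun h s'
  choose b hb using hb
  obtain ⟨D, hD, hDb⟩ := exists_denominator (Finset.univ : Finset (Fin r × T))
    (fun x => b x.1 x.2)
  refine ⟨D, hD, fun u m hm t => ?_⟩
  have hu : u = fun t => ∑ s, (∑ t', u t' * J s t') * b s t := by
    refine hJ.1 (funext fun s' => ?_)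
    set V : Fin r → C p := fun s => ∑ t', u t' * J s t' with hV
    show V s' = ∑ t, (∑ s, V s * b s t) * J s' t
    have e : ∀ t, (∑ s, V s * b s t) * J s' t = ∑ s, V s * (b s t * J s' t) := fun t => by
      rw [Finset.sum_mul]
      simp only [mul_assoc]
    rw [Finset.sum_congr rfl fun t _ => e t, Finset.sum_comm]
    simp only [← Finset.mul_sum, hb]
    simp
  rw [hu]
  refine le_ord_sum _ fun s _ => ?_
  have h := hDb (s, t) (Finset.mem_univ _)
  rw [ord_mul, ord_tpow] at h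
  rw [ord_mul]
  refine le_trans ?_ (add_le_add (hm s) le_rfl)
  cases hv : ord (b s t) with
  | top => simp
  | coe v =>
    rw [hv, ← WithTop.coe_add, WithTop.coe_nonneg] at h
    rw [← WithTop.coe_add, WithTop.coe_le_coe]
    linarith

theorem toK_combination {T' : Type*} {r : ℕ} (π : C p) {X : Fin r → MvPowerSeries T' (OC p)}
    {XK : Fin r → MvPowerSeries T' (C p)} (hX : ∀ s, toK (X s) = scale π (XK s))
    {P : MvPowerSeries T' (OC p)} {PK : MvPowerSeries T' (C p)} (hP : toK P = scale π PK)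
    {T : Finset (Fin r →₀ ℕ)} {am : (Fin r →₀ ℕ) → OC p} {a : (Fin r →₀ ℕ) → C p} {c : C p}
    (tq : OC p) (htq : (tq : C p) = c) (ham : ∀ m ∈ T, (am m : C p) = c * a m) :
    toK (MvPowerSeries.C tq * P - ∑ m ∈ T, MvPowerSeries.C (am m) * ∏ s, X s ^ m s) =
      MvPowerSeries.C c * scale π (PK - ∑ m ∈ T, MvPowerSeries.C (a m) * ∏ s, XK s ^ m s) := by
  have hprod : ∀ m : Fin r →₀ ℕ,
      toK (∏ s, X s ^ m s) = scale π (∏ s, XK s ^ m s) := fun m => by
    rw [map_prod, map_prod]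
    exact Finset.prod_congr rfl fun s _ => by rw [map_pow, map_pow, hX s]
  rw [map_sub, map_mul, MvPowerSeries.map_C, hP, map_sub, mul_sub, map_sum, map_sum,
    Finset.mul_sum]
  congr 1
  · rw [Subring.subtype_apply, htq]
  · refine Finset.sum_congr rfl fun m hm => ?_
    rw [map_mul, map_mul, MvPowerSeries.map_C, hprod m, scale_C, Subring.subtype_apply, ham m hm,
      map_mul, mul_assoc]

namespace Setup

variable (S : Setup p n)

/-- The formal chart attached to theta and a tuple. -/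
def chart {r : ℕ} (θ : PowerSeries (C p)) (w : Fin r → C p) (hw : ∀ s, 0 < ord (w s)) (s : Fin r) :
    MvPowerSeries S.Free (C p) := fun d =>
  MvPowerSeries.coeff d
    (∑ i ∈ Finset.range (d.degree + 1), S.theta θ i * toK (S.chi (w s) (hw s)) ^ i)

variable {S}

theorem coeff_chart {r : ℕ} {θ : PowerSeries (C p)} {w : Fin r → C p} {hw : ∀ s, 0 < ord (w s)}
    {s : Fin r} (h0 : constantCoeff (S.chi (w s) (hw s)) = 0) {B : ℕ} {d : S.Free →₀ ℕ}
    (hd : d.degree < B) :
    MvPowerSeries.coeff d (S.chart θ w hw s) = MvPowerSeries.coeff d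
      (∑ i ∈ Finset.range B, S.theta θ i * toK (S.chi (w s) (hw s)) ^ i) := by
  classical
  show MvPowerSeries.coeff d
    (∑ i ∈ Finset.range (d.degree + 1), S.theta θ i * toK (S.chi (w s) (hw s)) ^ i) = _
  rw [map_sum, map_sum]
  refine Finset.sum_subset (Finset.range_mono hd) fun i _ hi => ?_
  rw [Finset.mem_range] at hi
  rw [MvPowerSeries.coeff_mul]
  refine Finset.sum_eq_zero fun x hx => ?_
  have hsum := congrArg Finsupp.degree (Finset.HasAntidiagonal.mem_antidiagonal.1 hx)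
  rw [map_add] at hsum
  rw [← map_pow, MvPowerSeries.coeff_map,
    pow_mem_degIdeal (mem_degIdeal_one h0) i x.2 (by omega), map_zero, mul_zero]

theorem constantCoeff_chart {r : ℕ} {θ : PowerSeries (C p)} {w : Fin r → C p}
    {hw : ∀ s, 0 < ord (w s)} (s : Fin r) : constantCoeff (S.chart θ w hw s) = 0 := by
  rw [← MvPowerSeries.coeff_zero_eq_constantCoeff_apply]
  show MvPowerSeries.coeff 0 (∑ i ∈ Finset.range ((0 : S.Free →₀ ℕ).degree + 1),
    S.theta θ i * toK (S.chi (w s) (hw s)) ^ i) = 0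
  simp [theta]

variable (S)

theorem constantCoeff_chi_eq_zero {r : ℕ} {v w : Fin r → C p} (hv : ∀ s, 0 < ord (v s))
    (hw : ∀ s, 0 < ord (w s)) (hv0 : ∀ s, IsIota p n S.base.law (v s) 0)
    (hvw : ∀ s, fadd p HahnSeries.C S.Gam (v s) (w s) = 0) (s : Fin r) :
    constantCoeff (S.chi (w s) (hw s)) = 0 := by
  have hg := S.near_good S.eps_pos (base_small S).hom_u S.base_ne
  have h := S.isIota_chi (base_small S) (hw s)
  rw [S.coe_evO_base] at h
  have h2 := iotaAdd p n S.h S.eps S.Gam S.base.law hg _ _ _ _ (hv s) (hw s) (hv0 s) h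
  have hi : IntCoeff (RingHom.id (C p)) S.base.law.toPowerSeries := hg.int
  rw [hvw s, zero_fadd hi
    ((iotaExists p n S.h S.eps S.Gam S.base.law hg).2 _ _ (hw s) h)] at h2
  exact Subtype.ext (isIota_unique h2 hg.iota_zero)

variable {S}

theorem Near.disp_bound {r : ℕ} {w : Fin r → C p} {hw : ∀ s, 0 < ord (w s)}
    (hchi0 : ∀ s, constantCoeff (S.chi (w s) (hw s)) = 0) {DJ : ℚ}
    (hDJ : ∀ (u : S.Free → C p) (m : ℚ), (∀ s, (m : WithTop ℚ) ≤
      ord (∑ t, u t * MvPowerSeries.coeff (Finsupp.single t 1) (toK (S.chi (w s) (hw s))))) →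
        ∀ t, ((m - DJ : ℚ) : WithTop ℚ) ≤ ord (u t))
    (δ : S.Near) {ρ₁ A : ℚ} (hρ₁pos : 0 < ρ₁) (hDJρ : DJ < ρ₁)
    (hδ : ∀ t, (ρ₁ : WithTop ℚ) ≤ ordO (δ.d t))
    (hbQ : ∀ s, (A : WithTop ℚ) ≤ ord ((evO δ.d δ.pos (S.chi (w s) (hw s)) : OC p) : C p)) :
    ∀ t, ((A - DJ : ℚ) : WithTop ℚ) ≤ ordO (δ.d t) := by
  classical
  set b : Fin r → C p := fun s => ((evO δ.d δ.pos (S.chi (w s) (hw s)) : OC p) : C p)
  by_contra hcon
  simp only [not_forall, not_le] at hcon
  obtain ⟨t₁, ht₁⟩ := hcon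
  obtain ⟨t₀, -, ht₀⟩ := Finset.exists_min_image Finset.univ (fun t => ordO (δ.d t))
    ⟨t₁, Finset.mem_univ _⟩
  have hlt := (ht₀ t₁ (Finset.mem_univ _)).trans_lt ht₁
  obtain ⟨μ, hμ⟩ := WithTop.ne_top_iff_exists.1 hlt.ne_top
  have hμlow : ρ₁ ≤ μ := WithTop.coe_le_coe.1 (hμ ▸ hδ t₀)
  have hall : ∀ t, (μ : WithTop ℚ) ≤ ordO (δ.d t) := fun t => hμ ▸ ht₀ t (Finset.mem_univ _)
  have hrest : ∀ s, ((2 • μ : ℚ) : WithTop ℚ) ≤ ord (b s -
      ∑ t, (δ.d t : C p) * MvPowerSeries.coeff (Finsupp.single t 1)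
        (toK (S.chi (w s) (hw s)))) := by
    intro s
    have hmem : S.chi (w s) (hw s) - ∑ t, MvPowerSeries.C
        (MvPowerSeries.coeff (Finsupp.single t 1) (S.chi (w s) (hw s))) *
          MvPowerSeries.X t ∈ degIdeal 2 := by
      intro d hd
      rw [map_sub, map_sum]
      simp only [MvPowerSeries.coeff_C_mul, MvPowerSeries.coeff_X, mul_ite, mul_one, mul_zero]
      rcases Nat.lt_or_ge d.degree 1 with h | h
      · obtain rfl : d = 0 := (Finsupp.degree_eq_zero_iff d).1 (by omega)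
        rw [MvPowerSeries.coeff_zero_eq_constantCoeff_apply,
          hchi0 s, Finset.sum_eq_zero, sub_zero]
        intro t _
        rw [if_neg]
        intro h
        simpa using congrArg Finsupp.degree h
      · obtain ⟨t, rfl⟩ : ∃ t, d = Finsupp.single t 1 := by
          have hdeg : d.degree = 1 := by omega
          obtain ⟨t, ht⟩ := Finsupp.support_nonempty_iff.2 (show d ≠ 0 by
            intro h; rw [h] at hdeg; simp at hdeg)
          refine ⟨t, ?_⟩
          have h1 : 1 ≤ d t := Nat.one_le_iff_ne_zero.2 (Finsupp.mem_support_iff.1 ht)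
          have h2 : Finsupp.single t 1 ≤ d := Finsupp.single_le_iff.2 h1
          have h3 := congrArg Finsupp.degree (tsub_add_cancel_of_le h2)
          rw [map_add, Finsupp.degree_single, hdeg] at h3
          have h4 : d - Finsupp.single t 1 = 0 :=
            (Finsupp.degree_eq_zero_iff _).1 (by omega)
          exact le_antisymm (tsub_eq_zero_iff_le.1 h4) h2
        rw [Finset.sum_eq_single t]
        · simp
        · intro t' _ ht'
          rw [if_neg]
          intro h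
          exact ht' ((Finsupp.single_left_inj one_ne_zero).1 h).symm
        · simp
    have h := le_ord_evO_of_degIdeal hmem (lt_of_lt_of_le hρ₁pos hμlow) (hz := δ.pos) hall
    rw [map_sub, map_sum, AddSubgroupClass.coe_sub, AddSubmonoidClass.coe_finsetSum] at h
    refine h.trans (le_of_eq ?_)
    congr 2
    refine Finset.sum_congr rfl fun t _ => ?_
    rw [map_mul, evO_C, evO_X, Subring.coe_mul, MvPowerSeries.coeff_map]
    exact mul_comm _ _
  have hsum : ∀ s, ((min (A) (2 • μ) : ℚ) : WithTop ℚ) ≤ ord (∑ t, (δ.d t : C p) *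
      MvPowerSeries.coeff (Finsupp.single t 1) (toK (S.chi (w s) (hw s)))) := fun s => by
    have h := le_ord_sub (m := ((min (A) (2 • μ) : ℚ) : WithTop ℚ))
      ((WithTop.coe_le_coe.2 (min_le_left _ _)).trans (hbQ s))
      ((WithTop.coe_le_coe.2 (min_le_right _ _)).trans (hrest s))
    simpa [b] using h
  have h1 := hDJ (fun t => (δ.d t : C p)) _ hsum t₀
  change _ ≤ ordO (δ.d t₀) at h1
  rw [← hμ, WithTop.coe_le_coe] at h1
  rw [← hμ, WithTop.coe_lt_coe] at hlt
  rcases min_cases (A) (2 • μ) with ⟨he, -⟩ | ⟨he, -⟩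
  · rw [he] at h1; linarith
  · rw [he, two_nsmul] at h1; linarith

theorem ThetaModel.close {θ : PowerSeries (C p)} {B : ℕ} (M : S.ThetaModel θ B)
    (hint : ∀ i, 0 ≤ ord (PowerSeries.coeff i θ)) (h0 : PowerSeries.constantCoeff θ = 0)
    (hrec : PowerSeries.subst (PowerSeries.map constantCoeff S.gK) θ =
      PowerSeries.map (iterateFrobenius (C p) p S.h) θ) (δ' : S.Near) {ρ c : ℚ} (hρpos : 0 < ρ)
    (hδ' : ∀ t, (ρ : WithTop ℚ) ≤ ordO (δ'.d t)) (hc : 0 < c) (hBρ : (B : ℚ) * c ≤ ρ) {z : C p}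
    (hzc : (c : WithTop ℚ) ≤ ord z) :
    (((B : ℚ) * c : ℚ) : WithTop ℚ) ≤ ord (eval₁C p (RingHom.id (C p)) (M.series δ') z -
      eval₁C p (RingHom.id (C p)) θ z) := by
  have hθi : IntCoeff (RingHom.id (C p)) (θ : MvPowerSeries Unit (C p)) :=
    intCoeff_iff₁.2 hint
  have hzpos : 0 < ord z := lt_of_lt_of_le (WithTop.coe_pos.2 hc) hzc
  rw [← eval₁C_sub (M.series_int δ') hθi hzpos, eval₁C]
  refine le_ord_evalC ((M.series_int δ').sub hθi) (fun _ => hzpos) fun d _ => ?_
  rw [show d = Finsupp.single () (d ()) from Finsupp.unique_single d, ord_mul]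
  set i := d ()
  show _ ≤ ord (PowerSeries.coeff i (M.series δ' - θ)) + _
  by_cases hi : i < B
  · refine le_trans ?_ (le_add_of_nonneg_right
      ((OC p).prod_mem fun _ _ => (OC p).pow_mem hzpos.le _))
    have hconst : ((constantCoeff (M.coeffs i) : OC p) : C p) = PowerSeries.coeff i θ := by
      have h := congrArg (fun P => constantCoeff P) (M.coeffs_eq i hi)
      simp only [MvPowerSeries.constantCoeff_map, constantCoeff_scale] at h
      rw [(S.theta_spec hint h0 hrec i).1] at h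
      exact h
    rw [map_sub, ThetaModel.series, PowerSeries.coeff_mk, if_pos hi, ← hconst]
    exact le_trans (WithTop.coe_le_coe.2 hBρ) (le_ord_evO_sub_const _ hρpos hδ')
  · refine le_trans ?_ (le_add_of_nonneg_left ?_)
    · rw [Fintype.prod_unique]
      refine le_trans (WithTop.coe_le_coe.2 ?_) (le_ord_pow_nsmul hzc _)
      rw [show (Finsupp.single () i) default = i by simp, nsmul_eq_mul]
      exact mul_le_mul_of_nonneg_right (by exact_mod_cast not_lt.1 hi) hc.le
    · exact ((M.series_int δ').sub hθi) (Finsupp.single () i)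

theorem ThetaModel.sum_bound {θ : PowerSeries (C p)} {B : ℕ} (M : S.ThetaModel θ B) {r : ℕ}
    {w : Fin r → C p} {hw : ∀ s, 0 < ord (w s)}
    (hchi0 : ∀ s, constantCoeff (S.chi (w s) (hw s)) = 0) {f : E p n}
    {a : (Fin r →₀ ℕ) → C p} {T : Finset (Fin r →₀ ℕ)}
    (ha : ∀ d : S.Free →₀ ℕ, d.degree < B → MvPowerSeries.coeff d
      (toK (S.tay f) - ∑ m ∈ T, MvPowerSeries.C (a m) * ∏ s, S.chart θ w hw s ^ m s) = 0)
    {q : ℚ} (hq : 0 ≤ q) (hqa : ∀ i ∈ T, 0 ≤ ord (tpow p q * a i))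
    {δ δ' : S.Near} (hδδ' : ∀ t, δ.d t = M.π * δ'.d t) (hδf : δ.hom f = 0) {ρ : ℚ}
    (hρpos : 0 < ρ) (hδ' : ∀ t, (ρ : WithTop ℚ) ≤ ordO (δ'.d t))
    (hbpos : ∀ s, 0 < ord ((evO δ.d δ.pos (S.chi (w s) (hw s)) : OC p) : C p)) :
    ((B • ρ : ℚ) : WithTop ℚ) ≤ ord (tpow p q * ∑ m ∈ T, a m * ∏ s,
      eval₁C p (RingHom.id (C p)) (M.series δ')
        ((evO δ.d δ.pos (S.chi (w s) (hw s)) : OC p) : C p) ^ m s) := by
  classical
  set b : Fin r → C p := fun s => ((evO δ.d δ.pos (S.chi (w s) (hw s)) : OC p) : C p) with hbdef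
  set Φ := eval₁C p (RingHom.id (C p)) (M.series δ') with hΦ
  let XB : Fin r → MvPowerSeries S.Free (C p) := fun s =>
    ∑ i ∈ Finset.range B, S.theta θ i * toK (S.chi (w s) (hw s)) ^ i
  let chiB : Fin r → MvPowerSeries S.Free (OC p) := fun s =>
    ∑ i ∈ Finset.range B, M.coeffs i * S.scaleO M.π (S.chi (w s) (hw s)) ^ i
  have hchiB : ∀ s, toK (chiB s) = scale (M.π : C p) (XB s) := fun s => by
    simp only [chiB, XB, map_sum, map_mul, map_pow]
    refine Finset.sum_congr rfl fun i hi => ?_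
    rw [M.coeffs_eq i (Finset.mem_range.1 hi), S.toK_scaleO]
  have hlow : toK (S.tay f) - ∑ m ∈ T, MvPowerSeries.C (a m) * ∏ s, XB s ^ m s ∈ lowK B := by
    have h1 : toK (S.tay f) - ∑ m ∈ T, MvPowerSeries.C (a m) *
        ∏ s, S.chart θ w hw s ^ m s ∈ lowK B := fun d hd => ha d hd
    have h2 : ∀ s, Ideal.Quotient.mk (lowK B) (S.chart θ w hw s) =
        Ideal.Quotient.mk (lowK B) (XB s) := fun s => by
      rw [Ideal.Quotient.eq]
      intro d hd
      rw [map_sub, coeff_chart (hchi0 s) hd, sub_self]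
    rw [← Ideal.Quotient.eq] at h1 ⊢
    rw [h1]
    simp only [map_sum, map_mul, map_prod, map_pow, h2]
  let am : (Fin r →₀ ℕ) → OC p := fun m =>
    if h : 0 ≤ ord (tpow p q * a m) then ⟨tpow p q * a m, h⟩ else 0
  have ham : ∀ m ∈ T, (am m : C p) = tpow p q * a m := fun m hm => by
    simp only [am, dif_pos (hqa m hm)]
  let tq : OC p := ⟨tpow p q, by rw [mem_OC, ord_tpow]; exact WithTop.coe_nonneg.2 hq⟩
  let R : MvPowerSeries S.Free (OC p) :=
    MvPowerSeries.C tq * S.scaleO M.π (S.tay f) -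
      ∑ m ∈ T, MvPowerSeries.C (am m) * ∏ s, chiB s ^ m s
  have hR : R ∈ degIdeal B := by
    have e : toK R = MvPowerSeries.C (tpow p q) * scale (M.π : C p)
        (toK (S.tay f) - ∑ m ∈ T, MvPowerSeries.C (a m) * ∏ s, XB s ^ m s) := by
      exact toK_combination (M.π : C p) (hX := hchiB) (hP := S.toK_scaleO M.π _) tq rfl ham
    intro d hd
    have h := Ideal.mul_mem_left _ (MvPowerSeries.C (tpow p q))
      (scale_mem_lowK (M.π : C p) hlow) d hd
    rw [← e, MvPowerSeries.coeff_map] at h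
    exact Subtype.ext h
  have hbound := le_ord_evO_of_degIdeal hR hρpos (hz := δ'.pos) hδ'
  have hB' : ∀ s, ((evO δ'.d δ'.pos (chiB s) : OC p) : C p) = Φ (b s) := by
    intro s
    have hbpos : 0 < ord (b s) := hbpos s
    have hser : Φ (b s) = ∑ i ∈ Finset.range B,
        PowerSeries.coeff i (M.series δ') * b s ^ i := by
      refine (hasSumC_eval₁ (M.series_int δ') hbpos).unique ?_
      refine hasSumC_of_support_subset (p := p)
        (a := fun i => (RingHom.id (C p)) (PowerSeries.coeff i (M.series δ')) * b s ^ i)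
        (Finset.range B) fun i hi => ?_
      rw [Finset.mem_range] at hi
      simp [ThetaModel.series, hi]
    rw [hser]
    simp only [chiB, map_sum, map_mul, map_pow, AddSubmonoidClass.coe_finsetSum,
      Subring.coe_mul, SubmonoidClass.coe_pow]
    refine Finset.sum_congr rfl fun i hi => ?_
    rw [ThetaModel.series, PowerSeries.coeff_mk, if_pos (Finset.mem_range.1 hi),
      S.evO_scaleO M.π (hd := δ.pos) hδδ']
  have hRval : ((evO δ'.d δ'.pos R : OC p) : C p) =
      -(tpow p q * ∑ m ∈ T, a m * ∏ s, Φ (b s) ^ m s) := by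
    have hf0 : evO δ'.d δ'.pos (S.scaleO M.π (S.tay f)) = 0 := by
      rw [S.evO_scaleO M.π (hd := δ.pos) hδδ']
      exact hδf
    simp only [R, map_sub, map_mul, hf0, mul_zero, zero_sub, map_sum, map_prod, map_pow,
      evO_C, NegMemClass.coe_neg, AddSubmonoidClass.coe_finsetSum, Subring.coe_mul,
      SubmonoidClass.coe_finsetProd, SubmonoidClass.coe_pow, Finset.mul_sum, hB']
    congr 1
    refine Finset.sum_congr rfl fun m hm => ?_
    rw [ham m hm, mul_assoc]
  rw [hRval, ord_neg] at hbound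
  exact hbound

variable (S)

/-- The main estimate: vanishing on the orbit gives asymptotic vanishing. -/
theorem asympZero (hU : IsUniversal p n S.F) (hA : ActionStatement p n) {θ : PowerSeries (C p)}
    (hint : ∀ i, 0 ≤ ord (PowerSeries.coeff i θ)) (h0 : PowerSeries.constantCoeff θ = 0)
    (hrec : PowerSeries.subst (PowerSeries.map constantCoeff S.gK) θ =
      PowerSeries.map (iterateFrobenius (C p) p S.h) θ)
    {r : ℕ} {v w : Fin r → C p} (hv : ∀ s, 0 < ord (v s)) (hw : ∀ s, 0 < ord (w s))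
    (hv0 : ∀ s, IsIota p n S.base.law (v s) 0)
    (hvw : ∀ s, fadd p HahnSeries.C S.Gam (v s) (w s) = 0)
    (hJ : Function.Bijective (fun c : S.Free → C p => fun s =>
      ∑ t, c t * MvPowerSeries.coeff (Finsupp.single t 1) (toK (S.chi (w s) (hw s)))))
    {f : E p n} (hf : ∀ g φ, ActsBy p n S.F g φ → S.x (φ f) = 0)
    {a : (Fin r →₀ ℕ) → C p}
    (ha : ∀ (B : ℕ) (T : Finset (Fin r →₀ ℕ)), (∀ m, m ∈ T ↔ m.degree < B) →
      ∀ d : S.Free →₀ ℕ, d.degree < B → MvPowerSeries.coeff d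
        (toK (S.tay f) - ∑ m ∈ T, MvPowerSeries.C (a m) * ∏ s, S.chart θ w hw s ^ m s) = 0)
    {η : PowerSeries (K p n)} (hη : IsHom (S.F.map (res p n)) (S.F.map (res p n)) η) :
    AsympZero p S.h a (fun s => eval₁C p (RingHom.id (C p)) θ
      ((constantCoeff (S.chi (S.resEval η (v s)) (S.resEval_pos hη.1 (hv s))) : OC p) : C p)) := by
  classical
  set Z : Fin r → OC p :=
    fun s => constantCoeff (S.chi (S.resEval η (v s)) (S.resEval_pos hη.1 (hv s))) with hZdef
  have hZpos : ∀ s, 0 < ordO (Z s) := fun s => S.chi_pos _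
  obtain ⟨c, hc, hcZ⟩ := exists_bound_O hZpos
  have hθi : IntCoeff (RingHom.id (C p)) (θ : MvPowerSeries Unit (C p)) :=
    intCoeff_iff₁.2 hint
  refine ⟨c, hc, fun s => ?_, fun B T hT => ?_⟩
  · have h := le_ord_eval₁C hθi hc (hcZ s) (N := 1) fun i hi => by
      rw [Nat.lt_one_iff] at hi
      subst hi
      rw [PowerSeries.coeff_zero_eq_constantCoeff_apply, h0]
    rw [one_nsmul] at h
    exact h
  obtain ⟨M⟩ := S.exists_thetaModel hint h0 hrec B
  obtain ⟨q, hq, hqa⟩ := exists_denominator T a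
  obtain ⟨DJ, hDJ0, hDJ⟩ := exists_inverse_bound hJ
  have hπne : (M.π : C p) ≠ 0 := fun h => M.π_ne (Subtype.ext h)
  obtain ⟨γ, hγ⟩ := WithTop.ne_top_iff_exists.1 (mt ord_eq_top.1 hπne)
  have hγ0 : 0 ≤ γ := by
    have := M.π.2
    rw [mem_OC, ← hγ] at this
    exact WithTop.coe_nonneg.1 this
  have hane : ((S.a S.i : OC p) : C p) ≠ 0 := fun h => S.ne (Subtype.ext h)
  obtain ⟨αi, hαi⟩ := WithTop.ne_top_iff_exists.1 (mt ord_eq_top.1 hane)
  obtain ⟨k₀, hk₀⟩ := exists_nat_gt ((|αi| + DJ + γ + B * c + c + 1) / S.eps)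
  refine ⟨B * (DJ + γ) + q, k₀ + 1, fun k hk => ?_⟩
  have hεk : |αi| + DJ + γ + B * c + c + 1 < (k + 1) • S.eps := by
    rw [div_lt_iff₀ S.eps_pos] at hk₀
    refine hk₀.trans_le ?_
    rw [nsmul_eq_mul]
    refine mul_le_mul_of_nonneg_right ?_ S.eps_pos.le
    exact_mod_cast (by omega : k₀ ≤ k + 1)
  have hBc : 0 ≤ (B : ℚ) * c := mul_nonneg (Nat.cast_nonneg B) hc.le
  have habs := abs_nonneg αi
  set ρ₁ : ℚ := (k + 1) • S.eps with hρ₁
  have hρ₁pos : 0 < ρ₁ := by linarith
  obtain ⟨g, φ, δ, hact, hsmall, hδ, hδf, hrel⟩ :=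
    S.exists_near hU hA hη (k := k) (by omega) (by
      rw [ordO, ← hαi, WithTop.coe_lt_coe]
      linarith [le_abs_self αi]) hv hw hv0 hvw
  set Z' : Fin r → C p := fun s =>
    ((evO δ.d δ.pos (S.chi (S.resEval η (v s)) (S.resEval_pos hη.1 (hv s))) : OC p) : C p)
    with hZ'def
  set b : Fin r → C p := fun s => ((evO δ.d δ.pos (S.chi (w s) (hw s)) : OC p) : C p) with hbdef
  have hZdiff : ∀ s, (ρ₁ : WithTop ℚ) ≤ ord (Z' s - (Z s : C p)) := fun s =>
    le_ord_evO_sub_const _ hρ₁pos hδ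
  have hZ'c : ∀ s, (c : WithTop ℚ) ≤ ord (Z' s) := fun s => by
    have h := le_ord_add (m := (c : WithTop ℚ)) (x := Z' s - (Z s : C p)) (y := (Z s : C p))
      ((WithTop.coe_le_coe.2 (by linarith)).trans (hZdiff s)) (hcZ s)
    simpa using h
  -- the displacement is small
  set Q : ℕ := p ^ (S.h * k) with hQ
  have hbQ : ∀ s, ((Q • c : ℚ) : WithTop ℚ) ≤ ord (b s) := fun s => by
    have key : ∀ j : ℕ, (((p ^ S.h) ^ j • c : ℚ) : WithTop ℚ) ≤
        ord ((eval₁C p (RingHom.id (C p)) (mulSeries δ.law p))^[j] (Z' s)) := by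
      intro j
      induction j with
      | zero => simpa using hZ'c s
      | succ j ih =>
        rw [Function.iterate_succ_apply', pow_succ, mul_nsmul]
        exact δ.le_ord_mulP
          (nsmul_pos hc (pow_pos (pow_pos (Fact.out : p.Prime).pos _) j).ne') ih
    rw [hbdef, hQ, pow_mul]
    simp only
    rw [hrel s]
    exact key k
  have hδQ : ∀ t, ((Q • c - DJ : ℚ) : WithTop ℚ) ≤ ordO (δ.d t) := by
    exact Near.disp_bound (S.constantCoeff_chi_eq_zero hv hw hv0 hvw) hDJ δ hρ₁pos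
      (by linarith) hδ hbQ
  -- the rescaled displacement
  set ρ : ℚ := max (Q • c - DJ - γ) (ρ₁ - γ) with hρdef
  have hρpos : 0 < ρ := lt_of_lt_of_le (by linarith) (le_max_right _ _)
  have hδ' : ∀ t, (ρ : WithTop ℚ) ≤ ord ((δ.d t : C p) / (M.π : C p)) := by
    intro t
    have e : (δ.d t : C p) = (M.π : C p) * ((δ.d t : C p) / (M.π : C p)) :=
      (mul_div_cancel₀ _ hπne).symm
    cases hu : ord ((δ.d t : C p) / (M.π : C p)) with
    | top => exact le_top
    | coe u =>
      have hd1 := hδQ t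
      have hd2 := hδ t
      rw [ordO, e, ord_mul, hu, ← hγ, ← WithTop.coe_add, WithTop.coe_le_coe] at hd1 hd2
      exact WithTop.coe_le_coe.2 (max_le (by linarith) (by linarith))
  let δ' : S.Near :=
    ⟨fun t => ⟨(δ.d t : C p) / (M.π : C p),
        (le_trans (WithTop.coe_nonneg.2 hρpos.le) (hδ' t))⟩,
      fun t => lt_of_lt_of_le (WithTop.coe_pos.2 hρpos) (hδ' t)⟩
  have hδδ' : ∀ t, δ.d t = M.π * δ'.d t := fun t =>
    Subtype.ext (mul_div_cancel₀ _ hπne).symm
  set Φ := eval₁C p (RingHom.id (C p)) (M.series δ') with hΦ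
  have hser0 : PowerSeries.constantCoeff (M.series δ') = 0 := by
    rw [← PowerSeries.coeff_zero_eq_constantCoeff_apply, ThetaModel.series, PowerSeries.coeff_mk]
    split_ifs with hB
    · have h1 := M.coeffs_eq 0 hB
      rw [theta, map_zero, map_eq_zero_iff _ toK_injective] at h1
      rw [h1, map_zero, ZeroMemClass.coe_zero]
    · rfl
  refine ⟨fun s => Φ (Z' s), fun s => ?_, ?_⟩
  · -- close to the exact coordinate
    have hZ'pos : 0 < ord (Z' s) := lt_of_lt_of_le (WithTop.coe_pos.2 hc) (hZ'c s)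
    have h1 := M.close hint h0 hrec δ' hρpos hδ' hc
      (le_trans (by linarith) (le_max_right _ _)) (hZ'c s)
    have h2 : (((B : ℚ) * c : ℚ) : WithTop ℚ) ≤
        ord (eval₁C p (RingHom.id (C p)) θ (Z' s) -
          eval₁C p (RingHom.id (C p)) θ (Z s : C p)) :=
      le_ord_eval₁C_sub hθi hZ'pos (hZpos s)
        ((WithTop.coe_le_coe.2 (by linarith)).trans (hZdiff s))
    have h := le_ord_add h1 h2
    simpa using h
  · -- the sum
    have hbound := M.sum_bound (δ' := δ') (S.constantCoeff_chi_eq_zero hv hw hv0 hvw) (ha B T hT)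
      hq hqa hδδ' (by rw [hδf]; exact hf g φ hact) hρpos hδ' fun s =>
        lt_of_lt_of_le (WithTop.coe_pos.2 (nsmul_pos hc
          (pow_pos (Fact.out : p.Prime).pos _).ne')) (hbQ s)
    -- replace iterates by Frobenius powers
    have hqpos : 0 < p ^ S.h := pow_pos (Fact.out : p.Prime).pos _
    have hΦpos : ∀ u : C p, 0 < ord u → 0 < ord (Φ u) := fun u hu =>
      ord_eval₁C_pos (M.series_int δ') hser0 hu
    have hdiff : ∀ s, ((B • (Q • c) : ℚ) : WithTop ℚ) ≤ ord (Φ (b s) - Φ (Z' s) ^ Q) := by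
      intro s
      have h := (M.approx_iterate hint h0 hrec hδδ' hc (hZ'c s) k).2
      rw [← hrel s] at h
      simpa [hQ, pow_mul] using h
    have hterm : ∀ m ∈ T, ((B • (Q • c) : ℚ) : WithTop ℚ) ≤
        ord (tpow p q * (a m * ∏ s, (Φ (Z' s) ^ Q) ^ m s) -
          tpow p q * (a m * ∏ s, Φ (b s) ^ m s)) := by
      intro m hm
      have hbpos : ∀ s, 0 < ord (Φ (b s)) := fun s => hΦpos _ (lt_of_lt_of_le
        (WithTop.coe_pos.2 (nsmul_pos hc (pow_pos (Fact.out : p.Prime).pos _).ne')) (hbQ s))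
      have hzpos : ∀ s, 0 < ord (Φ (Z' s) ^ Q) := fun s =>
        pow_q_pos' (hΦpos _ (lt_of_lt_of_le (WithTop.coe_pos.2 hc) (hZ'c s))) _
      have h := le_ord_evalC_sub (c := RingHom.id (C p))
        (f := MvPowerSeries.monomial m (tpow p q * a m))
        (intCoeff_monomial m (hqa m hm)) hzpos hbpos
        (δ := ((B • (Q • c) : ℚ) : WithTop ℚ)) fun s => by
          rw [← ord_neg, neg_sub]; exact hdiff s
      rw [evalC_monomial, evalC_monomial] at h
      simpa [mul_assoc] using h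
    have hfinal : ((((B : ℚ) * c * (Q : ℚ) - (B * (DJ + γ))) : ℚ) : WithTop ℚ) ≤
        ord (tpow p q * ∑ m ∈ T, a m * ∏ s, Φ (Z' s) ^ (Q * m s)) := by
      have e : tpow p q * ∑ m ∈ T, a m * ∏ s, Φ (Z' s) ^ (Q * m s) =
          (∑ m ∈ T, (tpow p q * (a m * ∏ s, (Φ (Z' s) ^ Q) ^ m s) -
            tpow p q * (a m * ∏ s, Φ (b s) ^ m s))) +
            tpow p q * ∑ m ∈ T, a m * ∏ s, Φ (b s) ^ m s := by
        rw [Finset.sum_sub_distrib, Finset.mul_sum, Finset.mul_sum, sub_add_cancel]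
        simp only [pow_mul]
      rw [e]
      refine le_ord_add ?_ ?_
      · refine le_trans (WithTop.coe_le_coe.2 ?_) (le_ord_sum _ hterm)
        rw [nsmul_eq_mul, nsmul_eq_mul]
        nlinarith [mul_nonneg (Nat.cast_nonneg (α := ℚ) B) (add_nonneg hDJ0 hγ0)]
      · refine le_trans (WithTop.coe_le_coe.2 ?_) hbound
        rw [nsmul_eq_mul]
        have hle : (Q : ℚ) * c - DJ - γ ≤ ρ := by
          rw [hρdef, nsmul_eq_mul]; exact le_max_left _ _
        nlinarith [mul_le_mul_of_nonneg_left hle (Nat.cast_nonneg (α := ℚ) B)]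
    rw [ord_mul, ord_tpow] at hfinal
    have hQcast : ((p : ℚ)) ^ (S.h * k) = (Q : ℚ) := by rw [hQ]; push_cast; rfl
    cases hu : ord (∑ m ∈ T, a m * ∏ s, Φ (Z' s) ^ (Q * m s)) with
    | top => exact le_top
    | coe u =>
      rw [hu, ← WithTop.coe_add, WithTop.coe_le_coe] at hfinal
      rw [WithTop.coe_le_coe, hQcast]
      linarith

end Setup

end Vale.Agent.P217.CharP
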