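import Vale.Agent.P217.CharP.Ring

/-!
P217, module M8: evaluation homomorphisms into the valuation ring and into series over it.
-/

open MvPowerSeries

noncomputable section

namespace Vale.Agent.P217.CharP

variable {p : ℕ} [Fact p.Prime] {σ τ T R : Type*}

theorem subtype_nonneg (r : OC p) : 0 ≤ ord ((OC p).subtype r) := r.2

/-- Evaluation at a point of the valuation ring. -/
def evO [Fintype σ] (z : σ → OC p) (hz : ∀ i, 0 < ordO (z i)) :
    MvPowerSeries σ (OC p) →+* OC p :=
  (evalHom (OC p).subtype subtype_nonneg (fun i => (z i : C p)) hz).codRestrict (OC p)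
    fun P => ord_evalC_nonneg (intCoeff_of subtype_nonneg P) hz

theorem coe_evO [Fintype σ] {z : σ → OC p} (hz : ∀ i, 0 < ordO (z i))
    (P : MvPowerSeries σ (OC p)) :
    (evO z hz P : C p) = evalC p (OC p).subtype P (fun i => (z i : C p)) := rfl

@[simp]
theorem evO_C [Fintype σ] {z : σ → OC p} (hz : ∀ i, 0 < ordO (z i)) (r : OC p) :
    evO z hz (MvPowerSeries.C r) = r := Subtype.ext (evalC_C r)

@[simp]
theorem evO_X [Fintype σ] {z : σ → OC p} (hz : ∀ i, 0 < ordO (z i)) (i : σ) :
    evO z hz (MvPowerSeries.X i) = z i := Subtype.ext (evalC_X i)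

theorem hom_ext_O [Fintype σ] [CommRing R] {ε : ℚ} (hε : 0 < ε)
    {f g : MvPowerSeries σ R →+* OC p}
    (hf : ∀ i, (ε : WithTop ℚ) ≤ ordO (f (MvPowerSeries.X i)))
    (hC : ∀ r, f (MvPowerSeries.C r) = g (MvPowerSeries.C r))
    (hX : ∀ i, f (MvPowerSeries.X i) = g (MvPowerSeries.X i)) : f = g := by
  let emb : OC p →+* MvPowerSeries (Fin 0) (OC p) := MvPowerSeries.C
  have h : emb.comp f = emb.comp g := by
    refine hom_ext (ε := ε) hε.ne' (fun i => mem_Fil_one ?_) (fun r => by simp [emb, hC r])
      (fun i => by simp [emb, hX i])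
    simpa [emb, abs_of_pos hε] using hf i
  exact RingHom.ext fun P =>
    MvPowerSeries.C_injective (σ := Fin 0) (DFunLike.congr_fun h P)

theorem curry_rename_inr [CommRing R] [Finite T] [Finite σ] (g : MvPowerSeries T R) :
    curry (MvPowerSeries.rename (Function.Embedding.inr : T ↪ σ ⊕ T) g) =
      MvPowerSeries.map MvPowerSeries.C g := by
  classical
  ext d m
  rw [coeff_curry, MvPowerSeries.coeff_map, MvPowerSeries.coeff_C]
  by_cases hm : m = 0
  · subst hm
    rw [if_pos rfl, show pairExp (σ := σ) 0 d =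
      Finsupp.embDomain (Function.Embedding.inr : T ↪ σ ⊕ T) d from ?_, coeff_embDomain_rename]
    ext i
    cases i with
    | inl i =>
      rw [Finsupp.embDomain_of_notMem_range _ _ _ (by simp)]
      simp [pairExp]
    | inr i =>
      rw [show (Sum.inr i : σ ⊕ T) = (Function.Embedding.inr : T ↪ σ ⊕ T) i from rfl,
        Finsupp.embDomain_apply_self]
      simp [pairExp]
  · rw [if_neg hm, coeff_rename_eq_zero]
    rintro ⟨y, hy⟩
    apply hm
    ext i
    have := DFunLike.congr_fun hy (Sum.inl i)
    rw [Finsupp.mapDomain_of_notMem_range _ _ (by simp)] at this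
    simpa [pairExp] using this.symm

theorem curry_rename_inl [CommRing R] [Finite T] [Finite σ] (g : MvPowerSeries σ R) :
    curry (MvPowerSeries.rename (Function.Embedding.inl : σ ↪ σ ⊕ T) g) =
      MvPowerSeries.C g := by
  classical
  ext d m
  rw [coeff_curry, MvPowerSeries.coeff_C]
  by_cases hd : d = 0
  · subst hd
    rw [if_pos rfl, show pairExp (T := T) m 0 =
      Finsupp.embDomain (Function.Embedding.inl : σ ↪ σ ⊕ T) m from ?_, coeff_embDomain_rename]
    ext i
    cases i with
    | inr i =>
      rw [Finsupp.embDomain_of_notMem_range _ _ _ (by simp)]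
      simp [pairExp]
    | inl i =>
      rw [show (Sum.inl i : σ ⊕ T) = (Function.Embedding.inl : σ ↪ σ ⊕ T) i from rfl,
        Finsupp.embDomain_apply_self]
      simp [pairExp]
  · rw [if_neg hd, coeff_rename_eq_zero, map_zero]
    rintro ⟨y, hy⟩
    apply hd
    ext i
    have := DFunLike.congr_fun hy (Sum.inr i)
    rw [Finsupp.mapDomain_of_notMem_range _ _ (by simp)] at this
    simpa [pairExp] using this.symm

section evA

variable [Fintype σ] [Fintype T]

/-- Where the variables go in the definition of evaluation at series. -/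
def shiftVar (a : σ → MvPowerSeries T (OC p)) : T ⊕ σ → MvPowerSeries (σ ⊕ T) (OC p) :=
  Sum.elim (fun t => MvPowerSeries.X (Sum.inr t))
    fun i => MvPowerSeries.X (Sum.inl i) +
      MvPowerSeries.rename (Function.Embedding.inr : T ↪ σ ⊕ T)
        (a i - MvPowerSeries.C (constantCoeff (a i)))

theorem hasSubst_shiftVar (a : σ → MvPowerSeries T (OC p)) :
    MvPowerSeries.HasSubst (shiftVar a) :=
  hasSubst_of_constantCoeff_zero fun i => by cases i <;> simp [shiftVar]

/-- Evaluation of series over `MvPowerSeries T (OC p)` at a tuple of series. -/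
def evA (a : σ → MvPowerSeries T (OC p)) (ha : ∀ i, 0 < ordO (constantCoeff (a i))) :
    MvPowerSeries σ (MvPowerSeries T (OC p)) →+* MvPowerSeries T (OC p) :=
  (MvPowerSeries.map (evO (fun i => constantCoeff (a i)) ha)).comp
    ((curry (σ := σ) (T := T) (R := OC p)).toRingHom.comp
      ((substAlgHom (hasSubst_shiftVar a)).toRingHom.comp
        (curry (σ := T) (T := σ) (R := OC p)).symm.toRingHom))

variable {a : σ → MvPowerSeries T (OC p)} {ha : ∀ i, 0 < ordO (constantCoeff (a i))}

theorem evA_apply (P : MvPowerSeries σ (MvPowerSeries T (OC p))) :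
    evA a ha P = MvPowerSeries.map (evO (fun i => constantCoeff (a i)) ha)
      (curry (MvPowerSeries.subst (shiftVar a)
        ((curry (σ := T) (T := σ) (R := OC p)).symm P))) := by
  rw [← coe_substAlgHom (hasSubst_shiftVar a)]
  rfl

omit [Fintype T] in
theorem map_evO_map_C (g : MvPowerSeries T (OC p)) {z : σ → OC p} (hz : ∀ i, 0 < ordO (z i)) :
    MvPowerSeries.map (evO z hz) (MvPowerSeries.map MvPowerSeries.C g) = g := by
  ext d
  simp

@[simp]
theorem evA_X (i : σ) : evA a ha (MvPowerSeries.X i) = a i := by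
  rw [evA_apply, ← curry_X_inr, RingEquiv.symm_apply_apply, subst_X (hasSubst_shiftVar a)]
  simp only [shiftVar, Sum.elim_inr, map_add, curry_X_inl, curry_rename_inr, map_evO_map_C]
  simp

@[simp]
theorem evA_C (b : MvPowerSeries T (OC p)) : evA a ha (MvPowerSeries.C b) = b := by
  rw [evA_apply, ← curry_rename_inl, RingEquiv.symm_apply_apply,
    MvPowerSeries.rename_eq_subst, subst_comp_subst_apply (HasSubst.X_comp _)
      (hasSubst_shiftVar a)]
  have e : (fun t => MvPowerSeries.subst (shiftVar a)
      ((MvPowerSeries.X ∘ (Function.Embedding.inl : T ↪ T ⊕ σ)) t :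
        MvPowerSeries (T ⊕ σ) (OC p))) =
      MvPowerSeries.X ∘ (Function.Embedding.inr : T ↪ σ ⊕ T) := by
    funext t
    rw [Function.comp_apply, subst_X (hasSubst_shiftVar a)]
    simp [shiftVar]
  rw [e, ← MvPowerSeries.rename_eq_subst, curry_rename_inr, map_evO_map_C]

/-- The coefficient series of a fixed degree of a series over a ring of series. -/
def slice (d : T →₀ ℕ) (P : MvPowerSeries σ (MvPowerSeries T (OC p))) :
    MvPowerSeries σ (OC p) :=
  fun m => MvPowerSeries.coeff d (MvPowerSeries.coeff m P)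

omit [Fintype σ] [Fintype T] in
theorem coeff_slice (d : T →₀ ℕ) (P : MvPowerSeries σ (MvPowerSeries T (OC p))) (m : σ →₀ ℕ) :
    MvPowerSeries.coeff m (slice d P) = MvPowerSeries.coeff d (MvPowerSeries.coeff m P) := rfl

/-- Coefficients of the value of a series at constants. -/
theorem coeff_evA_const {z : σ → OC p} (hz : ∀ i, 0 < ordO (z i))
    (P : MvPowerSeries σ (MvPowerSeries T (OC p))) (d : T →₀ ℕ) :
    MvPowerSeries.coeff d
        (evA (fun i => MvPowerSeries.C (z i)) (fun i => by simpa using hz i) P) =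
      evO z hz (slice d P) := by
  rw [evA_apply]
  have e : shiftVar (fun i => (MvPowerSeries.C (z i) : MvPowerSeries T (OC p))) =
      MvPowerSeries.X ∘ (Equiv.sumComm T σ).toEmbedding := by
    funext i
    cases i <;> simp [shiftVar]
  rw [e, ← MvPowerSeries.rename_eq_subst, MvPowerSeries.coeff_map]
  simp only [MvPowerSeries.constantCoeff_C]
  congr 1
  ext m
  rw [coeff_curry]
  have e2 : pairExp m d = Finsupp.embDomain (Equiv.sumComm T σ).toEmbedding (pairExp d m) := by
    ext i
    cases i with
    | inl i =>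
      rw [show (Sum.inl i : σ ⊕ T) = (Equiv.sumComm T σ).toEmbedding (Sum.inr i) from rfl,
        Finsupp.embDomain_apply_self]
      simp [pairExp]
    | inr i =>
      rw [show (Sum.inr i : σ ⊕ T) = (Equiv.sumComm T σ).toEmbedding (Sum.inl i) from rfl,
        Finsupp.embDomain_apply_self]
      simp [pairExp]
  rw [e2, coeff_embDomain_rename, ← coeff_curry, RingEquiv.apply_symm_apply]
  rfl

end evA

end Vale.Agent.P217.CharP
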