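import Vale.Agent.P217.Eval
import Vale.Agent.P217.Series

/-!
P217, module M8: arithmetic of points of positive valuation for laws with integral coefficients,
limits along a geometric schedule, and Frobenius powers of values.
-/

open MvPowerSeries

noncomputable section

namespace Vale.Agent.P217.CharP

variable {p : ℕ} [Fact p.Prime]

/-! ### Valuation helpers -/

theorem ord_zero_pos' : 0 < ord (0 : C p) := by rw [ord_zero]; exact WithTop.coe_lt_top _

theorem le_ord_of_le_ord_pow {x : C p} {δ : ℚ} {k : ℕ} (hk : k ≠ 0)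
    (h : ((k • δ : ℚ) : WithTop ℚ) ≤ ord (x ^ k)) : (δ : WithTop ℚ) ≤ ord x := by
  rw [ord_pow] at h
  revert h
  cases ord x with
  | top => intro _; exact le_top
  | coe u =>
    rw [← WithTop.coe_nsmul, WithTop.coe_le_coe, WithTop.coe_le_coe]
    exact (nsmul_le_nsmul_iff_right hk).mp

theorem lt_ord_of_lt_ord_pow {x : C p} {M : ℚ} {k : ℕ}
    (h : ((k • M : ℚ) : WithTop ℚ) < ord (x ^ k)) : (M : WithTop ℚ) < ord x := by
  by_contra hn
  rw [not_lt] at hn
  rw [ord_pow, WithTop.coe_nsmul] at h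
  exact not_lt.mpr (nsmul_le_nsmul_right hn k) h

/-! ### Powers of Frobenius -/

theorem powZ_neg_pow (x : C p) (k : ℕ) : powZ p x (-(k : ℤ)) ^ p ^ k = x := by
  rw [← powZ_natCast, powZ_powZ, neg_add_cancel, powZ_zero]

theorem pow_powZ_neg (x : C p) (k : ℕ) : powZ p (x ^ p ^ k) (-(k : ℤ)) = x := by
  rw [← powZ_natCast, powZ_powZ, add_neg_cancel, powZ_zero]

theorem powZ_pow_comm (x : C p) (k : ℕ) (j : ℤ) :
    powZ p (x ^ p ^ k) j = powZ p x j ^ p ^ k := by
  rw [← powZ_natCast, ← powZ_natCast, powZ_powZ, powZ_powZ, add_comm]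

omit [Fact p.Prime] in
theorem pow_fix_iterate {R : Type*} [CommMonoid R] {a : R} {m : ℕ} (ha : a ^ p ^ m = a) :
    ∀ l : ℕ, a ^ p ^ (m * l) = a
  | 0 => by simp
  | l + 1 => by rw [Nat.mul_succ, pow_add, pow_mul, pow_fix_iterate ha l, ha]

variable {σ : Type*} [Fintype σ] {f : MvPowerSeries σ (Kb p)} {x : σ → C p}

/-- Values of a series with fixed coefficients commute with Frobenius powers. -/
theorem evalC_pow_fix {j : ℕ}
    (hfix : ∀ d, MvPowerSeries.coeff d f ^ p ^ j = MvPowerSeries.coeff d f)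
    (hx : ∀ i, 0 < ord (x i)) :
    evalC p HahnSeries.C f x ^ p ^ j = evalC p HahnSeries.C f (fun i => x i ^ p ^ j) := by
  rw [evalC_pow_char_pow (intCoeff_residue f) hx]
  refine congrArg (sumC p) (funext fun d => ?_)
  rw [RingHom.comp_apply, iterateFrobenius_def, ← map_pow, hfix]

theorem powZ_neg_evalC {m : ℕ}
    (hfix : ∀ d, MvPowerSeries.coeff d f ^ p ^ m = MvPowerSeries.coeff d f)
    (hx : ∀ i, 0 < ord (x i)) (l : ℕ) :
    powZ p (evalC p HahnSeries.C f x) (-((m * l : ℕ) : ℤ)) =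
      evalC p HahnSeries.C f (fun i => powZ p (x i) (-((m * l : ℕ) : ℤ))) := by
  have h := evalC_pow_fix (f := f) (x := fun i => powZ p (x i) (-((m * l : ℕ) : ℤ)))
    (fun d => pow_fix_iterate (hfix d) l) (fun i => ord_powZ_pos (hx i) _)
  simp only [powZ_neg_pow] at h
  rw [← h, pow_powZ_neg]

/-! ### Bounds by coefficients -/

variable {R : Type*} [CommRing R] {c : R →+* C p}

theorem le_ord_evalC_of_coeff {τ : Type*} [Fintype τ] {g : MvPowerSeries τ R} {y : τ → C p}
    (hg : IntCoeff c g) (hy : ∀ i, 0 < ord (y i)) {m : WithTop ℚ}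
    (hm : ∀ d, m ≤ ord (c (MvPowerSeries.coeff d g))) : m ≤ ord (evalC p c g y) := by
  refine le_ord_evalC hg hy fun d _ => ?_
  rw [ord_mul]
  exact (hm d).trans (le_add_of_nonneg_right
    ((OC p).prod_mem fun i _ => (OC p).pow_mem (hy i).le (d i)))

theorem eval₁C_zero_point {g : PowerSeries R}
    (hg : IntCoeff c (g : MvPowerSeries Unit R)) (hg0 : PowerSeries.constantCoeff g = 0) :
    eval₁C p c g 0 = 0 := by
  refine ord_eq_top.mp (top_le_iff.mp (le_ord_evalC hg (fun _ => ord_zero_pos') fun d hd => ?_))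
  have : d () ≠ 0 := fun h => hd (by
    rw [show d = 0 from Finsupp.ext fun i => by simpa using h]
    exact hg0)
  simp [this]

theorem evalC_map₁ {S : Type*} [CommRing S] (φ : S →+* R) (g : PowerSeries S) (u : C p) :
    eval₁C p c (PowerSeries.map φ g) u = eval₁C p (c.comp φ) g u :=
  evalC_map φ c _ _

/-! ### Laws -/

variable {G : FormalGroup R} {u v w : C p}

theorem fadd_zero (hG : IntCoeff c G.toPowerSeries) (hu : 0 < ord u) : fadd p c G u 0 = u := by
  have h := congrArg (fun f => evalC p c f (fun _ : Unit => u))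
    (G.add_zero (σ := Unit) (f := MvPowerSeries.X ()) (PowerSeries.HasSubst.X ()))
  simpa [evalC_fgl_subst hG (intCoeff_X _) intCoeff_zero (constantCoeff_X _)
    (map_zero _) (fun _ : Unit => hu), evalC_X, evalC_zero] using h

theorem zero_fadd (hG : IntCoeff c G.toPowerSeries) (hu : 0 < ord u) : fadd p c G 0 u = u := by
  have h := congrArg (fun f => evalC p c f (fun _ : Unit => u))
    (G.zero_add (σ := Unit) (f := MvPowerSeries.X ()) (PowerSeries.HasSubst.X ()))
  simpa [evalC_fgl_subst hG intCoeff_zero (intCoeff_X _) (map_zero _)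
    (constantCoeff_X _) (fun _ : Unit => hu), evalC_X, evalC_zero] using h

theorem fadd_comm [G.IsComm] (hG : IntCoeff c G.toPowerSeries) (hu : 0 < ord u) (hv : 0 < ord v) :
    fadd p c G u v = fadd p c G v u := by
  have h := congrArg (fun f => evalC p c f ![v, u])
    (G.comm' (σ := Fin 2) (f := X 0) (g := X 1) (PowerSeries.HasSubst.X _)
      (PowerSeries.HasSubst.X _))
  simpa [evalC_fgl_subst hG (intCoeff_X _) (intCoeff_X _) (constantCoeff_X _)
    (constantCoeff_X _) (vec2_pos hv hu), evalC_X] using h.symm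

theorem fadd_left_comm [G.IsComm] (hG : IntCoeff c G.toPowerSeries) (hu : 0 < ord u)
    (hv : 0 < ord v) (hw : 0 < ord w) :
    fadd p c G u (fadd p c G v w) = fadd p c G v (fadd p c G u w) := by
  rw [← fadd_assoc hG hu hv hw, ← fadd_assoc hG hv hu hw, fadd_comm hG hu hv]

theorem fadd_fadd_fadd_comm [G.IsComm] (hG : IntCoeff c G.toPowerSeries) {t : C p}
    (hu : 0 < ord u) (hv : 0 < ord v) (hw : 0 < ord w) (ht : 0 < ord t) :
    fadd p c G (fadd p c G u v) (fadd p c G w t) =
      fadd p c G (fadd p c G u w) (fadd p c G v t) := by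
  rw [fadd_assoc hG hu hv (ord_fadd_pos hG hw ht), fadd_left_comm hG hv hw ht,
    ← fadd_assoc hG hu hw (ord_fadd_pos hG hv ht)]

theorem le_ord_fadd_sub (hG : IntCoeff c G.toPowerSeries) {u' v' : C p} (hu : 0 < ord u)
    (hv : 0 < ord v) (hu' : 0 < ord u') (hv' : 0 < ord v') {δ : WithTop ℚ}
    (h1 : δ ≤ ord (u - u')) (h2 : δ ≤ ord (v - v')) :
    δ ≤ ord (fadd p c G u v - fadd p c G u' v') :=
  le_ord_evalC_sub hG (vec2_pos hu hv) (vec2_pos hu' hv') fun i => by fin_cases i <;> simpa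

/-- A homomorphism of laws on points. -/
theorem eval₁C_fadd {G' : FormalGroup R} {ψ : PowerSeries R} (hψ : IsHom G G' ψ)
    (hG : IntCoeff c G.toPowerSeries) (hG' : IntCoeff c G'.toPowerSeries)
    (hi : IntCoeff c (ψ : MvPowerSeries Unit R)) (hu : 0 < ord u) (hv : 0 < ord v) :
    eval₁C p c ψ (fadd p c G u v) = fadd p c G' (eval₁C p c ψ u) (eval₁C p c ψ v) := by
  have hx := vec2_pos hu hv
  have hX : ∀ i : Fin 2, MvPowerSeries.constantCoeff
      (PowerSeries.subst (MvPowerSeries.X i : MvPowerSeries (Fin 2) R) ψ) = 0 := fun i =>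
    PowerSeries.constantCoeff_subst_eq_zero (by simp) ψ hψ.1
  have hXi : ∀ i : Fin 2, IntCoeff c
      (PowerSeries.subst (MvPowerSeries.X i : MvPowerSeries (Fin 2) R) ψ) := fun i =>
    hi.subst (fun _ => intCoeff_X i) (fun _ => constantCoeff_X i)
  have h := congrArg (fun f => evalC p c f ![u, v]) hψ.2
  rw [evalC_subst₁ hi hG G.zero_constantCoeff hx, evalC_fgl_subst hG' (hXi 0) (hXi 1) (hX 0)
    (hX 1) hx, evalC_subst₁ hi (intCoeff_X _) (constantCoeff_X _) hx,
    evalC_subst₁ hi (intCoeff_X _) (constantCoeff_X _) hx] at h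
  simpa [evalC_X, fadd] using h

/-- A relation between points respected by two laws is respected by combinations. -/
theorem rel_combination {R' : Type*} [CommRing R'] {c' : R' →+* C p} {G' : FormalGroup R'}
    (hG : IntCoeff c G.toPowerSeries) (hG' : IntCoeff c' G'.toPowerSeries)
    (Rel : C p → C p → Prop) (h0 : Rel 0 0)
    (hpos : ∀ a a', Rel a a' → 0 < ord a ∧ 0 < ord a')
    (hadd : ∀ a a' b b', Rel a a' → Rel b b' → Rel (fadd p c G a b) (fadd p c' G' a' b')) :
    ∀ {r : ℕ} (m : Fin r → ℕ) (x y : Fin r → C p), (∀ s, Rel (x s) (y s)) →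
      Rel (fsum p c G fun s => eval₁C p c (mulSeries G (m s)) (x s))
        (fsum p c' G' fun s => eval₁C p c' (mulSeries G' (m s)) (y s)) := by
  have hmul : ∀ (k : ℕ) a a', Rel a a' →
      Rel (eval₁C p c (mulSeries G k) a) (eval₁C p c' (mulSeries G' k) a') := by
    intro k
    induction k with
    | zero => intro a a' _; rwa [eval₁C_mulSeries_zero, eval₁C_mulSeries_zero]
    | succ k ih =>
      intro a a' h
      rw [eval₁C_mulSeries_succ hG (hpos a a' h).1, eval₁C_mulSeries_succ hG' (hpos a a' h).2]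
      exact hadd _ _ _ _ h (ih a a' h)
  intro r
  induction r with
  | zero => intro m x y _; exact h0
  | succ r ih =>
    intro m x y h
    exact hadd _ _ _ _ (hmul _ _ _ (h 0))
      (ih (fun s => m s.succ) (fun s => x s.succ) (fun s => y s.succ) fun s => h s.succ)

/-! ### Limits -/

/-- The schedule q^l ε of the contraction. -/
def sched (q : ℕ) (ε : ℚ) (l : ℕ) : WithTop ℚ := ((q ^ l • ε : ℚ) : WithTop ℚ)

theorem sched_zero (q : ℕ) (ε : ℚ) : sched q ε 0 = (ε : WithTop ℚ) := by simp [sched]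

theorem sched_mono {q : ℕ} {ε : ℚ} (hq : 1 < q) (hε : 0 < ε) {a b : ℕ} (hab : a ≤ b) :
    sched q ε a ≤ sched q ε b :=
  WithTop.coe_le_coe.mpr (nsmul_le_nsmul_left hε.le (Nat.pow_le_pow_right (by omega) hab))

theorem exists_lt_sched {q : ℕ} {ε : ℚ} (hq : 1 < q) (hε : 0 < ε) (B : ℚ) :
    ∃ N, ∀ l ≥ N, (B : WithTop ℚ) < sched q ε l := by
  obtain ⟨N, hN⟩ := exists_nat_gt (B / ε)
  refine ⟨N, fun l hl => WithTop.coe_lt_coe.mpr ?_⟩
  rw [nsmul_eq_mul]
  have h1 : (N : ℚ) ≤ ((q ^ l : ℕ) : ℚ) := by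
    exact_mod_cast hl.trans (Nat.lt_pow_self hq).le
  exact ((div_lt_iff₀ hε).mp hN).trans_le (mul_le_mul_of_nonneg_right h1 hε.le)

theorem exists_limit {q : ℕ} {ε : ℚ} (hq : 1 < q) (hε : 0 < ε) (s : ℕ → C p)
    (h : ∀ l, sched q ε l ≤ ord (s (l + 1) - s l)) :
    ∃ w, ∀ l, sched q ε l ≤ ord (w - s l) := by
  classical
  set d : ℕ → C p := fun i => s (i + 1) - s i with hd
  have hnull : IsNull p d := fun B => by
    obtain ⟨N, hN⟩ := exists_lt_sched hq hε B
    refine (Set.finite_lt_nat N).subset fun i hi => ?_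
    by_contra hge
    exact not_lt.mpr ((h i).trans hi) (hN i (not_lt.mp hge))
  obtain ⟨S, hS⟩ := hnull.exists_hasSumC
  refine ⟨s 0 + S, fun k => ?_⟩
  have hfin := hasSumC_of_support_subset (p := p)
    (a := fun i => if i < k then d i else 0) (Finset.range k)
    fun i hi => if_neg fun h => hi (Finset.mem_range.mpr h)
  rw [Finset.sum_congr rfl (fun i hi => if_pos (Finset.mem_range.mp hi)), hd,
    Finset.sum_range_sub s] at hfin
  rw [show s 0 + S - s k = S - (s k - s 0) by ring]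
  refine (hS.sub hfin).le_ord fun i => ?_
  by_cases hik : i < k
  · simp [hd, hik]
  · simp only [hd, if_neg hik, sub_zero]
    exact (sched_mono hq hε (not_lt.mp hik)).trans (h i)

end Vale.Agent.P217.CharP
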