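import Vale.Agent.P217.CharP.Spec
import Vale.Agent.P217.CharP.PointCalc
import Vale.Agent.P217.Roots

/-!
P217, module M8, D1: the map iota on points: existence, additivity, naturality, surjectivity.
-/

open MvPowerSeries

noncomputable section

namespace Vale.Agent.P217.CharP

variable {p : ℕ} [Fact p.Prime]

/-- Multiplication by p on points. -/
def mulP (G : FormalGroup (C p)) : C p → C p :=
  eval₁C p (RingHom.id (C p)) (mulSeries G p)

/-- The approximations to iota. -/
def approx (n : ℕ) (G : FormalGroup (C p)) (V : C p) (l : ℕ) : C p :=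
  (mulP G)^[l] (powZ p V (-((n * l : ℕ) : ℤ)))

theorem isIota_iff {n : ℕ} {G : FormalGroup (C p)} {V w : C p} :
    IsIota p n G V w ↔
      ∀ B : ℚ, ∃ N : ℕ, ∀ l ≥ N, (B : WithTop ℚ) < ord (w - approx n G V l) := by
  simp only [IsIota, approx, mulP, Nat.cast_mul]

theorem intCoeff_mapC {σ : Type*} (f : MvPowerSeries σ (Kb p)) :
    IntCoeff (RingHom.id (C p)) (MvPowerSeries.map (HahnSeries.C : Kb p →+* C p) f) := fun d => by
  rw [RingHom.id_apply, MvPowerSeries.coeff_map]
  exact ord_C_nonneg _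

variable {n h : ℕ} {ε : ℚ} {Γ : FormalGroup (Kb p)} {G G' : FormalGroup (C p)}

namespace Good

theorem q_gt (hg : Good p n h ε Γ G) : 1 < p ^ h :=
  Nat.one_lt_pow (by have := hg.one_le; omega) (Fact.out : p.Prime).one_lt

theorem pn_gt (hg : Good p n h ε Γ G) : 1 < p ^ n :=
  Nat.one_lt_pow (by have := hg.lt; omega) (Fact.out : p.Prime).one_lt

theorem intG (hg : Good p n h ε Γ G) : IntCoeff (RingHom.id (C p)) G.toPowerSeries := hg.int

theorem intP (hg : Good p n h ε Γ G) :
    IntCoeff (RingHom.id (C p)) (mulSeries G p : MvPowerSeries Unit (C p)) :=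
  intCoeff_mulSeries hg.intG p

theorem mulP_pos (hg : Good p n h ε Γ G) {u : C p} (hu : 0 < ord u) : 0 < ord (mulP G u) :=
  ord_eval₁C_pos hg.intP (mulSeries_constantCoeff G p) hu

theorem mulP_zero (hg : Good p n h ε Γ G) : mulP G 0 = 0 :=
  eval₁C_zero_point hg.intP (mulSeries_constantCoeff G p)

theorem iterate_pos (hg : Good p n h ε Γ G) {u : C p} (hu : 0 < ord u) :
    ∀ l, 0 < ord ((mulP G)^[l] u)
  | 0 => hu
  | l + 1 => by
    rw [Function.iterate_succ_apply']
    exact hg.mulP_pos (hg.iterate_pos hu l)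

/-- Multiplication by p is a series in the q-th power, with a simple linear term. -/
theorem exists_factor (hg : Good p n h ε Γ G) :
    ∃ g : PowerSeries (C p), IsHom (G.map (iterateFrobenius (C p) p h)) G g ∧
      PowerSeries.coeff 1 g ≠ 0 ∧
      (∀ i, PowerSeries.coeff i g = PowerSeries.coeff (p ^ h * i) (mulSeries G p)) ∧
      IntCoeff (RingHom.id (C p)) (g : MvPowerSeries Unit (C p)) ∧
      ∀ z, 0 < ord z → mulP G z = eval₁C p (RingHom.id (C p)) g (z ^ p ^ h) := by
  have := hg.comm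
  obtain ⟨g, hghom, hPg⟩ := IsHom.exists_expand p (mulSeries_isHom G p) h hg.low
  have hc : ∀ i, PowerSeries.coeff i g = PowerSeries.coeff (p ^ h * i) (mulSeries G p) := by
    intro i
    rw [hPg, PowerSeries.coeff_expand_mul]
  have hint : IntCoeff (RingHom.id (C p)) (g : MvPowerSeries Unit (C p)) :=
    intCoeff_iff₁.mpr fun i => by
      rw [hc]
      exact intCoeff_iff₁.mp hg.intP _
  refine ⟨g, hghom, ?_, hc, hint, fun z hz => ?_⟩
  · rw [hc, mul_one]
    exact hg.lead
  · show eval₁C p (RingHom.id (C p)) (mulSeries G p) z = _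
    have hq : p ^ h ≠ 0 := pow_ne_zero h (Fact.out : p.Prime).ne_zero
    have hX : IntCoeff (RingHom.id (C p))
        ((PowerSeries.X ^ p ^ h : PowerSeries (C p)) : MvPowerSeries Unit (C p)) :=
      (intCoeff_X ()).pow _
    rw [hPg, PowerSeries.expand_apply,
      eval₁C_subst hint hX (by rw [map_pow, PowerSeries.constantCoeff_X, zero_pow hq]) hz, eval₁C_X_pow]

theorem contract (hg : Good p n h ε Γ G) {u v : C p} (hu : 0 < ord u) (hv : 0 < ord v)
    {δ : WithTop ℚ} (hδ : δ ≤ ord (u - v)) : p ^ h • δ ≤ ord (mulP G u - mulP G v) := by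
  obtain ⟨g, -, -, -, hint, heval⟩ := hg.exists_factor
  have hpow : ∀ z : C p, 0 < ord z → 0 < ord (z ^ p ^ h) := fun z hz => by
    rw [← powZ_natCast]
    exact ord_powZ_pos hz _
  rw [heval u hu, heval v hv]
  refine le_ord_eval₁C_sub hint (hpow u hu) (hpow v hv) ?_
  rw [← sub_pow_char_pow, ord_pow]
  exact nsmul_le_nsmul_right hδ _

theorem contract_iterate (hg : Good p n h ε Γ G) {u v : C p} (hu : 0 < ord u) (hv : 0 < ord v)
    {δ : WithTop ℚ} (hδ : δ ≤ ord (u - v)) :
    ∀ l, (p ^ h) ^ l • δ ≤ ord ((mulP G)^[l] u - (mulP G)^[l] v)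
  | 0 => by simpa using hδ
  | l + 1 => by
    rw [Function.iterate_succ_apply', Function.iterate_succ_apply', pow_succ', mul_nsmul']
    exact hg.contract (hg.iterate_pos hu l) (hg.iterate_pos hv l)
      (hg.contract_iterate hu hv hδ l)

/-- Two starting points within ε give iterates within the schedule. -/
theorem sched_le (hg : Good p n h ε Γ G) {u v : C p} (hu : 0 < ord u) (hv : 0 < ord v)
    (hδ : (ε : WithTop ℚ) ≤ ord (u - v)) (l : ℕ) :
    sched (p ^ h) ε l ≤ ord ((mulP G)^[l] u - (mulP G)^[l] v) := by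
  rw [sched, WithTop.coe_nsmul]
  exact hg.contract_iterate hu hv hδ l

theorem le_ord_mulP_sub_pow (hg : Good p n h ε Γ G) {u : C p} (hu : 0 < ord u) :
    (ε : WithTop ℚ) ≤ ord (mulP G u - u ^ p ^ n) := by
  have hX : IntCoeff (RingHom.id (C p))
      ((PowerSeries.X ^ p ^ n : PowerSeries (C p)) : MvPowerSeries Unit (C p)) :=
    (intCoeff_X ()).pow _
  have h1 := eval₁C_sub hg.intP hX hu
  rw [eval₁C_X_pow] at h1
  show _ ≤ ord (eval₁C p (RingHom.id (C p)) (mulSeries G p) u - u ^ p ^ n)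
  rw [← h1]
  refine le_ord_evalC_of_coeff (hg.intP.sub hX) (fun _ => hu) fun d => ?_
  rw [show d = Finsupp.single () (d ()) from Finsupp.unique_single d]
  exact hg.close_p (d ())

theorem approx_step (hg : Good p n h ε Γ G) {V : C p} (hV : 0 < ord V) (l : ℕ) :
    sched (p ^ h) ε l ≤ ord (approx n G V (l + 1) - approx n G V l) := by
  set u := powZ p V (-((n * (l + 1) : ℕ) : ℤ)) with hu
  have hup : 0 < ord u := ord_powZ_pos hV _
  have hpow : u ^ p ^ n = powZ p V (-((n * l : ℕ) : ℤ)) := by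
    rw [hu, ← powZ_natCast, powZ_powZ]
    congr 1
    push_cast
    ring
  show _ ≤ ord ((mulP G)^[l + 1] u - (mulP G)^[l] (powZ p V (-((n * l : ℕ) : ℤ))))
  rw [Function.iterate_succ_apply, ← hpow]
  refine hg.sched_le (hg.mulP_pos hup) ?_ (hg.le_ord_mulP_sub_pow hup) l
  rw [hpow]
  exact ord_powZ_pos hV _

theorem isIota_of_le (hg : Good p n h ε Γ G) {V w : C p}
    (hw : ∀ l, sched (p ^ h) ε l ≤ ord (w - approx n G V l)) : IsIota p n G V w :=
  isIota_iff.mpr fun B => by
    obtain ⟨N, hN⟩ := exists_lt_sched hg.q_gt hg.eps_pos B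
    exact ⟨N, fun l hl => (hN l hl).trans_le (hw l)⟩

theorem exists_iota (hg : Good p n h ε Γ G) {V : C p} (hV : 0 < ord V) :
    ∃ w, 0 < ord w ∧ IsIota p n G V w ∧ ∀ l, sched (p ^ h) ε l ≤ ord (w - approx n G V l) := by
  obtain ⟨w, hw⟩ := exists_limit hg.q_gt hg.eps_pos _ (hg.approx_step hV)
  refine ⟨w, ?_, hg.isIota_of_le hw, hw⟩
  have h0 := hw 0
  rw [sched_zero, show approx n G V 0 = V by simp [approx, powZ_zero]] at h0
  rw [show w = w - V + V by ring]
  exact lt_ord_add ((WithTop.coe_pos.mpr hg.eps_pos).trans_le h0) hV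

end Good

theorem isIota_unique {n : ℕ} {G : FormalGroup (C p)} {V w w' : C p} (h : IsIota p n G V w)
    (h' : IsIota p n G V w') : w = w' := by
  refine eq_of_forall_lt_ord_sub fun B => ?_
  obtain ⟨N, hN⟩ := isIota_iff.mp h B
  obtain ⟨N', hN'⟩ := isIota_iff.mp h' B
  rw [show w - w' = (w - approx n G V (max N N')) - (w' - approx n G V (max N N')) by ring]
  exact lt_ord_sub (hN _ (le_max_left _ _)) (hN' _ (le_max_right _ _))

namespace Good

theorem iota_pos (hg : Good p n h ε Γ G) {V w : C p} (hV : 0 < ord V)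
    (hw : IsIota p n G V w) : 0 < ord w := by
  obtain ⟨w', hp, hw', -⟩ := hg.exists_iota hV
  rwa [isIota_unique hw hw']

theorem iota_bound (hg : Good p n h ε Γ G) {V w : C p} (hV : 0 < ord V)
    (hw : IsIota p n G V w) (l : ℕ) : sched (p ^ h) ε l ≤ ord (w - approx n G V l) := by
  obtain ⟨w', -, hw', hb⟩ := hg.exists_iota hV
  rw [isIota_unique hw hw']
  exact hb l

theorem approx_pos (hg : Good p n h ε Γ G) {V : C p} (hV : 0 < ord V) (l : ℕ) :
    0 < ord (approx n G V l) :=
  hg.iterate_pos (ord_powZ_pos hV _) l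

theorem iota_zero (hg : Good p n h ε Γ G) : IsIota p n G 0 0 := by
  refine hg.isIota_of_le fun l => ?_
  have : approx n G 0 l = 0 := by
    rw [approx, powZ_zero_left]
    exact Function.iterate_fixed hg.mulP_zero l
  rw [this, sub_self, ord_zero]
  exact le_top

theorem coeff_fix (hg : Good p n h ε Γ G) (d : Fin 2 →₀ ℕ) :
    MvPowerSeries.coeff d Γ.toPowerSeries ^ p ^ 1 = MvPowerSeries.coeff d Γ.toPowerSeries := by
  obtain ⟨-, L, hL, -⟩ := hg.honda
  rw [← hL, FormalGroup.map_toPowerSeries, MvPowerSeries.coeff_map, RingHom.comp_apply,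
    ← map_pow, pow_one, ZMod.pow_card]

theorem le_ord_fadd_sub_fadd (hg : Good p n h ε Γ G) {u v : C p} (hu : 0 < ord u)
    (hv : 0 < ord v) :
    (ε : WithTop ℚ) ≤
      ord (fadd p (RingHom.id (C p)) G u v - fadd p HahnSeries.C Γ u v) := by
  have hi := intCoeff_mapC (p := p) Γ.toPowerSeries
  have h1 : fadd p HahnSeries.C Γ u v = evalC p (RingHom.id (C p))
      (MvPowerSeries.map (HahnSeries.C : Kb p →+* C p) Γ.toPowerSeries) ![u, v] := by
    rw [evalC_map, RingHom.id_comp]
    rfl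
  rw [h1]
  show _ ≤ ord (evalC p (RingHom.id (C p)) G.toPowerSeries ![u, v] - _)
  rw [← evalC_sub hg.intG hi (vec2_pos hu hv)]
  refine le_ord_evalC_of_coeff (hg.intG.sub hi) (vec2_pos hu hv) fun d => ?_
  exact hg.close d

theorem mulP_fadd (hg : Good p n h ε Γ G) {u v : C p} (hu : 0 < ord u) (hv : 0 < ord v) :
    mulP G (fadd p (RingHom.id (C p)) G u v) =
      fadd p (RingHom.id (C p)) G (mulP G u) (mulP G v) := by
  have := hg.comm
  exact eval₁C_fadd (mulSeries_isHom G p) hg.intG hg.intG hg.intP hu hv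

theorem iterate_fadd (hg : Good p n h ε Γ G) {u v : C p} (hu : 0 < ord u) (hv : 0 < ord v) :
    ∀ l, (mulP G)^[l] (fadd p (RingHom.id (C p)) G u v) =
      fadd p (RingHom.id (C p)) G ((mulP G)^[l] u) ((mulP G)^[l] v)
  | 0 => rfl
  | l + 1 => by
    rw [Function.iterate_succ_apply', Function.iterate_succ_apply', Function.iterate_succ_apply',
      hg.iterate_fadd hu hv l, hg.mulP_fadd (hg.iterate_pos hu l) (hg.iterate_pos hv l)]

theorem fadd_powZ (hg : Good p n h ε Γ G) {u v : C p} (hu : 0 < ord u) (hv : 0 < ord v) (l : ℕ) :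
    powZ p (fadd p HahnSeries.C Γ u v) (-((n * l : ℕ) : ℤ)) =
      fadd p HahnSeries.C Γ (powZ p u (-((n * l : ℕ) : ℤ))) (powZ p v (-((n * l : ℕ) : ℤ))) := by
  have hfix : ∀ d, MvPowerSeries.coeff d Γ.toPowerSeries ^ p ^ n =
      MvPowerSeries.coeff d Γ.toPowerSeries := fun d => by
    simpa using pow_fix_iterate (hg.coeff_fix d) n
  rw [fadd, powZ_neg_evalC hfix (vec2_pos hu hv), fadd]
  congr 1
  funext i
  fin_cases i <;> rfl

theorem iota_add (hg : Good p n h ε Γ G) {V V' w w' : C p} (hV : 0 < ord V) (hV' : 0 < ord V')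
    (hw : IsIota p n G V w) (hw' : IsIota p n G V' w') :
    IsIota p n G (fadd p HahnSeries.C Γ V V') (fadd p (RingHom.id (C p)) G w w') := by
  refine hg.isIota_of_le fun l => ?_
  set a := powZ p V (-((n * l : ℕ) : ℤ))
  set b := powZ p V' (-((n * l : ℕ) : ℤ))
  have ha : 0 < ord a := ord_powZ_pos hV _
  have hb : 0 < ord b := ord_powZ_pos hV' _
  rw [approx, hg.fadd_powZ hV hV' l]
  rw [show fadd p (RingHom.id (C p)) G w w' - (mulP G)^[l] (fadd p HahnSeries.C Γ a b) =
      (fadd p (RingHom.id (C p)) G w w' -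
          fadd p (RingHom.id (C p)) G ((mulP G)^[l] a) ((mulP G)^[l] b)) +
        ((mulP G)^[l] (fadd p (RingHom.id (C p)) G a b) -
          (mulP G)^[l] (fadd p HahnSeries.C Γ a b)) by
      rw [hg.iterate_fadd ha hb l]; ring]
  refine le_ord_add ?_ ?_
  · exact le_ord_fadd_sub hg.intG (hg.iota_pos hV hw) (hg.iota_pos hV' hw')
      (hg.iterate_pos ha l) (hg.iterate_pos hb l) (hg.iota_bound hV hw l)
      (hg.iota_bound hV' hw' l)
  · exact hg.sched_le (ord_fadd_pos hg.intG ha hb) (ord_fadd_pos (intCoeff_residue _) ha hb)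
      (hg.le_ord_fadd_sub_fadd ha hb) l

theorem iota_hom (hg : Good p n h ε Γ G) (hg' : Good p n h ε Γ G') {ψ : PowerSeries (C p)}
    {g : PowerSeries (Kb p)} (hψ : IsHom G G' ψ) (hint : ∀ i, 0 ≤ ord (PowerSeries.coeff i ψ))
    (hg0 : PowerSeries.constantCoeff g = 0)
    (hfix : ∀ i, PowerSeries.coeff i g ^ (p ^ n) = PowerSeries.coeff i g)
    (hclose : ∀ i, (ε : WithTop ℚ) ≤
      ord (PowerSeries.coeff i ψ - HahnSeries.C (PowerSeries.coeff i g)))
    {V w : C p} (hV : 0 < ord V) (hw : IsIota p n G V w) :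
    IsIota p n G' (eval₁C p HahnSeries.C g V) (eval₁C p (RingHom.id (C p)) ψ w) := by
  have iψ : IntCoeff (RingHom.id (C p)) (ψ : MvPowerSeries Unit (C p)) :=
    intCoeff_iff₁.mpr hint
  have ig : IntCoeff (RingHom.id (C p))
      ((PowerSeries.map (HahnSeries.C : Kb p →+* C p) g) : MvPowerSeries Unit (C p)) :=
    intCoeff_mapC _
  have hcomm : ∀ u, 0 < ord u →
      eval₁C p (RingHom.id (C p)) ψ (mulP G u) = mulP G' (eval₁C p (RingHom.id (C p)) ψ u) := by
    intro u hu
    have h1 := congrArg (fun f => eval₁C p (RingHom.id (C p)) f u) (hψ.subst_mulSeries p)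
    rwa [eval₁C_subst iψ hg.intP (mulSeries_constantCoeff G p) hu,
      eval₁C_subst hg'.intP iψ hψ.1 hu] at h1
  have hiter : ∀ l u, 0 < ord u → eval₁C p (RingHom.id (C p)) ψ ((mulP G)^[l] u) =
      (mulP G')^[l] (eval₁C p (RingHom.id (C p)) ψ u) := by
    intro l
    induction l with
    | zero => intro u _; rfl
    | succ l ih =>
      intro u hu
      rw [Function.iterate_succ_apply', Function.iterate_succ_apply',
        hcomm _ (hg.iterate_pos hu l), ih u hu]
  refine hg'.isIota_of_le fun l => ?_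
  set a := powZ p V (-((n * l : ℕ) : ℤ))
  have ha : 0 < ord a := ord_powZ_pos hV _
  have hga : powZ p (eval₁C p HahnSeries.C g V) (-((n * l : ℕ) : ℤ)) =
      eval₁C p HahnSeries.C g a := by
    refine powZ_neg_evalC (fun d => ?_) (fun _ => hV) l
    rw [show d = Finsupp.single () (d ()) from Finsupp.unique_single d]
    exact hfix (d ())
  rw [approx, hga]
  rw [show eval₁C p (RingHom.id (C p)) ψ w - (mulP G')^[l] (eval₁C p HahnSeries.C g a) =
      (eval₁C p (RingHom.id (C p)) ψ w -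
          eval₁C p (RingHom.id (C p)) ψ ((mulP G)^[l] a)) +
        ((mulP G')^[l] (eval₁C p (RingHom.id (C p)) ψ a) -
          (mulP G')^[l] (eval₁C p HahnSeries.C g a)) by
      rw [hiter l a ha]; ring]
  refine le_ord_add ?_ ?_
  · exact le_ord_eval₁C_sub iψ (hg.iota_pos hV hw) (hg.iterate_pos ha l)
      (hg.iota_bound hV hw l)
  · refine hg'.sched_le (ord_eval₁C_pos iψ hψ.1 ha)
      (ord_eval₁C_pos (intCoeff_residue _) hg0 ha) ?_ l
    have h1 := eval₁C_sub iψ ig ha
    rw [evalC_map₁ (c := RingHom.id (C p)), RingHom.id_comp] at h1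
    rw [← h1]
    refine le_ord_evalC_of_coeff (iψ.sub ig) (fun _ => ha) fun d => ?_
    rw [show d = Finsupp.single () (d ()) from Finsupp.unique_single d]
    show _ ≤ ord (PowerSeries.coeff (d ()) (ψ - PowerSeries.map (HahnSeries.C : Kb p →+* C p) g))
    rw [map_sub, PowerSeries.coeff_map]
    exact hclose (d ())

theorem iota_pow (hg : Good p n h ε Γ G) {V w : C p} (hV : 0 < ord V)
    (hw : IsIota p n G V w) : IsIota p n G (V ^ p ^ n) (mulP G w) := by
  refine hg.isIota_of_le fun l => ?_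
  set a := powZ p V (-((n * l : ℕ) : ℤ))
  have ha : 0 < ord a := ord_powZ_pos hV _
  have hapow : 0 < ord (a ^ p ^ n) := by
    rw [← powZ_natCast]
    exact ord_powZ_pos ha _
  rw [approx, powZ_pow_comm]
  rw [show mulP G w - (mulP G)^[l] (a ^ p ^ n) =
      (mulP G w - mulP G ((mulP G)^[l] a)) +
        ((mulP G)^[l] (mulP G a) - (mulP G)^[l] (a ^ p ^ n)) by
      rw [← Function.iterate_succ_apply, Function.iterate_succ_apply']; ring]
  refine le_ord_add ?_ ?_
  · exact le_ord_eval₁C_sub hg.intP (hg.iota_pos hV hw) (hg.iterate_pos ha l)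
      (hg.iota_bound hV hw l)
  · exact hg.sched_le (hg.mulP_pos ha) hapow (hg.le_ord_mulP_sub_pow ha) l

/-- The factor of multiplication by p has residual degree p^(n - h). -/
theorem residual_degree (hg : Good p n h ε Γ G) {g : PowerSeries (C p)}
    (hc : ∀ i, PowerSeries.coeff i g = PowerSeries.coeff (p ^ h * i) (mulSeries G p)) :
    (∀ i < p ^ (n - h), 0 < ord (PowerSeries.coeff i g)) ∧
      ord (PowerSeries.coeff (p ^ (n - h)) g) = 0 := by
  have hqD : p ^ h * p ^ (n - h) = p ^ n := by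
    rw [← pow_add, Nat.add_sub_cancel' hg.lt.le]
  refine ⟨fun i hi => ?_, ?_⟩
  · have hne : p ^ h * i ≠ p ^ n := by
      rw [← hqD]
      exact (Nat.mul_lt_mul_of_pos_left hi (pow_pos (Fact.out : p.Prime).pos h)).ne
    have h1 := hg.close_p (p ^ h * i)
    rw [map_sub, PowerSeries.coeff_X_pow, if_neg hne, sub_zero] at h1
    rw [hc]
    exact (WithTop.coe_pos.mpr hg.eps_pos).trans_le h1
  · have h1 := hg.close_p (p ^ n)
    rw [map_sub, PowerSeries.coeff_X_pow, if_pos rfl] at h1
    rw [hc, hqD, show PowerSeries.coeff (p ^ n) (mulSeries G p) =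
      1 + (PowerSeries.coeff (p ^ n) (mulSeries G p) - 1) by ring]
    refine (HahnSeries.orderTop_add_eq_left ?_).trans ord_one
    show ord (1 : C p) < _
    rw [ord_one]
    exact (WithTop.coe_pos.mpr hg.eps_pos).trans_le h1

theorem exists_preimage (hg : Good p n h ε Γ G) {W : C p} (hW : 0 < ord W) :
    ∃ z, 0 < ord z ∧ mulP G z = W := by
  obtain ⟨g, hghom, -, hc, hint, heval⟩ := hg.exists_factor
  obtain ⟨hlow, hD⟩ := hg.residual_degree hc
  have iC : IntCoeff (RingHom.id (C p))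
      ((PowerSeries.C W : PowerSeries (C p)) : MvPowerSeries Unit (C p)) := intCoeff_C hW.le
  have hlow' : ∀ i < p ^ (n - h), 0 < ord (PowerSeries.coeff i (g - PowerSeries.C W)) := by
    intro i hi
    rw [map_sub, PowerSeries.coeff_C]
    split_ifs with h0
    · exact lt_ord_sub (hlow i hi) hW
    · rw [sub_zero]; exact hlow i hi
  have hD' : ord (PowerSeries.coeff (p ^ (n - h)) (g - PowerSeries.C W)) = 0 := by
    rw [map_sub, PowerSeries.coeff_C,
      if_neg (pow_ne_zero _ (Fact.out : p.Prime).ne_zero), sub_zero]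
    exact hD
  obtain ⟨s, U, hcard, -, -, hmem, -⟩ := exists_roots (hint.sub iC) hlow' hD'
  obtain ⟨u, hu⟩ := Multiset.card_pos_iff_exists_mem.mp
    (hcard ▸ pow_pos (Fact.out : p.Prime).pos (n - h))
  obtain ⟨hup, hu0⟩ := (hmem u).mp hu
  refine ⟨powZ p u (-(h : ℤ)), ord_powZ_pos hup _, ?_⟩
  rw [heval _ (ord_powZ_pos hup _), powZ_neg_pow]
  rw [eval₁C_sub hint iC hup, sub_eq_zero] at hu0
  rw [hu0]
  exact evalC_C _

theorem iota_surj (hg : Good p n h ε Γ G) {W : C p} (hW : 0 < ord W) :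
    ∃ V : C p, 0 < ord V ∧ IsIota p n G V W := by
  have hex : ∀ X : C p, ∃ z, 0 < ord X → 0 < ord z ∧ mulP G z = X := fun X => by
    by_cases hX : 0 < ord X
    · obtain ⟨z, hz⟩ := hg.exists_preimage hX
      exact ⟨z, fun _ => hz⟩
    · exact ⟨0, fun h => absurd h hX⟩
  choose f hf using hex
  set z : ℕ → C p := fun m => f^[m] W with hz
  have hzpos : ∀ m, 0 < ord (z m) := by
    intro m
    induction m with
    | zero => exact hW
    | succ m ih =>
      rw [hz]
      simp only [Function.iterate_succ_apply']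
      exact (hf _ ih).1
  have hzstep : ∀ m, mulP G (z (m + 1)) = z m := fun m => by
    rw [hz]
    simp only [Function.iterate_succ_apply']
    exact (hf _ (hzpos m)).2
  have hziter : ∀ m, (mulP G)^[m] (z m) = W := by
    intro m
    induction m with
    | zero => rfl
    | succ m ih => rw [Function.iterate_succ_apply, hzstep, ih]
  obtain ⟨V, hV⟩ := exists_limit hg.pn_gt hg.eps_pos (fun m => z m ^ p ^ (n * m)) fun m => by
    show _ ≤ ord (z (m + 1) ^ p ^ (n * (m + 1)) - z m ^ p ^ (n * m))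
    rw [Nat.mul_succ, show p ^ (n * m + n) = p ^ n * p ^ (n * m) by ring, pow_mul,
      ← sub_pow_char_pow, ord_pow, sched, ← pow_mul, WithTop.coe_nsmul]
    refine nsmul_le_nsmul_right ?_ _
    rw [← hzstep m, ← ord_neg, neg_sub]
    exact hg.le_ord_mulP_sub_pow (hzpos (m + 1))
  have hVpos : 0 < ord V := by
    have h0 := hV 0
    rw [sched_zero] at h0
    simp only [mul_zero, pow_zero, pow_one] at h0
    rw [show V = V - z 0 + z 0 by ring]
    exact lt_ord_add ((WithTop.coe_pos.mpr hg.eps_pos).trans_le h0) (hzpos 0)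
  refine ⟨V, hVpos, hg.isIota_of_le fun l => ?_⟩
  have hclose : (ε : WithTop ℚ) ≤ ord (powZ p V (-((n * l : ℕ) : ℤ)) - z l) := by
    refine le_ord_of_le_ord_pow (k := p ^ (n * l)) (pow_ne_zero _ (Fact.out : p.Prime).ne_zero) ?_
    rw [sub_pow_char_pow, powZ_neg_pow]
    have h1 := hV l
    rwa [sched, ← pow_mul] at h1
  have h2 := hg.sched_le (ord_powZ_pos hVpos _) (hzpos l) hclose l
  rw [hziter] at h2
  rw [approx, ← ord_neg, neg_sub]
  exact h2

end Good

variable (p)

theorem iotaExists : IotaExistsStatement p := by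
  intro n h ε Γ G hg
  refine ⟨fun V hV => ?_, fun V w hV hw => hg.iota_pos hV hw⟩
  obtain ⟨w, -, hw, -⟩ := hg.exists_iota hV
  exact ⟨w, hw, fun w' hw' => isIota_unique hw' hw⟩

theorem iotaAdd : IotaAddStatement p :=
  fun _ _ _ _ _ hg _ _ _ _ hV hV' hw hw' => hg.iota_add hV hV' hw hw'

theorem iotaHom : IotaHomStatement p :=
  fun _ _ _ _ _ _ hg hg' _ _ hψ hint hg0 hfix hclose _ _ hV hw =>
    hg.iota_hom hg' hψ hint hg0 hfix hclose hV hw

theorem iotaPow : IotaPowStatement p :=
  fun _ _ _ _ _ hg _ _ hV hw => hg.iota_pow hV hw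

theorem iotaSurj : IotaSurjStatement p :=
  fun _ _ _ _ _ hg _ hW => hg.iota_surj hW

end Vale.Agent.P217.CharP
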