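import Vale.Agent.P217.CharP.Chi
import Vale.Agent.P217.CharP.Iota

/-!
P217, module M8: the series of iota at a basis of its kernel form a chart.
-/

open MvPowerSeries

noncomputable section

namespace Vale.Agent.P217.CharP

variable {p n : ℕ} [Fact p.Prime]

theorem coeff_single_mul {σ R : Type*} [CommRing R] (t : σ) (a b : MvPowerSeries σ R) :
    MvPowerSeries.coeff (Finsupp.single t 1) (a * b) =
      constantCoeff a * MvPowerSeries.coeff (Finsupp.single t 1) b +
        MvPowerSeries.coeff (Finsupp.single t 1) a * constantCoeff b := by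
  classical
  rw [MvPowerSeries.coeff_mul, Finsupp.antidiagonal_single]
  simp [Finset.Nat.antidiagonal_succ, MvPowerSeries.coeff_zero_eq_constantCoeff_apply]

/-- Series with constant and one linear coefficient of positive valuation. -/
def linIdeal {T : Type*} (t : T) : Ideal (MvPowerSeries T (OC p)) where
  carrier := {a | 0 < ordO (constantCoeff a) ∧
    0 < ordO (MvPowerSeries.coeff (Finsupp.single t 1) a)}
  add_mem' {a b} ha hb := by
    refine ⟨?_, ?_⟩
    · rw [map_add, ordO, Subring.coe_add]
      exact lt_ord_add ha.1 hb.1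
    · rw [map_add, ordO, Subring.coe_add]
      exact lt_ord_add ha.2 hb.2
  zero_mem' := by
    refine ⟨?_, ?_⟩ <;> · rw [map_zero]; exact ordO_zero_pos
  smul_mem' r {a} ha := by
    refine ⟨?_, ?_⟩
    · rw [smul_eq_mul, map_mul, ordO, Subring.coe_mul, ord_mul]
      exact lt_of_lt_of_le ha.1 (le_add_of_nonneg_left (ordO_nonneg _))
    · rw [smul_eq_mul, coeff_single_mul, ordO, Subring.coe_add, Subring.coe_mul, Subring.coe_mul]
      refine lt_ord_add ?_ ?_
      · rw [ord_mul]; exact lt_of_lt_of_le ha.2 (le_add_of_nonneg_left (ordO_nonneg _))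
      · rw [ord_mul]; exact lt_of_lt_of_le ha.1 (le_add_of_nonneg_left (ordO_nonneg _))

theorem mul_mem_degIdeal_two {T : Type*} {a b : MvPowerSeries T (OC p)}
    (ha : a ∈ degIdeal 1) (hb : b ∈ degIdeal 1) : a * b ∈ degIdeal 2 := by
  classical
  intro d hd
  rw [MvPowerSeries.coeff_mul]
  refine Finset.sum_eq_zero fun x hx => ?_
  have hsum := congrArg Finsupp.degree (Finset.HasAntidiagonal.mem_antidiagonal.1 hx)
  rw [map_add] at hsum
  rcases Nat.eq_zero_or_pos x.1.degree with h | h
  · rw [ha x.1 (by omega), zero_mul]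
  · rw [hb x.2 (by omega), mul_zero]

theorem mem_degIdeal_one {T : Type*} {a : MvPowerSeries T (OC p)} (h : constantCoeff a = 0) :
    a ∈ degIdeal 1 := by
  intro d hd
  obtain rfl : d = 0 := (Finsupp.degree_eq_zero_iff d).1 (by omega)
  rw [MvPowerSeries.coeff_zero_eq_constantCoeff_apply, h]

namespace Setup

variable (S : Setup p n)

theorem step_congr_const (w : S.Pnt)
    (hc : 0 < ordO (constantCoeff
      (MvPowerSeries.C (constantCoeff w.1) : MvPowerSeries S.Free (OC p)))) :
    (S.step w).1 - (S.step ⟨MvPowerSeries.C (constantCoeff w.1), hc⟩).1 ∈ degIdeal 2 := by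
  refine S.step_sub_mem (fun ε hε => isClosedFil_degIdeal hε 2) ?_
  have hq : 2 ≤ p ^ S.h :=
    (Fact.out : p.Prime).two_le.trans (Nat.le_self_pow (by have := S.one_le_h; omega) p)
  obtain ⟨m, hm⟩ := Nat.exists_eq_add_of_le hq
  rw [hm, pow_add, pow_two]
  exact Ideal.mul_mem_right _ _ (mul_mem_degIdeal_two (mem_degIdeal_one (by simp))
    (mem_degIdeal_one (by simp)))

/-- The derivative of multiplication by p in a free coordinate, as a series in the point. -/
def dSeries (t : S.Free) : PowerSeries (C p) :=
  PowerSeries.map (OC p).subtype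
    (slice (σ := Unit) (Finsupp.single t 1) (mulSeries S.law p))

theorem coeff_dSeries (t : S.Free) (m : ℕ) :
    PowerSeries.coeff m (S.dSeries t) =
      ((MvPowerSeries.coeff (Finsupp.single t 1)
        (PowerSeries.coeff m (mulSeries S.law p)) : OC p) : C p) := rfl

theorem coeff_step_const (t : S.Free) {y : OC p} (hy : 0 < ordO y)
    (hc : 0 < ordO (constantCoeff (MvPowerSeries.C y : MvPowerSeries S.Free (OC p)))) :
    ((MvPowerSeries.coeff (Finsupp.single t 1) (S.step ⟨MvPowerSeries.C y, hc⟩).1 : OC p) : C p) =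
      eval₁C p (RingHom.id (C p)) (S.dSeries t) (y : C p) := by
  show ((MvPowerSeries.coeff _ (evA _ _ _) : OC p) : C p) = _
  rw [coeff_evA_const (fun _ : Unit => hy), coe_evO, eval₁C, dSeries]
  exact (evalC_map (OC p).subtype (RingHom.id (C p)) _ _).symm

theorem coeff_chi_linear (t : S.Free) {V z : C p} (hV : 0 < ord V)
    (hz : IsIota p n S.base.law (powZ p V (-(n : ℤ))) z) :
    ((MvPowerSeries.coeff (Finsupp.single t 1) (S.chi V hV) : OC p) : C p) =
      eval₁C p (RingHom.id (C p)) (S.dSeries t) z := by
  set V' := powZ p V (-(n : ℤ))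
  set W : S.Pnt := ⟨S.chi V' (ord_powZ_pos hV _), S.chi_pos _⟩ with hW
  have hc : 0 < ordO (constantCoeff
      (MvPowerSeries.C (constantCoeff W.1) : MvPowerSeries S.Free (OC p))) := by
    simpa using W.2
  have hzW : z = ((constantCoeff W.1 : OC p) : C p) := by
    refine isIota_unique hz ?_
    have h := S.isIota_chi (base_small S) (ord_powZ_pos hV (-(n : ℤ)))
    rwa [show evO S.base.d S.base.pos (S.chi V' (ord_powZ_pos hV _)) = constantCoeff W.1 from
      evO_zero _] at h
  have h := S.step_congr_const W hc (Finsupp.single t 1) (by simp)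
  rw [map_sub, sub_eq_zero] at h
  rw [S.chi_eq_step hV, hzW, ← S.coeff_step_const t W.2 hc]
  exact congrArg (fun u : OC p => (u : C p)) h

theorem dSeries_int (t : S.Free) (m : ℕ) : 0 ≤ ord (PowerSeries.coeff m (S.dSeries t)) := by
  rw [coeff_dSeries]
  exact ordO_nonneg _

theorem dSeries_support (t : S.Free) {m : ℕ} (hm : ¬ p ^ S.h ∣ m) :
    PowerSeries.coeff m (S.dSeries t) = 0 := by
  rw [coeff_dSeries, S.g_spec, PowerSeries.coeff_expand, if_neg hm]
  simp

theorem dSeries_additive (t : S.Free) {y y' : C p} (hy : 0 < ord y) (hy' : 0 < ord y')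
    (h0 : eval₁C p (RingHom.id (C p)) (mulSeries S.base.law p) y = 0)
    (h0' : eval₁C p (RingHom.id (C p)) (mulSeries S.base.law p) y' = 0) :
    eval₁C p (RingHom.id (C p)) (S.dSeries t)
        (fadd p (RingHom.id (C p)) S.base.law y y') =
      eval₁C p (RingHom.id (C p)) (S.dSeries t) y +
        eval₁C p (RingHom.id (C p)) (S.dSeries t) y' := by
  classical
  set Y : OC p := ⟨y, hy.le⟩ with hY
  set Y' : OC p := ⟨y', hy'.le⟩ with hY'
  have hYc : 0 < ordO (constantCoeff (MvPowerSeries.C Y : MvPowerSeries S.Free (OC p))) := by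
    simpa [ordO, hY] using hy
  have hY'c : 0 < ordO (constantCoeff (MvPowerSeries.C Y' : MvPowerSeries S.Free (OC p))) := by
    simpa [ordO, hY'] using hy'
  have hvec : ∀ i, 0 < ordO (constantCoeff
      ((![MvPowerSeries.C Y, MvPowerSeries.C Y'] : Fin 2 → MvPowerSeries S.Free (OC p)) i)) :=
    fun i => by fin_cases i <;> assumption
  set P := mulSeries S.law p with hP
  have hP0 : PowerSeries.constantCoeff P = 0 := constantCoeff_mulSeries S.law p
  set W : S.Pnt := ⟨evA _ hvec S.law.toPowerSeries,
    constantCoeff_evA_pos' hvec S.law.zero_constantCoeff⟩ with hW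
  set a := (S.step ⟨MvPowerSeries.C Y, hYc⟩).1 with ha
  set b := (S.step ⟨MvPowerSeries.C Y', hY'c⟩).1 with hb
  -- multiplication by p is a homomorphism
  have hX : ∀ i : Fin 2, constantCoeff (PowerSeries.subst (MvPowerSeries.X i :
      MvPowerSeries (Fin 2) (MvPowerSeries S.Free (OC p))) P) = 0 := fun i =>
    PowerSeries.constantCoeff_subst_eq_zero (by simp) P hP0
  have hhom := congrArg (evA _ hvec) (mulSeries_isHom S.law p).2
  rw [evA_subst1 hvec S.law.zero_constantCoeff, evA_subst hvec (fun i => by
    fin_cases i <;> [exact hX 0; exact hX 1])] at hhom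
  have hab : ∀ i, 0 < ordO (constantCoeff
      ((![a, b] : Fin 2 → MvPowerSeries S.Free (OC p)) i)) := fun i => by
    fin_cases i <;> [exact (S.step _).2; exact (S.step _).2]
  have hhom' : (S.step W).1 = evA ![a, b] hab S.law.toPowerSeries := by
    refine hhom.trans (evA_congr (funext fun i => ?_) _)
    fin_cases i
    · refine (evA_subst1 hvec (φ := MvPowerSeries.X (0 : Fin 2)) (by simp) P).trans ?_
      exact ev1_congr (by simp) _
    · refine (evA_subst1 hvec (φ := MvPowerSeries.X (1 : Fin 2)) (by simp) P).trans ?_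
      exact ev1_congr (by simp) _
  -- the two values vanish at the base point
  have hzero : ∀ (u : OC p) (hu : 0 < ordO (constantCoeff
      (MvPowerSeries.C u : MvPowerSeries S.Free (OC p)))),
      eval₁C p (RingHom.id (C p)) (mulSeries S.base.law p) (u : C p) = 0 →
      constantCoeff (S.step ⟨MvPowerSeries.C u, hu⟩).1 = 0 := by
    intro u hu h
    rw [← evO_zero]
    refine Subtype.ext ?_
    show ((evO S.base.d S.base.pos _ : OC p) : C p) = 0
    rw [coe_evO_step]
    simpa using h
  have ha0 : a ∈ degIdeal 1 := mem_degIdeal_one (hzero Y hYc h0)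
  have hb0 : b ∈ degIdeal 1 := mem_degIdeal_one (hzero Y' hY'c h0')
  -- the law is addition to first order
  have hlin : evA ![a, b] hab S.law.toPowerSeries - (a + b) ∈ degIdeal 2 := by
    have hmem : S.law.toPowerSeries - (MvPowerSeries.X 0 + MvPowerSeries.X 1) ∈
        Ideal.span (Set.range (MvPowerSeries.X :
          Fin 2 → MvPowerSeries (Fin 2) (MvPowerSeries S.Free (OC p)))) ^ 2 := by
      refine mem_span_X_pow 2 _ fun d hd => ?_
      rcases Nat.lt_or_ge d.degree 1 with h | h
      · obtain rfl : d = 0 := (Finsupp.degree_eq_zero_iff d).1 (by omega)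
        simp [MvPowerSeries.coeff_zero_eq_constantCoeff_apply, S.law.zero_constantCoeff]
      · obtain ⟨i, rfl⟩ : ∃ i : Fin 2, d = Finsupp.single i 1 := by
          have hdeg : d 0 + d 1 = 1 := by
            have h1 : d.degree = 1 := by omega
            rw [Finsupp.degree_eq_sum, Fin.sum_univ_two] at h1
            exact h1
          rcases Nat.eq_zero_or_pos (d 0) with h0 | h0
          · exact ⟨1, Finsupp.ext fun i => by fin_cases i <;> simp <;> omega⟩
          · exact ⟨0, Finsupp.ext fun i => by fin_cases i <;> simp <;> omega⟩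
        fin_cases i <;>
          simp [MvPowerSeries.coeff_X, S.law.lin_coeff_X, S.law.lin_coeff_Y,
            Finsupp.single_eq_single_iff]
    have hle : Ideal.map (evA ![a, b] hab) (Ideal.span (Set.range (MvPowerSeries.X :
        Fin 2 → MvPowerSeries (Fin 2) (MvPowerSeries S.Free (OC p))))) ≤ degIdeal 1 := by
      rw [Ideal.map_span, Ideal.span_le]
      rintro x ⟨y, ⟨i, rfl⟩, rfl⟩
      fin_cases i <;> simp [ha0, hb0]
    have hsq : (degIdeal (p := p) (T := S.Free) 1) ^ 2 ≤ degIdeal 2 := by
      rw [pow_two, Ideal.mul_le]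
      exact fun u hu v hv => mul_mem_degIdeal_two hu hv
    have h := hsq (Ideal.pow_right_mono hle 2 (by
      rw [← Ideal.map_pow]; exact Ideal.mem_map_of_mem _ hmem))
    simpa using h
  have hc : 0 < ordO (constantCoeff
      (MvPowerSeries.C (constantCoeff W.1) : MvPowerSeries S.Free (OC p))) := by
    simpa using W.2
  have h1 := S.step_congr_const W hc (Finsupp.single t 1) (by simp)
  have h2 := hlin (Finsupp.single t 1) (by simp)
  rw [map_sub, sub_eq_zero] at h1 h2
  rw [hhom', h2, map_add] at h1
  have h3 := congrArg (fun u : OC p => (u : C p)) h1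
  simp only [Subring.coe_add, ha, hb] at h3
  rw [S.coeff_step_const t (by simpa [ordO, hY] using hy) hYc,
    S.coeff_step_const t (by simpa [ordO, hY'] using hy') hY'c,
    S.coeff_step_const t W.2 hc] at h3
  refine Eq.trans ?_ h3.symm
  congr 1
  rw [hW, constantCoeff_evA, coe_evO, evalC_map, Near.law, law]
  show evalC p _ (MvPowerSeries.map _ S.F.toPowerSeries) _ =
    evalC p _ (MvPowerSeries.map _ S.F.toPowerSeries) _
  rw [evalC_map, evalC_map, show S.base.hom = constantCoeff.comp S.tay from
    RingHom.ext fun e => evO_zero _]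
  congr 1
  funext i
  fin_cases i <;> simp [hY, hY']

theorem tay_mem_linIdeal (t : S.Free) {e : E p n}
    (he : e ∈ heightIdeal p n ((t.1 : ℕ) + 1)) : S.tay e ∈ linIdeal t := by
  have hle : heightIdeal p n ((t.1 : ℕ) + 1) ≤ Ideal.comap S.tay (linIdeal t) := by
    rw [heightIdeal, Ideal.span_le]
    rintro y (rfl | ⟨j, hj, rfl⟩)
    · simp [S.tay_natCast_p]
    · show S.tay (u p n j) ∈ linIdeal t
      rw [tay_u, coord]
      split_ifs with hji
      · have hne : (⟨j, hji⟩ : S.Free) ≠ t := fun h => by rw [← h] at hj; simp at hj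
        refine ⟨by simpa [a] using S.pos j, ?_⟩
        classical
        simp [MvPowerSeries.coeff_C, MvPowerSeries.coeff_X, Finsupp.single_eq_single_iff,
          Ne.symm hne, ordO_zero_pos]
      · exact zero_mem _
  exact hle he

theorem ord_coeff_dSeries_pos (t : S.Free) {m : ℕ} (hm : m < p ^ ((t.1 : ℕ) + 1)) :
    0 < ord (PowerSeries.coeff m (S.dSeries t)) := by
  rw [coeff_dSeries, coeff_mulSeries_law]
  exact (S.tay_mem_linIdeal t ((S.nice.standard.1 t.1).1 m hm)).2

theorem ord_coeff_dSeries_self (t : S.Free) :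
    0 < ord (PowerSeries.coeff (p ^ ((t.1 : ℕ) + 1)) (S.dSeries t) - 1) := by
  classical
  have h := (S.tay_mem_linIdeal t ((S.nice.standard.1 t.1).2)).2
  rw [map_sub, tay_u, coord, dif_pos t.2, map_sub] at h
  rw [coeff_dSeries, coeff_mulSeries_law]
  simpa [MvPowerSeries.coeff_C, Finsupp.single_ne_zero, ordO] using h

/-- The linear parts of iota at a basis of the kernel form an invertible matrix. -/
theorem chart_bijective {w z : Fin (n - S.h) → C p} (hw : ∀ s, 0 < ord (w s))
    (hz : ∀ s, IsIota p n S.base.law (powZ p (w s) (-(n : ℤ))) (z s))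
    (htest : ∀ D : PowerSeries (C p), (∀ i, 0 ≤ ord (PowerSeries.coeff i D)) →
        (∀ i, ¬ p ^ S.h ∣ i → PowerSeries.coeff i D = 0) →
        (∀ y y' : C p, 0 < ord y → 0 < ord y' →
          eval₁C p (RingHom.id (C p)) (mulSeries S.base.law p) y = 0 →
          eval₁C p (RingHom.id (C p)) (mulSeries S.base.law p) y' = 0 →
          eval₁C p (RingHom.id (C p)) D (fadd p (RingHom.id (C p)) S.base.law y y') =
            eval₁C p (RingHom.id (C p)) D y + eval₁C p (RingHom.id (C p)) D y') →
        (∀ s, eval₁C p (RingHom.id (C p)) D (z s) = 0) →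
        ∀ i < p ^ n, 0 < ord (PowerSeries.coeff i D))
    (hzpos : ∀ s, 0 < ord (z s)) :
    Function.Bijective (fun c : S.Free → C p => fun s =>
      ∑ t, c t * MvPowerSeries.coeff (Finsupp.single t 1)
        (MvPowerSeries.map (OC p).subtype (S.chi (w s) (hw s)))) := by
  classical
  let L : (S.Free → C p) →ₗ[C p] (Fin (n - S.h) → C p) :=
    { toFun := fun c s => ∑ t, c t * MvPowerSeries.coeff (Finsupp.single t 1)
        (MvPowerSeries.map (OC p).subtype (S.chi (w s) (hw s)))
      map_add' := fun c c' => by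
        ext s; simp [add_mul, Finset.sum_add_distrib]
      map_smul' := fun r c => by
        ext s; simp [Finset.mul_sum, mul_assoc] }
  have hinj : Function.Injective L := by
    refine (injective_iff_map_eq_zero L).2 fun c hc => ?_
    by_contra hne
    -- normalise to integral coefficients with one coefficient equal to one
    obtain ⟨t₁, ht₁⟩ := Function.ne_iff.1 hne
    obtain ⟨t₀, ht₀, hmin⟩ : ∃ t₀, c t₀ ≠ 0 ∧ ∀ t, ord (c t₀) ≤ ord (c t) := by
      obtain ⟨t₀, -, h⟩ := Finset.exists_min_image Finset.univ (fun t => ord (c t))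
        ⟨t₁, Finset.mem_univ _⟩
      refine ⟨t₀, fun h0 => ?_, fun t => h t (Finset.mem_univ _)⟩
      have := h t₁ (Finset.mem_univ _)
      rw [h0, ord_zero, top_le_iff, ord_eq_top] at this
      exact ht₁ this
    set e : S.Free → C p := fun t => c t / c t₀ with he
    have he_int : ∀ t, 0 ≤ ord (e t) := by
      intro t
      have h : ord (c t) = ord (e t) + ord (c t₀) := by
        rw [← ord_mul, he, div_mul_cancel₀ _ ht₀]
      obtain ⟨q, hq⟩ := WithTop.ne_top_iff_exists.1 (mt ord_eq_top.1 ht₀)
      have h2 := hmin t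
      rw [h, ← hq] at h2
      cases hu : ord (e t) with
      | top => exact le_top
      | coe u =>
        rw [hu, ← WithTop.coe_add, WithTop.coe_le_coe] at h2
        exact WithTop.coe_nonneg.2 (by linarith)
    have he1 : e t₀ = 1 := div_self ht₀
    -- the least coordinate with a unit coefficient
    set U := Finset.univ.filter (fun t : S.Free => ¬ 0 < ord (e t)) with hU
    have hne' : U.Nonempty := ⟨t₀, by simp [hU, he1]⟩
    obtain ⟨t, ht, htmin⟩ := Finset.exists_min_image U (fun t => (t.1 : ℕ)) hne'
    have htord : ord (e t) = 0 :=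
      le_antisymm (not_lt.1 (Finset.mem_filter.1 ht).2) (he_int t)
    set D : PowerSeries (C p) := ∑ t, PowerSeries.C (e t) * S.dSeries t with hD
    have hDc : ∀ i, PowerSeries.coeff i D = ∑ t, e t * PowerSeries.coeff i (S.dSeries t) :=
      fun i => by rw [hD, map_sum]; simp
    have hint : ∀ t, IntCoeff (RingHom.id (C p))
        (PowerSeries.C (e t) * S.dSeries t : MvPowerSeries Unit (C p)) := fun t =>
      (intCoeff_C (σ := Unit) (c := RingHom.id (C p)) (he_int t)).mul
        (intCoeff_iff₁.2 fun m => S.dSeries_int t m)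
    have hval : ∀ y : C p, 0 < ord y → eval₁C p (RingHom.id (C p)) D y =
        ∑ t, e t * eval₁C p (RingHom.id (C p)) (S.dSeries t) y := by
      intro y hy
      rw [hD, eval₁C, evalC_sum _ (fun t => hint t) (fun _ => hy)]
      refine Finset.sum_congr rfl fun t _ => ?_
      rw [← eval₁C, eval₁C_mul (f₁ := PowerSeries.C (e t)) (g₁ := S.dSeries t)
        (intCoeff_C (σ := Unit) (c := RingHom.id (C p)) (he_int t))
        (intCoeff_iff₁.2 fun m => S.dSeries_int t m) hy]
      congr 1
      exact evalC_C _
    have hintlaw : IntCoeff (RingHom.id (C p)) S.base.law.toPowerSeries :=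
      fun d => (S.near_good S.eps_pos (base_small S).hom_u S.base_ne).int d
    have key := htest D (fun i => by
        rw [hDc]
        refine le_ord_sum _ fun t _ => ?_
        rw [ord_mul]; exact add_nonneg (he_int t) (S.dSeries_int t i))
      (fun i hi => by
        rw [hDc]
        exact Finset.sum_eq_zero fun t _ => by rw [S.dSeries_support t hi, mul_zero])
      (fun y y' hy hy' h0 h0' => by
        rw [hval _ (ord_fadd_pos hintlaw hy hy'), hval _ hy, hval _ hy',
          ← Finset.sum_add_distrib]
        refine Finset.sum_congr rfl fun t _ => ?_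
        rw [S.dSeries_additive t hy hy' h0 h0', mul_add])
      (fun s => by
        rw [hval _ (hzpos s)]
        have h := congrFun hc s
        simp only [L, LinearMap.coe_mk, AddHom.coe_mk, Pi.zero_apply,
          MvPowerSeries.coeff_map] at h
        rw [he]
        simp only [div_mul_eq_mul_div, ← Finset.sum_div]
        rw [div_eq_zero_iff]
        left
        refine Eq.trans (Finset.sum_congr rfl fun t _ => ?_) h
        rw [← S.coeff_chi_linear t (hw s) (hz s)]
        rfl)
      (p ^ ((t.1 : ℕ) + 1))
      (Nat.pow_lt_pow_right (Fact.out : p.Prime).one_lt (by have := t.1.2; omega))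
    rw [hDc, ← Finset.add_sum_erase _ _ (Finset.mem_univ t)] at key
    have hrest : 0 < ord (∑ t' ∈ Finset.univ.erase t,
        e t' * PowerSeries.coeff (p ^ ((t.1 : ℕ) + 1)) (S.dSeries t')) := by
      refine Finset.sum_induction _ (fun x => 0 < ord x) (fun _ _ => lt_ord_add)
        (by simp [ord_zero]) fun t' ht' => ?_
      rw [ord_mul]
      by_cases hpos : 0 < ord (e t')
      · exact lt_of_lt_of_le hpos (le_add_of_nonneg_right (S.dSeries_int t' _))
      · have hle := htmin t' (Finset.mem_filter.2 ⟨Finset.mem_univ _, hpos⟩)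
        have hlt : (t.1 : ℕ) < t'.1 := lt_of_le_of_ne hle fun h =>
          (Finset.mem_erase.1 ht').1 (Subtype.ext (Fin.ext h.symm))
        exact lt_of_lt_of_le (S.ord_coeff_dSeries_pos t'
          (Nat.pow_lt_pow_right (Fact.out : p.Prime).one_lt (by omega)))
          (le_add_of_nonneg_left (he_int t'))
    have h1 : 0 < ord (e t * PowerSeries.coeff (p ^ ((t.1 : ℕ) + 1)) (S.dSeries t)) := by
      have := lt_ord_sub key hrest
      simpa using this
    rw [ord_mul, htord, zero_add] at h1
    have h2 := lt_ord_sub h1 (S.ord_coeff_dSeries_self t)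
    simp [ord_one] at h2
  have hcard : Module.finrank (C p) (S.Free → C p) =
      Module.finrank (C p) (Fin (n - S.h) → C p) := by
    simp [S.card_free]
  exact ⟨hinj, (LinearMap.injective_iff_surjective_of_finrank_eq_finrank hcard).1 hinj⟩

end Setup

end Vale.Agent.P217.CharP
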