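import Vale.Agent.P217.CharP.Calculus
import Vale.Agent.P217.Roots

/-!
P217, module M8: limits for the filtration, and the residue map of the constants.
-/

open MvPowerSeries

noncomputable section

namespace Vale.Agent.P217.CharP

variable {p : ℕ} [Fact p.Prime] {T : Type*}

instance : CharP (OC p) p :=
  (OC p).subtype.charP Subtype.coe_injective p

instance {σ : Type*} : CharP (MvPowerSeries σ (OC p)) p :=
  charP_of_injective_ringHom (MvPowerSeries.C_injective (σ := σ) (R := OC p)) p

theorem isNull_of_eventually {a : ℕ → C p}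
    (h : ∀ B : ℚ, ∃ L, ∀ l ≥ L, (B : WithTop ℚ) < ord (a l)) : IsNull p a := fun B => by
  obtain ⟨L, hL⟩ := h B
  exact (Set.finite_lt_nat L).subset fun l hl => not_le.1 fun h' => not_le.2 (hL l h') hl

/-- Sequences with differences tending to zero for the filtration converge. -/
theorem exists_limit_Fil {ε : ℚ} (hε : ε ≠ 0) (s : ℕ → MvPowerSeries T (OC p))
    (hs : ∀ N, ∃ L, ∀ l ≥ L, s (l + 1) - s l ∈ Fil ε N) :
    ∃ a, ∀ N, ∃ L, ∀ l ≥ L, a - s l ∈ Fil ε N := by
  classical
  set D : (T →₀ ℕ) → ℕ → C p := fun d l =>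
    ((MvPowerSeries.coeff d (s (l + 1)) : OC p) : C p) - (MvPowerSeries.coeff d (s l) : OC p)
    with hD
  have hDdef : ∀ d l, D d l = ((MvPowerSeries.coeff d (s (l + 1) - s l) : OC p) : C p) :=
    fun d l => by simp [hD]
  have hnull : ∀ d, IsNull p (D d) := fun d => isNull_of_eventually fun B => by
    obtain ⟨N, hN⟩ := exists_nat_gt (B / |ε|)
    obtain ⟨L, hL⟩ := hs (N + d.degree)
    refine ⟨L, fun l hl => ?_⟩
    rw [hDdef]
    refine lt_of_lt_of_le ?_ (hL l hl d)
    rw [WithTop.coe_lt_coe, Nat.add_sub_cancel, nsmul_eq_mul]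
    rwa [div_lt_iff₀ (abs_pos.2 hε)] at hN
  have hnn : ∀ d, 0 ≤ ord (sumC p (D d)) := fun d =>
    (hnull d).hasSumC.le_ord fun l => by
      rw [hDdef]; exact (MvPowerSeries.coeff d (s (l + 1) - s l)).2
  set a : MvPowerSeries T (OC p) := fun d =>
    MvPowerSeries.coeff d (s 0) + ⟨sumC p (D d), hnn d⟩ with ha
  refine ⟨a, fun N => ?_⟩
  obtain ⟨L, hL⟩ := hs N
  refine ⟨L, fun l hl d => ?_⟩
  have hfin := hasSumC_of_support_subset (p := p) (a := fun i => if i < l then D d i else 0)
    (Finset.range l) fun i hi => if_neg fun h => hi (Finset.mem_range.mpr h)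
  rw [Finset.sum_congr rfl (fun i hi => if_pos (Finset.mem_range.mp hi)), hD,
    Finset.sum_range_sub (fun i => ((MvPowerSeries.coeff d (s i) : OC p) : C p))] at hfin
  have h := ((hnull d).hasSumC.sub hfin).le_ord
    (m := (((N - d.degree : ℕ) • |ε| : ℚ) : WithTop ℚ)) fun i => by
      by_cases hi : i < l
      · simp [hi, hD]
      · simp only [if_neg hi, sub_zero]
        rw [hDdef]
        exact hL i (by omega) d
  refine le_trans h (le_of_eq (congrArg ord ?_))
  show _ = ((MvPowerSeries.coeff d (a - s l) : OC p) : C p)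
  rw [map_sub, show MvPowerSeries.coeff d a = MvPowerSeries.coeff d (s 0) +
    ⟨sumC p (D d), hnn d⟩ from rfl]
  simp only [Subring.coe_add, AddSubgroupClass.coe_sub]
  rw [hD]
  ring

variable {n : ℕ}

/-- The constants of `E` act through a homomorphism of the residue field. -/
theorem exists_residue_map (hn : n ≠ 0) (κ : W p n →+* OC p) :
    ∃ l : K p n →+* Kb p,
      ∀ w, (κ w : C p) = HahnSeries.C (l (WittVector.constantCoeff w)) := by
  classical
  have hsurj : Function.Surjective (WittVector.constantCoeff : W p n →+* K p n) := fun a =>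
    ⟨WittVector.teichmuller p a, by
      simp [WittVector.constantCoeff, WittVector.teichmuller_coeff_zero]⟩
  have hker : ∀ w, WittVector.constantCoeff w = 0 → κ w = 0 := by
    intro w hw
    obtain ⟨v, rfl⟩ := Ideal.mem_span_singleton.1
      ((WittVector.mem_span_p_iff_coeff_zero_eq_zero w).mpr hw)
    rw [map_mul, map_natCast, CharP.cast_eq_zero, zero_mul]
  set κ' : K p n →+* OC p :=
    RingHom.liftOfSurjective (WittVector.constantCoeff : W p n →+* K p n) hsurj
      ⟨κ, fun w hw => RingHom.mem_ker.2 (hker w (RingHom.mem_ker.1 hw))⟩ with hκ'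
  have hfix : ∀ c : K p n, ((κ' c : OC p) : C p) ^ p ^ n = (κ' c : OC p) := by
    intro c
    have := Fintype.ofFinite (K p n)
    have h := FiniteField.pow_card c
    rw [← Nat.card_eq_fintype_card, GaloisField.card p n hn] at h
    rw [← SubmonoidClass.coe_pow, ← map_pow, h]
  have hconst : ∀ c : K p n,
      ((κ' c : OC p) : C p) = HahnSeries.C (((κ' c : OC p) : C p).coeff 0) := by
    intro c
    set y : C p := ((κ' c : OC p) : C p) with hy
    set z := y - HahnSeries.C (y.coeff 0) with hz
    have hzpos : 0 < ord z := by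
      show ((0 : ℚ) : WithTop ℚ) < ord z
      rw [lt_ord_iff]
      intro q hq
      rw [hz, HahnSeries.coeff_sub, HahnSeries.C_apply]
      rcases hq.lt_or_eq with hq' | rfl
      · have h1 : y.coeff q = 0 := HahnSeries.coeff_eq_zero_of_lt_orderTop
          (lt_of_lt_of_le (WithTop.coe_lt_coe.2 hq') (κ' c).2)
        simp [h1, HahnSeries.coeff_single_of_ne hq'.ne]
      · simp
    have hzpow : 0 < ord (z ^ p ^ n) := by
      obtain ⟨m, hm⟩ := Nat.exists_eq_succ_of_ne_zero
        (pow_ne_zero n (Fact.out : p.Prime).ne_zero)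
      rw [hm, pow_succ, ord_mul]
      exact lt_of_lt_of_le hzpos (le_add_of_nonneg_left ((OC p).pow_mem hzpos.le m))
    have hdec : y ^ p ^ n = HahnSeries.C (y.coeff 0 ^ p ^ n) + z ^ p ^ n := by
      rw [map_pow, ← add_pow_char_pow, hz]
      congr 1
      ring
    have hz2 : z ^ p ^ n - z = HahnSeries.C (y.coeff 0 - y.coeff 0 ^ p ^ n) := by
      rw [map_sub, eq_sub_iff_add_eq.2 (show z ^ p ^ n + HahnSeries.C (y.coeff 0 ^ p ^ n) = y by
        rw [add_comm, ← hdec, hfix c]), hz]
      ring
    have h0 : y.coeff 0 - y.coeff 0 ^ p ^ n = 0 := by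
      by_contra hne
      have h1 : (0 : WithTop ℚ) < ord (z ^ p ^ n - z) := lt_ord_sub hzpow hzpos
      rw [hz2, HahnSeries.C_apply, ord, HahnSeries.orderTop_single hne] at h1
      exact lt_irrefl _ h1
    rw [h0, map_zero, sub_eq_zero] at hz2
    have hz0 : z = 0 := by
      by_contra hne
      have h1 : z ^ (p ^ n - 1) = 1 := by
        refine mul_left_cancel₀ hne ?_
        rw [← pow_succ', Nat.sub_add_cancel (Nat.one_le_pow _ _ (Fact.out : p.Prime).pos), hz2,
          mul_one]
      have h2 : (0 : WithTop ℚ) < ord (z ^ (p ^ n - 1)) := by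
        obtain ⟨m, hm⟩ : ∃ m, p ^ n - 1 = m + 1 := ⟨p ^ n - 2, by
          have := Nat.one_lt_pow hn (Fact.out : p.Prime).one_lt; omega⟩
        rw [hm, pow_succ, ord_mul]
        exact lt_of_lt_of_le hzpos (le_add_of_nonneg_left ((OC p).pow_mem hzpos.le m))
      rw [h1, ord_one] at h2
      exact lt_irrefl _ h2
    rwa [hz, sub_eq_zero] at hz0
  refine ⟨{
      toFun := fun c => ((κ' c : OC p) : C p).coeff 0
      map_one' := by simp
      map_mul' := fun a b => ?_
      map_zero' := by simp
      map_add' := fun a b => by simp }, fun w => ?_⟩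
  · rw [map_mul, Subring.coe_mul]
    conv_lhs => rw [hconst a, hconst b, ← map_mul]
    simp
  · have hw : κ w = κ' (WittVector.constantCoeff w) := by
      rw [hκ', RingHom.liftOfSurjective_comp_apply]
    rw [hw]
    exact hconst _

end Vale.Agent.P217.CharP
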