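import Vale.Agent.P217.Eval
import Vale.Agent.P217.Series

/-!
P217, module M8: series over the valuation ring `OC p`, the filtration combining valuation and
degree, and evaluation homomorphisms with their uniqueness.
-/

open MvPowerSeries

noncomputable section

namespace Vale.Agent.P217.CharP

variable {p : ℕ} [Fact p.Prime]

/-- The valuation of an element of the valuation ring. -/
abbrev ordO (a : OC p) : WithTop ℚ := ord (a : C p)

theorem ordO_nonneg (a : OC p) : 0 ≤ ordO a := a.2

section curry

variable {R : Type*} [CommRing R] {σ T : Type*}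

/-- The exponent of a monomial in two groups of variables. -/
def pairExp (m : σ →₀ ℕ) (d : T →₀ ℕ) : σ ⊕ T →₀ ℕ :=
  Finsupp.sumFinsuppEquivProdFinsupp.symm (m, d)

/-- Series in two groups of variables as series in the second with coefficients in the first. -/
def curryFun (f : MvPowerSeries (σ ⊕ T) R) : MvPowerSeries T (MvPowerSeries σ R) :=
  fun d m => MvPowerSeries.coeff (pairExp m d) f

theorem coeff_curryFun (f : MvPowerSeries (σ ⊕ T) R) (d : T →₀ ℕ) (m : σ →₀ ℕ) :
    MvPowerSeries.coeff m (MvPowerSeries.coeff d (curryFun f)) =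
      MvPowerSeries.coeff (pairExp m d) f := rfl

/-- The inverse of `curryFun`. -/
def uncurryFun (g : MvPowerSeries T (MvPowerSeries σ R)) : MvPowerSeries (σ ⊕ T) R := fun e =>
  MvPowerSeries.coeff (Finsupp.sumFinsuppEquivProdFinsupp e).1
    (MvPowerSeries.coeff (Finsupp.sumFinsuppEquivProdFinsupp e).2 g)

theorem curryFun_mul (f g : MvPowerSeries (σ ⊕ T) R) :
    curryFun (f * g) = curryFun f * curryFun g := by
  classical
  ext d m
  simp only [coeff_curryFun, coeff_mul, map_sum, Finset.sum_sigma']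
  refine Finset.sum_bij'
    (fun x _ => ⟨((Finsupp.sumFinsuppEquivProdFinsupp x.1).2,
        (Finsupp.sumFinsuppEquivProdFinsupp x.2).2),
      ((Finsupp.sumFinsuppEquivProdFinsupp x.1).1, (Finsupp.sumFinsuppEquivProdFinsupp x.2).1)⟩)
    (fun y _ => (pairExp y.2.1 y.1.1, pairExp y.2.2 y.1.2)) ?_ ?_ ?_ ?_ ?_
  · intro x hx
    rw [Finset.HasAntidiagonal.mem_antidiagonal] at hx
    have h1 : ∀ i, x.1 (Sum.inl i) + x.2 (Sum.inl i) = m i := fun i => by
      simpa [pairExp] using DFunLike.congr_fun hx (Sum.inl i)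
    have h2 : ∀ i, x.1 (Sum.inr i) + x.2 (Sum.inr i) = d i := fun i => by
      simpa [pairExp] using DFunLike.congr_fun hx (Sum.inr i)
    simp [Finset.HasAntidiagonal.mem_antidiagonal, Finsupp.ext_iff, h1, h2]
  · intro y hy
    simp only [Finset.mem_sigma, Finset.HasAntidiagonal.mem_antidiagonal] at hy
    rw [Finset.HasAntidiagonal.mem_antidiagonal, ← hy.1, ← hy.2]
    ext i
    cases i <;> simp [pairExp]
  · intro x _
    simp [pairExp]
  · intro y _
    simp [pairExp]
  · intro x _
    simp [pairExp]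

/-- Series in two groups of variables as series in the second with coefficients in the first. -/
def curry : MvPowerSeries (σ ⊕ T) R ≃+* MvPowerSeries T (MvPowerSeries σ R) where
  toFun := curryFun
  invFun := uncurryFun
  left_inv f := funext fun e => by
    show MvPowerSeries.coeff (pairExp _ _) f = f e
    simp [pairExp, MvPowerSeries.coeff_apply]
  right_inv g := funext fun d => funext fun m => by
    show MvPowerSeries.coeff _ (MvPowerSeries.coeff _ g) = g d m
    simp [pairExp, MvPowerSeries.coeff_apply]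
  map_mul' := curryFun_mul
  map_add' _ _ := rfl

theorem coeff_curry (f : MvPowerSeries (σ ⊕ T) R) (d : T →₀ ℕ) (m : σ →₀ ℕ) :
    MvPowerSeries.coeff m (MvPowerSeries.coeff d (curry f)) =
      MvPowerSeries.coeff (pairExp m d) f := rfl

theorem curry_C (r : R) :
    curry (MvPowerSeries.C r : MvPowerSeries (σ ⊕ T) R) =
      MvPowerSeries.C (MvPowerSeries.C r) := by
  classical
  ext d m
  rw [coeff_curry, MvPowerSeries.coeff_C, MvPowerSeries.coeff_C]
  by_cases hd : d = 0
  · subst hd
    rw [if_pos rfl, MvPowerSeries.coeff_C]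
    by_cases hm : m = 0
    · subst hm
      have : pairExp (σ := σ) (T := T) 0 0 = 0 := by
        ext i; cases i <;> simp [pairExp]
      simp [this]
    · rw [if_neg hm, if_neg]
      intro h
      apply hm
      ext i
      simpa [pairExp] using DFunLike.congr_fun h (Sum.inl i)
  · rw [if_neg hd, if_neg]
    · simp
    · intro h
      apply hd
      ext i
      simpa [pairExp] using DFunLike.congr_fun h (Sum.inr i)

theorem curry_X_inl (i : σ) :
    curry (MvPowerSeries.X (Sum.inl i) : MvPowerSeries (σ ⊕ T) R) =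
      MvPowerSeries.C (MvPowerSeries.X i) := by
  classical
  ext d m
  rw [coeff_curry, MvPowerSeries.coeff_X, MvPowerSeries.coeff_C]
  by_cases hd : d = 0
  · subst hd
    rw [if_pos rfl, MvPowerSeries.coeff_X]
    refine if_congr ?_ rfl rfl
    simp [pairExp, Finsupp.ext_iff, Finsupp.single_apply]
  · rw [if_neg hd, if_neg]
    · simp
    · intro h
      apply hd
      ext j
      simpa [pairExp] using DFunLike.congr_fun h (Sum.inr j)

theorem curry_X_inr (t : T) :
    curry (MvPowerSeries.X (Sum.inr t) : MvPowerSeries (σ ⊕ T) R) = MvPowerSeries.X t := by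
  classical
  ext d m
  rw [coeff_curry, MvPowerSeries.coeff_X, MvPowerSeries.coeff_X]
  by_cases hd : d = Finsupp.single t 1
  · subst hd
    rw [if_pos rfl, MvPowerSeries.coeff_one]
    refine if_congr ?_ rfl rfl
    simp [pairExp, Finsupp.ext_iff, Finsupp.single_apply]
  · rw [if_neg hd, if_neg]
    · simp
    · intro h
      apply hd
      ext j
      simpa [pairExp, Finsupp.single_apply] using DFunLike.congr_fun h (Sum.inr j)

/-- A series without coefficients of degree below `N` lies in the N-th power of the variables. -/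
theorem mem_span_X_pow [Fintype σ] (N : ℕ) (f : MvPowerSeries σ R)
    (hf : ∀ d : σ →₀ ℕ, d.degree < N → MvPowerSeries.coeff d f = 0) :
    f ∈ Ideal.span (Set.range (MvPowerSeries.X : σ → MvPowerSeries σ R)) ^ N := by
  classical
  induction N generalizing f with
  | zero => simp
  | succ N ih =>
    -- pick for every exponent a variable occurring in it
    obtain ⟨g, hg, hg'⟩ : ∃ g : (σ →₀ ℕ) → σ → Bool,
        (∀ d i, g d i = true → 1 ≤ d i) ∧ ∀ d, d ≠ 0 → ∃! i, g d i = true := by
      refine ⟨fun d i => decide (∃ h : d.support.Nonempty, h.choose = i), fun d i h => ?_,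
        fun d hd => ?_⟩
      · obtain ⟨hne, rfl⟩ := of_decide_eq_true h
        exact Nat.one_le_iff_ne_zero.2 (Finsupp.mem_support_iff.1 hne.choose_spec)
      · have hne : d.support.Nonempty := Finsupp.support_nonempty_iff.2 hd
        exact ⟨hne.choose, decide_eq_true ⟨hne, rfl⟩, fun i h => (of_decide_eq_true h).2.symm⟩
    let q : σ → MvPowerSeries σ R := fun i e =>
      if g (e + Finsupp.single i 1) i = true then MvPowerSeries.coeff (e + Finsupp.single i 1) f
      else 0
    have hq : ∀ i e, MvPowerSeries.coeff e (q i) = if g (e + Finsupp.single i 1) i = true then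
        MvPowerSeries.coeff (e + Finsupp.single i 1) f else 0 := fun i e => rfl
    have e1 : f = ∑ i, MvPowerSeries.X i * q i := by
      ext d
      rw [map_sum]
      simp only [MvPowerSeries.X, MvPowerSeries.coeff_monomial_mul, one_mul]
      by_cases hd : d = 0
      · subst hd
        rw [hf 0 (by simp), Finset.sum_eq_zero]
        intro i _
        rw [if_neg]
        intro h
        simpa using h i
      obtain ⟨i, hi, huniq⟩ := hg' d hd
      rw [Finset.sum_eq_single i]
      · have hle : Finsupp.single i 1 ≤ d := Finsupp.single_le_iff.2 (hg d i hi)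
        rw [if_pos hle, hq, tsub_add_cancel_of_le hle, if_pos hi]
      · intro j _ hj
        split_ifs with hle
        · rw [hq, tsub_add_cancel_of_le hle, if_neg]
          exact fun h => hj (huniq j h)
        · rfl
      · simp
    rw [e1, pow_succ']
    refine Ideal.sum_mem _ fun i _ => Ideal.mul_mem_mul (Ideal.subset_span ⟨i, rfl⟩) (ih _ ?_)
    intro e he
    rw [hq]
    split_ifs
    · refine hf _ ?_
      rw [map_add, Finsupp.degree_single]
      omega
    · rfl

end curry

section filtration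

variable {T : Type*}

/-- Series over the valuation ring whose coefficient in degree `k` has valuation at least
`(N - k) |ε|`. -/
def Fil (ε : ℚ) (N : ℕ) : Ideal (MvPowerSeries T (OC p)) where
  carrier := {a | ∀ d : T →₀ ℕ, (((N - d.degree : ℕ) • |ε| : ℚ) : WithTop ℚ) ≤
    ordO (MvPowerSeries.coeff d a)}
  add_mem' {a b} ha hb d := by
    simp only [ordO, map_add, Subring.coe_add]
    exact le_ord_add (ha d) (hb d)
  zero_mem' d := by simp [ordO]
  smul_mem' r {a} ha d := by
    classical
    simp only [smul_eq_mul, ordO, MvPowerSeries.coeff_mul, AddSubmonoidClass.coe_finsetSum]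
    refine le_ord_sum _ fun x hx => ?_
    rw [Subring.coe_mul, ord_mul]
    refine le_trans ?_ (le_add_of_nonneg_left (MvPowerSeries.coeff x.1 r).2)
    refine le_trans ?_ (ha x.2)
    rw [WithTop.coe_le_coe]
    refine nsmul_le_nsmul_left (abs_nonneg ε) ?_
    have := congrArg Finsupp.degree (Finset.HasAntidiagonal.mem_antidiagonal.1 hx)
    rw [map_add] at this
    omega

variable {ε : ℚ} {N M : ℕ} {a b : MvPowerSeries T (OC p)}

theorem mem_Fil : a ∈ Fil ε N ↔ ∀ d : T →₀ ℕ,
    (((N - d.degree : ℕ) • |ε| : ℚ) : WithTop ℚ) ≤ ordO (MvPowerSeries.coeff d a) := Iff.rfl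

theorem Fil_mono (h : M ≤ N) : Fil (p := p) (T := T) ε N ≤ Fil ε M := fun a ha d => by
  refine le_trans ?_ (ha d)
  rw [WithTop.coe_le_coe]
  exact nsmul_le_nsmul_left (abs_nonneg ε) (by omega)

theorem Fil_zero : Fil (p := p) (T := T) ε 0 = ⊤ := by
  refine (Ideal.eq_top_iff_one _).2 fun d => ?_
  rw [Nat.zero_sub, zero_nsmul]
  exact (MvPowerSeries.coeff d (1 : MvPowerSeries T (OC p))).2

theorem mul_mem_Fil (ha : a ∈ Fil ε N) (hb : b ∈ Fil ε M) : a * b ∈ Fil ε (N + M) := fun d => by
  classical
  simp only [ordO, MvPowerSeries.coeff_mul, AddSubmonoidClass.coe_finsetSum]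
  refine le_ord_sum _ fun x hx => ?_
  rw [Subring.coe_mul, ord_mul]
  refine le_trans ?_ (add_le_add (ha x.1) (hb x.2))
  rw [← WithTop.coe_add, WithTop.coe_le_coe, ← add_nsmul]
  refine nsmul_le_nsmul_left (abs_nonneg ε) ?_
  have := congrArg Finsupp.degree (Finset.HasAntidiagonal.mem_antidiagonal.1 hx)
  rw [map_add] at this
  omega

theorem pow_mem_Fil (ha : a ∈ Fil ε N) : ∀ m : ℕ, a ^ m ∈ Fil ε (m * N)
  | 0 => by simp [Fil_zero]
  | m + 1 => by rw [pow_succ, Nat.succ_mul]; exact mul_mem_Fil (pow_mem_Fil ha m) ha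

theorem Fil_one_pow_le : ∀ m : ℕ, Fil (p := p) (T := T) ε 1 ^ m ≤ Fil ε m
  | 0 => by simp [Fil_zero]
  | m + 1 => by
    rw [pow_succ, Ideal.mul_le]
    exact fun a ha b hb => mul_mem_Fil (Fil_one_pow_le m ha) hb

/-- Membership in the first step only asks about the constant coefficient. -/
theorem mem_Fil_one (h : (((|ε|) : ℚ) : WithTop ℚ) ≤ ordO (constantCoeff a)) : a ∈ Fil ε 1 := by
  intro d
  by_cases hd : d = 0
  · subst hd
    simpa [MvPowerSeries.coeff_zero_eq_constantCoeff_apply] using h
  · have : 1 ≤ d.degree := Nat.one_le_iff_ne_zero.2 (mt (Finsupp.degree_eq_zero_iff d).1 hd)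
    rw [Nat.sub_eq_zero_of_le this, zero_nsmul]
    exact (MvPowerSeries.coeff d a).2

/-- An ideal closed for the filtration. -/
def IsClosedFil (ε : ℚ) (I : Ideal (MvPowerSeries T (OC p))) : Prop :=
  ∀ a, (∀ N, a ∈ I ⊔ Fil ε N) → a ∈ I

theorem eq_zero_of_forall_mem_Fil (hε : ε ≠ 0) (h : ∀ N, a ∈ Fil ε N) : a = 0 := by
  refine MvPowerSeries.ext fun d => ?_
  rw [map_zero, ← Subtype.coe_inj, ZeroMemClass.coe_zero]
  refine eq_zero_of_forall_lt_ord fun B => ?_
  obtain ⟨N, hN⟩ := exists_nat_gt (B / |ε|)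
  refine lt_of_lt_of_le ?_ (h (N + d.degree) d)
  rw [WithTop.coe_lt_coe, Nat.add_sub_cancel, nsmul_eq_mul]
  rwa [div_lt_iff₀ (abs_pos.2 hε)] at hN

theorem isClosedFil_bot (hε : ε ≠ 0) : IsClosedFil ε (⊥ : Ideal (MvPowerSeries T (OC p))) :=
  fun a h => Ideal.mem_bot.2 (eq_zero_of_forall_mem_Fil hε fun N => by simpa using h N)

theorem isClosedFil_Fil : IsClosedFil ε (Fil (p := p) (T := T) ε N) :=
  fun a h => by simpa using h N

/-- Series without coefficients in degree below `B`. -/
def degIdeal (B : ℕ) : Ideal (MvPowerSeries T (OC p)) where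
  carrier := {a | ∀ d : T →₀ ℕ, d.degree < B → MvPowerSeries.coeff d a = 0}
  add_mem' {a b} ha hb d hd := by simp [ha d hd, hb d hd]
  zero_mem' d _ := by simp
  smul_mem' r {a} ha d hd := by
    classical
    rw [smul_eq_mul, MvPowerSeries.coeff_mul]
    refine Finset.sum_eq_zero fun x hx => ?_
    rw [ha x.2 ?_, mul_zero]
    have := congrArg Finsupp.degree (Finset.HasAntidiagonal.mem_antidiagonal.1 hx)
    rw [map_add] at this
    omega

theorem mem_degIdeal {B : ℕ} : a ∈ degIdeal B ↔
    ∀ d : T →₀ ℕ, d.degree < B → MvPowerSeries.coeff d a = 0 := Iff.rfl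

theorem isClosedFil_degIdeal (hε : ε ≠ 0) (B : ℕ) :
    IsClosedFil ε (degIdeal (p := p) (T := T) B) := by
  intro a h d hd
  rw [← Subtype.coe_inj, ZeroMemClass.coe_zero]
  refine eq_zero_of_forall_lt_ord fun c => ?_
  obtain ⟨N, hN⟩ := exists_nat_gt (c / |ε|)
  obtain ⟨y, hy, z, hz, rfl⟩ := Submodule.mem_sup.1 (h (N + d.degree))
  rw [map_add, hy d hd, zero_add]
  refine lt_of_lt_of_le ?_ (hz d)
  rw [WithTop.coe_lt_coe, Nat.add_sub_cancel, nsmul_eq_mul]
  rwa [div_lt_iff₀ (abs_pos.2 hε)] at hN

theorem degIdeal_le_Fil (B : ℕ) : degIdeal (p := p) (T := T) B ≤ Fil ε B := by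
  intro a ha d
  by_cases hd : d.degree < B
  · simp [ordO, ha d hd]
  · rw [Nat.sub_eq_zero_of_le (not_lt.1 hd), zero_nsmul]
    exact (MvPowerSeries.coeff d a).2

/-- Two homomorphisms agreeing on constants and modulo a closed ideal on the variables agree
modulo that ideal. -/
theorem hom_congr {σ R : Type*} [Fintype σ] [CommRing R]
    {f g : MvPowerSeries σ R →+* MvPowerSeries T (OC p)} {I : Ideal (MvPowerSeries T (OC p))}
    (hI : IsClosedFil ε I) (hf : ∀ i, f (MvPowerSeries.X i) ∈ Fil ε 1)
    (hg : ∀ i, g (MvPowerSeries.X i) ∈ Fil ε 1)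
    (hC : ∀ r, f (MvPowerSeries.C r) - g (MvPowerSeries.C r) ∈ I)
    (hX : ∀ i, f (MvPowerSeries.X i) - g (MvPowerSeries.X i) ∈ I) (P : MvPowerSeries σ R) :
    f P - g P ∈ I := by
  classical
  refine hI _ fun N => ?_
  have hpoly : ∀ Q : MvPolynomial σ R,
      f (Q : MvPowerSeries σ R) - g (Q : MvPowerSeries σ R) ∈ I := by
    intro Q
    rw [← Ideal.Quotient.eq]
    have := MvPolynomial.ringHom_ext
      (f := ((Ideal.Quotient.mk I).comp f).comp MvPolynomial.coeToMvPowerSeries.ringHom)
      (g := ((Ideal.Quotient.mk I).comp g).comp MvPolynomial.coeToMvPowerSeries.ringHom)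
      (fun r => by simpa [Ideal.Quotient.eq] using hC r)
      (fun i => by simpa [Ideal.Quotient.eq] using hX i)
    simpa using DFunLike.congr_fun this Q
  set Q : MvPolynomial σ R := MvPowerSeries.truncTotal N P with hQ
  have hrest : P - (Q : MvPowerSeries σ R) ∈
      Ideal.span (Set.range (MvPowerSeries.X : σ → MvPowerSeries σ R)) ^ N := by
    refine mem_span_X_pow N _ fun d hd => ?_
    rw [map_sub, MvPolynomial.coeff_coe, hQ, MvPowerSeries.coeff_truncTotal _ hd, sub_self]
  have hmap : ∀ h : MvPowerSeries σ R →+* MvPowerSeries T (OC p),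
      (∀ i, h (MvPowerSeries.X i) ∈ Fil ε 1) →
      h (P - (Q : MvPowerSeries σ R)) ∈ Fil ε N := by
    intro h hh
    refine Fil_one_pow_le N ?_
    have hle : Ideal.map h (Ideal.span (Set.range
        (MvPowerSeries.X : σ → MvPowerSeries σ R))) ≤ Fil ε 1 := by
      rw [Ideal.map_span, Ideal.span_le]
      rintro x ⟨y, ⟨i, rfl⟩, rfl⟩
      exact hh i
    refine Ideal.pow_right_mono hle N ?_
    rw [← Ideal.map_pow]
    exact Ideal.mem_map_of_mem h hrest
  have e : f P - g P = (f (Q : MvPowerSeries σ R) - g (Q : MvPowerSeries σ R)) +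
      (f (P - (Q : MvPowerSeries σ R)) - g (P - (Q : MvPowerSeries σ R))) := by
    rw [map_sub, map_sub]; ring
  rw [e]
  exact Submodule.add_mem_sup (hpoly Q) (sub_mem (hmap f hf) (hmap g hg))

/-- Integral homomorphisms out of a ring of series are determined by constants and variables. -/
theorem hom_ext {σ R : Type*} [Fintype σ] [CommRing R] (hε : ε ≠ 0)
    {f g : MvPowerSeries σ R →+* MvPowerSeries T (OC p)}
    (hf : ∀ i, f (MvPowerSeries.X i) ∈ Fil ε 1)
    (hC : ∀ r, f (MvPowerSeries.C r) = g (MvPowerSeries.C r))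
    (hX : ∀ i, f (MvPowerSeries.X i) = g (MvPowerSeries.X i)) : f = g := by
  refine RingHom.ext fun P => sub_eq_zero.1 (Ideal.mem_bot.1 ?_)
  exact hom_congr (isClosedFil_bot hε) hf (fun i => hX i ▸ hf i) (fun r => by simp [hC r])
    (fun i => by simp [hX i]) P

end filtration

end Vale.Agent.P217.CharP
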