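import Vale.Agent.P217.Iface

/-!
Interfaces inside module M8 (orbits of points of height h are dense in their stratum): each is a
Prop, proved in its own file.
-/

namespace Vale.Agent.P217.CharP

noncomputable section

open MvPowerSeries

variable (p : ℕ) [Fact p.Prime]

/-- A law over the valuation ring congruent to the Honda law of height `n`, of exact height `h`. -/
structure Good (n h : ℕ) (ε : ℚ) (Γ : FormalGroup (Kb p)) (G : FormalGroup (C p)) : Prop where
  one_le : 1 ≤ h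
  lt : h < n
  eps_pos : 0 < ε
  honda : IsHondaKb p n Γ
  honda_comm : Γ.IsComm
  comm : G.IsComm
  int : ∀ d, 0 ≤ ord (MvPowerSeries.coeff d G.toPowerSeries)
  close : ∀ d, (ε : WithTop ℚ) ≤
    ord (MvPowerSeries.coeff d (G.toPowerSeries - (Γ.map HahnSeries.C).toPowerSeries))
  close_p : ∀ i, (ε : WithTop ℚ) ≤
    ord (PowerSeries.coeff i (mulSeries G p - PowerSeries.X ^ (p ^ n)))
  low : ∀ i < p ^ h, PowerSeries.coeff i (mulSeries G p) = 0
  lead : PowerSeries.coeff (p ^ h) (mulSeries G p) ≠ 0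

/-- D1: existence, uniqueness and positivity of iota. -/
def IotaExistsStatement : Prop :=
  ∀ n h ε Γ G, Good p n h ε Γ G →
    (∀ V : C p, 0 < ord V → ∃! w, IsIota p n G V w) ∧
      ∀ V w : C p, 0 < ord V → IsIota p n G V w → 0 < ord w

/-- D1: iota is additive. -/
def IotaAddStatement : Prop :=
  ∀ n h ε Γ G, Good p n h ε Γ G → ∀ V V' w w' : C p, 0 < ord V → 0 < ord V' →
    IsIota p n G V w → IsIota p n G V' w' →
      IsIota p n G (fadd p HahnSeries.C Γ V V') (fadd p (RingHom.id (C p)) G w w')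

/-- D1: iota is natural for homomorphisms congruent to series fixed by the p^n-th power. -/
def IotaHomStatement : Prop :=
  ∀ n h ε Γ G G', Good p n h ε Γ G → Good p n h ε Γ G' →
    ∀ (ψ : PowerSeries (C p)) (g : PowerSeries (Kb p)), IsHom G G' ψ →
      (∀ i, 0 ≤ ord (PowerSeries.coeff i ψ)) → PowerSeries.constantCoeff g = 0 →
      (∀ i, PowerSeries.coeff i g ^ (p ^ n) = PowerSeries.coeff i g) →
      (∀ i, (ε : WithTop ℚ) ≤
        ord (PowerSeries.coeff i ψ - HahnSeries.C (PowerSeries.coeff i g))) →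
      ∀ V w : C p, 0 < ord V → IsIota p n G V w →
        IsIota p n G' (eval₁C p HahnSeries.C g V) (eval₁C p (RingHom.id (C p)) ψ w)

/-- D1: iota turns p^n-th powers into multiplication by p. -/
def IotaPowStatement : Prop :=
  ∀ n h ε Γ G, Good p n h ε Γ G → ∀ V w : C p, 0 < ord V → IsIota p n G V w →
    IsIota p n G (V ^ (p ^ n)) (eval₁C p (RingHom.id (C p)) (mulSeries G p) w)

/-- D1: iota is surjective. -/
def IotaSurjStatement : Prop :=
  ∀ n h ε Γ G, Good p n h ε Γ G → ∀ W : C p, 0 < ord W →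
    ∃ V : C p, 0 < ord V ∧ IsIota p n G V W

/-- D1: a basis of the kernel of iota, with the test for series additive on the p-torsion. -/
def TorsionStatement : Prop :=
  ∀ n h ε Γ G, Good p n h ε Γ G →
    ∃ v w z : Fin (n - h) → C p, (∀ s, 0 < ord (v s)) ∧ (∀ s, 0 < ord (w s)) ∧
      (∀ s, 0 < ord (z s)) ∧ (∀ s, IsIota p n G (v s) 0) ∧
      (∀ s, fadd p HahnSeries.C Γ (v s) (w s) = 0) ∧ Indep p Γ v ∧
      (∀ s, IsIota p n G (powZ p (w s) (-(n : ℤ))) (z s)) ∧
      (∀ s, eval₁C p (RingHom.id (C p)) (mulSeries G p) (z s) = 0) ∧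
      ∀ D : PowerSeries (C p), (∀ i, 0 ≤ ord (PowerSeries.coeff i D)) →
        (∀ i, ¬ p ^ h ∣ i → PowerSeries.coeff i D = 0) →
        (∀ y y' : C p, 0 < ord y → 0 < ord y' →
          eval₁C p (RingHom.id (C p)) (mulSeries G p) y = 0 →
          eval₁C p (RingHom.id (C p)) (mulSeries G p) y' = 0 →
          eval₁C p (RingHom.id (C p)) D (fadd p (RingHom.id (C p)) G y y') =
            eval₁C p (RingHom.id (C p)) D y + eval₁C p (RingHom.id (C p)) D y') →
        (∀ s, eval₁C p (RingHom.id (C p)) D (z s) = 0) →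
        ∀ i < p ^ n, 0 < ord (PowerSeries.coeff i D)

/-- D2: the automorphisms X +_Γ η^(p^(n k)) act trivially modulo the (k+1)-st power of the
maximal ideal. -/
def CongrStatement (n : ℕ) : Prop :=
  1 ≤ n → ∀ F : FormalGroup (E p n), IsNice p n F → IsUniversal p n F → ActionStatement p n →
    ∀ η : PowerSeries (K p n), IsHom (F.map (res p n)) (F.map (res p n)) η → ∀ k : ℕ, 1 ≤ k →
      ∃ φ, ActsBy p n F
          ((F.map (res p n)).toPowerSeries.subst ![PowerSeries.X, η ^ (p ^ (n * k))]) φ ∧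
        ∀ i, φ (u p n i) - u p n i ∈ heightIdeal p n n ^ (k + 1)

/-- D3: coefficients of a series in a formal chart. -/
def ChartStatement : Prop :=
  ∀ (r : ℕ) (T : Type) [Fintype T] (χ : Fin r → MvPowerSeries T (C p)),
    (∀ s, MvPowerSeries.constantCoeff (χ s) = 0) →
    Function.Bijective (fun c : T → C p =>
      fun s => ∑ t, c t * MvPowerSeries.coeff (Finsupp.single t 1) (χ s)) →
    ∀ P : MvPowerSeries T (C p), ∃ a : (Fin r →₀ ℕ) → C p,
      ∀ (B : ℕ) (S : Finset (Fin r →₀ ℕ)), (∀ m, m ∈ S ↔ m.degree < B) →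
        ∀ d : T →₀ ℕ, d.degree < B →
          MvPowerSeries.coeff d (P - ∑ m ∈ S, MvPowerSeries.C (a m) * ∏ s, χ s ^ m s) = 0

/-- A point at which the family `a` vanishes asymptotically along Frobenius powers. -/
def AsympZero (h : ℕ) {r : ℕ} (a : (Fin r →₀ ℕ) → C p) (x : Fin r → C p) : Prop :=
  ∃ c : ℚ, 0 < c ∧ (∀ s, (c : WithTop ℚ) ≤ ord (x s)) ∧
    ∀ (B : ℕ) (S : Finset (Fin r →₀ ℕ)), (∀ m, m ∈ S ↔ m.degree < B) →
      ∃ (D : ℚ) (k₀ : ℕ), ∀ k ≥ k₀, ∃ y : Fin r → C p,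
        (∀ s, (((B : ℚ) * c : ℚ) : WithTop ℚ) ≤ ord (y s - x s)) ∧
        ((((B : ℚ) * c * (p : ℚ) ^ (h * k) - D) : ℚ) : WithTop ℚ) ≤
          ord (∑ m ∈ S, a m * ∏ s, y s ^ (p ^ (h * k) * m s))

/-- D3: asymptotic vanishing gives a series over the residue field vanishing exactly. -/
def EchelonStatement : Prop :=
  ∀ (h r : ℕ), 1 ≤ h → ∀ a : (Fin r →₀ ℕ) → C p, a ≠ 0 →
    ∃ P : MvPowerSeries (Fin r) (Kb p), P ≠ 0 ∧
      ∀ x : Fin r → C p, AsympZero p h a x → evalC p HahnSeries.C P x = 0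

/-- D4: no nonzero series over the residue field vanishes on the orbit of an independent
tuple. -/
def EndgameStatement (n : ℕ) : Prop :=
  ∀ h ε (Γk : FormalGroup (K p n)) (l : K p n →+* Kb p) (H : FormalGroup (Kb p))
    (G : FormalGroup (C p)) (θ : PowerSeries (C p)),
    IsHonda p n Γk → Γk.IsComm → IsHondaKb p h H → Good p n h ε (Γk.map l) G →
    IsIso G (H.map HahnSeries.C) θ → (∀ i, 0 ≤ ord (PowerSeries.coeff i θ)) →
    ∀ v : Fin (n - h) → C p, (∀ s, 0 < ord (v s)) → Indep p (Γk.map l) v →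
    ∀ P : MvPowerSeries (Fin (n - h)) (Kb p), P ≠ 0 →
    ∃ (η : PowerSeries (K p n)) (w : Fin (n - h) → C p), IsHom Γk Γk η ∧
      (∀ s, IsIota p n G (eval₁C p HahnSeries.C (PowerSeries.map l η) (v s)) (w s)) ∧
      evalC p HahnSeries.C P (fun s => eval₁C p (RingHom.id (C p)) θ (w s)) ≠ 0

end

end Vale.Agent.P217.CharP
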