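import Vale.Agent.P217.CharP.Limit
import Vale.Agent.P217.CharP.Spec
import Vale.Agent.P217.Point
import Vale.Agent.P217.Main
import Vale.Agent.P217.Rigid.Law

/-!
P217, module M8: a point of exact height h, its Taylor homomorphism into series in the free
coordinates, and the laws at nearby points.
-/

open MvPowerSeries

noncomputable section

namespace Vale.Agent.P217.CharP

open Vale.Agent.P217.Rigid (isComm_map)

/-- A point of height exactly `i + 1` on the Lubin-Tate space, with values in the valuation ring. -/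
structure Setup (p n : ℕ) [Fact p.Prime] where
  F : FormalGroup (E p n)
  nice : IsNice p n F
  i : Fin (n - 1)
  x : E p n →+* OC p
  pos : ∀ j, 0 < ordO (x (u p n j))
  low : ∀ j : Fin (n - 1), (j : ℕ) < i → x (u p n j) = 0
  ne : x (u p n i) ≠ 0

namespace Setup

variable {p n : ℕ} [Fact p.Prime] (S : Setup p n)

/-- The height. -/
def h : ℕ := (S.i : ℕ) + 1

theorem one_le_h : 1 ≤ S.h := Nat.le_add_left 1 _

theorem h_lt : S.h < n := by
  have := S.i.2
  simp only [h]
  omega

theorem n_ne (S : Setup p n) : n ≠ 0 := by have := S.h_lt; omega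

theorem one_le_n (S : Setup p n) : 1 ≤ n := Nat.one_le_iff_ne_zero.2 S.n_ne

/-- The free coordinates. -/
abbrev Free : Type := {j : Fin (n - 1) // (S.i : ℕ) ≤ j}

theorem card_free : Fintype.card S.Free = n - S.h := by
  classical
  rw [Fintype.card_congr ({
      toFun := fun j => (⟨(j.1 : ℕ) - S.i, by have := j.1.2; have := j.2; simp [h]; omega⟩ :
        Fin (n - S.h))
      invFun := fun k => ⟨⟨(S.i : ℕ) + k, by have := k.2; simp [h] at this; omega⟩, by simp⟩
      left_inv := fun j => Subtype.ext (Fin.ext (by have := j.2; simp; omega))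
      right_inv := fun k => Fin.ext (by simp) } : S.Free ≃ Fin (n - S.h)),
    Fintype.card_fin]

/-- The constants. -/
def κ : W p n →+* OC p := S.x.comp MvPowerSeries.C

/-- The map of residue fields. -/
def l : K p n →+* Kb p := (exists_residue_map S.n_ne S.κ).choose

theorem κ_eq (w : W p n) : (S.κ w : C p) = HahnSeries.C (S.l (WittVector.constantCoeff w)) :=
  (exists_residue_map S.n_ne S.κ).choose_spec w

/-- The coordinates of the point. -/
def a (j : Fin (n - 1)) : OC p := S.x (u p n j)

/-- The images of the coordinates in series around the point. -/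
def coord (j : Fin (n - 1)) : MvPowerSeries S.Free (OC p) :=
  if hj : (S.i : ℕ) ≤ j then MvPowerSeries.C (S.a j) + MvPowerSeries.X ⟨j, hj⟩ else 0

theorem coord_pos (j : Fin (n - 1)) : 0 < ordO (constantCoeff (S.coord j)) := by
  unfold coord
  split_ifs
  · simpa [a] using S.pos j
  · rw [map_zero]; exact ordO_zero_pos

/-- The Taylor expansion at the point. -/
def tay : E p n →+* MvPowerSeries S.Free (OC p) :=
  (evA S.coord S.coord_pos).comp (MvPowerSeries.map (MvPowerSeries.C.comp S.κ))

theorem tay_C (w : W p n) : S.tay (MvPowerSeries.C w) = MvPowerSeries.C (S.κ w) := by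
  simp [tay]

theorem tay_u (j : Fin (n - 1)) : S.tay (u p n j) = S.coord j := by
  simp [tay, u]

/-- The law over series around the point. -/
def law : FormalGroup (MvPowerSeries S.Free (OC p)) := S.F.map S.tay

instance : S.law.IsComm := by
  have := S.nice.comm
  exact isComm_map S.F S.tay

/-- A point near the base point, given by its displacement. -/
structure Near where
  d : S.Free → OC p
  pos : ∀ t, 0 < ordO (d t)

/-- The homomorphism of a nearby point. -/
def Near.hom {S : Setup p n} (δ : S.Near) : E p n →+* OC p := (evO δ.d δ.pos).comp S.tay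

/-- The base point as a nearby point. -/
def base : S.Near := ⟨fun _ => 0, fun _ => ordO_zero_pos⟩

theorem Near.hom_u {S : Setup p n} (δ : S.Near) (j : Fin (n - 1)) :
    δ.hom (u p n j) = if hj : (S.i : ℕ) ≤ j then S.a j + δ.d ⟨j, hj⟩ else 0 := by
  simp only [Near.hom, RingHom.comp_apply, tay_u, coord]
  split_ifs <;> simp

theorem Near.hom_u_pos {S : Setup p n} (δ : S.Near) (j : Fin (n - 1)) :
    0 < ordO (δ.hom (u p n j)) := by
  rw [Near.hom_u]
  split_ifs
  · exact lt_ord_add (S.pos j) (δ.pos _)
  · exact ordO_zero_pos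

theorem eq_hom_of {δ : S.Near} {x' : E p n →+* OC p}
    (hC : ∀ w, x' (MvPowerSeries.C w) = S.κ w)
    (hu : ∀ j, x' (u p n j) = δ.hom (u p n j)) : x' = δ.hom := by
  obtain ⟨ε, hε, hb⟩ := exists_bound_O (z := fun j => δ.hom (u p n j)) δ.hom_u_pos
  refine hom_ext_O hε (fun j => ?_) (fun w => ?_) hu
  · show (ε : WithTop ℚ) ≤ ordO (x' (u p n j))
    rw [hu]
    exact hb j
  · rw [hC]
    simp [Near.hom, tay_C]

theorem base_hom : S.base.hom = S.x := by
  refine (S.eq_hom_of (fun w => rfl) fun j => ?_).symm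
  rw [Near.hom_u]
  split_ifs with hj
  · simp [base, a]
  · exact S.low j (by omega)

/-- Near homomorphisms are congruent to the reduction. -/
theorem hom_congr_res {δ : S.Near} {ε : ℚ} (hε : 0 ≤ ε)
    (hb : ∀ j, (ε : WithTop ℚ) ≤ ordO (δ.hom (u p n j))) (e : E p n) :
    (ε : WithTop ℚ) ≤ ord ((δ.hom e : C p) - HahnSeries.C (S.l (res p n e))) := by
  have hle : Ideal.map δ.hom
      (Ideal.span (Set.range (MvPowerSeries.X : Fin (n - 1) → E p n))) ≤ tIdeal p ε hε := by
    rw [Ideal.map_span, Ideal.span_le]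
    rintro x ⟨y, ⟨j, rfl⟩, rfl⟩
    exact (mem_tIdeal hε).2 (hb j)
  have hmem := hle (Ideal.mem_map_of_mem δ.hom (mem_span_of_constantCoeff_eq_zero
    (e - MvPowerSeries.C (MvPowerSeries.constantCoeff e)) (by simp)))
  have h := (mem_tIdeal hε).1 hmem
  rw [map_sub, AddSubgroupClass.coe_sub] at h
  have e1 : δ.hom (MvPowerSeries.C (MvPowerSeries.constantCoeff e)) =
      S.κ (MvPowerSeries.constantCoeff e) := by simp [Near.hom, tay_C]
  rw [e1, S.κ_eq] at h
  exact h

theorem tay_natCast_p : S.tay (p : E p n) = 0 := by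
  rw [map_natCast, CharP.cast_eq_zero]

theorem tay_heightIdeal {e : E p n} (he : e ∈ heightIdeal p n S.h) : S.tay e = 0 := by
  have hle : heightIdeal p n S.h ≤ RingHom.ker S.tay := by
    rw [h, heightIdeal, Ideal.span_le]
    rintro y (rfl | ⟨j, hj, rfl⟩)
    · exact S.tay_natCast_p
    · show S.tay (u p n j) = 0
      rw [tay_u, coord, dif_neg (by omega)]
  exact hle he

theorem coeff_mulSeries_law (m : ℕ) :
    PowerSeries.coeff m (mulSeries S.law p) =
      S.tay (PowerSeries.coeff m (mulSeries S.F p)) := by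
  rw [law, ← map_mulSeries, PowerSeries.coeff_map]

theorem coeff_mulSeries_low {m : ℕ} (hm : m < p ^ S.h) :
    PowerSeries.coeff m (mulSeries S.law p) = 0 := by
  rw [coeff_mulSeries_law]
  exact S.tay_heightIdeal ((S.nice.standard.1 S.i).1 m hm)

theorem coeff_mulSeries_lead :
    PowerSeries.coeff (p ^ S.h) (mulSeries S.law p) = S.coord S.i := by
  have h1 := S.tay_heightIdeal ((S.nice.standard.1 S.i).2)
  rw [map_sub, sub_eq_zero] at h1
  rw [coeff_mulSeries_law, ← tay_u]
  exact h1

theorem exists_expand_law : ∃ g : PowerSeries (MvPowerSeries S.Free (OC p)),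
    mulSeries S.law p =
      PowerSeries.expand (p ^ S.h) (pow_ne_zero _ (Fact.out : p.Prime).ne_zero) g := by
  obtain ⟨g, -, hg⟩ := (mulSeries_isHom S.law p).exists_expand p S.h
    fun i hi => S.coeff_mulSeries_low hi
  exact ⟨g, hg⟩

/-- The series g with `[p](X) = g(X^(p^h))`. -/
def g : PowerSeries (MvPowerSeries S.Free (OC p)) := S.exists_expand_law.choose

theorem g_spec : mulSeries S.law p =
    PowerSeries.expand (p ^ S.h) (pow_ne_zero _ (Fact.out : p.Prime).ne_zero) S.g :=
  S.exists_expand_law.choose_spec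

/-- The law at a nearby point. -/
def Near.law {S : Setup p n} (δ : S.Near) : FormalGroup (C p) :=
  S.F.map ((OC p).subtype.comp δ.hom)

/-- The Honda law on the residue field. -/
def Gam : FormalGroup (Kb p) := (S.F.map (res p n)).map S.l

theorem map_map_law {R₁ R₂ R₃ : Type*} [CommRing R₁] [CommRing R₂] [CommRing R₃]
    (G : FormalGroup R₁) (f : R₁ →+* R₂) (g : R₂ →+* R₃) :
    (G.map f).map g = G.map (g.comp f) := by
  ext d
  simp [FormalGroup.map_toPowerSeries]

theorem gam_honda : IsHondaKb p n S.Gam := by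
  obtain ⟨hp, L, hL, f, hf, hlog⟩ := S.nice.honda
  refine ⟨?_, L, ?_, f, hf, hlog⟩
  · rw [Gam, ← map_mulSeries, hp]
    simp
  · rw [Gam, ← hL, map_map_law, ← RingHom.comp_assoc,
      Subsingleton.elim (S.l.comp (algebraMap (ZMod p) (K p n))) (algebraMap (ZMod p) (Kb p))]

theorem gam_comm : S.Gam.IsComm := by
  have := S.nice.comm
  have := isComm_map S.F (res p n)
  exact isComm_map (S.F.map (res p n)) S.l

theorem near_good {δ : S.Near} {ε : ℚ} (hε : 0 < ε)
    (hb : ∀ j, (ε : WithTop ℚ) ≤ ordO (δ.hom (u p n j)))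
    (hne : δ.hom (u p n S.i) ≠ 0) :
    Good p n S.h ε S.Gam δ.law := by
  set c : E p n →+* C p := (OC p).subtype.comp δ.hom with hc
  have hcoe : ∀ e, c e = ((δ.hom e : OC p) : C p) := fun e => rfl
  have hmul : ∀ m, PowerSeries.coeff m (mulSeries δ.law p) =
      ((δ.hom (PowerSeries.coeff m (mulSeries S.F p)) : OC p) : C p) := fun m => by
    rw [Near.law, ← map_mulSeries, PowerSeries.coeff_map]
    rfl
  refine ⟨S.one_le_h, S.h_lt, hε, S.gam_honda, S.gam_comm, ?_, fun d => ?_, fun d => ?_,
    fun m => ?_, fun m hm => ?_, ?_⟩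
  · have := S.nice.comm
    exact isComm_map S.F _
  · simp only [Near.law, FormalGroup.map_toPowerSeries, MvPowerSeries.coeff_map]
    exact (δ.hom _).2
  · simp only [Near.law, Gam, FormalGroup.map_toPowerSeries, map_sub, MvPowerSeries.coeff_map]
    exact S.hom_congr_res hε.le hb _
  · have hH : PowerSeries.X ^ (p ^ n) =
        PowerSeries.map ((HahnSeries.C : Kb p →+* C p).comp (S.l.comp (res p n)))
          (mulSeries S.F p) := by
      rw [map_mulSeries, ← map_map_law, ← map_mulSeries,
        show mulSeries (S.F.map (S.l.comp (res p n))) p = mulSeries S.Gam p by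
          rw [Gam, map_map_law],
        S.gam_honda.1]
      simp
    rw [map_sub, hH, PowerSeries.coeff_map, hmul]
    exact S.hom_congr_res hε.le hb _
  · rw [hmul, Near.hom, RingHom.comp_apply, S.tay_heightIdeal ((S.nice.standard.1 S.i).1 m hm)]
    simp
  · rw [hmul]
    have h1 : δ.hom (PowerSeries.coeff (p ^ S.h) (mulSeries S.F p)) = δ.hom (u p n S.i) := by
      have h2 := S.tay_heightIdeal ((S.nice.standard.1 S.i).2)
      rw [map_sub, sub_eq_zero] at h2
      simp only [Near.hom, RingHom.comp_apply]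
      exact congrArg (evO δ.d δ.pos) h2
    rw [h1]
    simpa using hne

end Setup

end Vale.Agent.P217.CharP
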