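import Vale.Agent.P217.CharP.Limit

/-!
P217, module M8: series over `C p` with geometrically bounded coefficients, and roots of
equations `T^q = v T + R` among them.
-/

open MvPowerSeries

noncomputable section

namespace Vale.Agent.P217.CharP

variable {p : ℕ} [Fact p.Prime] {T : Type*}

/-- Series with coefficients in the valuation ring as series over `C p`. -/
abbrev toK : MvPowerSeries T (OC p) →+* MvPowerSeries T (C p) :=
  MvPowerSeries.map (OC p).subtype

/-- The substitution multiplying every variable by `π`. -/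
def scale (π : C p) : MvPowerSeries T (C p) →+* MvPowerSeries T (C p) :=
  MvPowerSeries.rescale fun _ => π

instance : CharP (MvPowerSeries T (C p)) p :=
  charP_of_injective_ringHom (MvPowerSeries.C_injective (σ := T) (R := C p)) p

theorem coeff_scale (π : C p) (f : MvPowerSeries T (C p)) (d : T →₀ ℕ) :
    MvPowerSeries.coeff d (scale π f) = π ^ d.degree * MvPowerSeries.coeff d f := by
  rw [scale, MvPowerSeries.coeff_rescale, Finsupp.prod, Finset.prod_pow_eq_pow_sum,
    Finsupp.degree_apply]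

theorem scale_C (π a : C p) :
    scale π (MvPowerSeries.C a : MvPowerSeries T (C p)) = MvPowerSeries.C a := by
  classical
  ext d
  rw [coeff_scale, MvPowerSeries.coeff_C]
  split_ifs with h
  · simp [h]
  · simp

theorem scale_injective {π : C p} (hπ : π ≠ 0) :
    Function.Injective (scale (T := T) π) := by
  intro f g h
  ext1 d
  have := congrArg (MvPowerSeries.coeff d) h
  rw [coeff_scale, coeff_scale] at this
  exact mul_left_cancel₀ (pow_ne_zero _ hπ) this

theorem scale_scale (π π' : C p) (f : MvPowerSeries T (C p)) :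
    scale π' (scale π f) = scale (π * π') f := by
  ext1 d
  simp only [coeff_scale, mul_pow]
  ring

theorem scale_one (f : MvPowerSeries T (C p)) : scale 1 f = f := by
  ext d; simp [coeff_scale]

theorem constantCoeff_scale (π : C p) (f : MvPowerSeries T (C p)) :
    constantCoeff (scale π f) = constantCoeff f := by
  rw [← MvPowerSeries.coeff_zero_eq_constantCoeff_apply, coeff_scale]
  simp

/-- `π` bounds the coefficients of `f`. -/
def Bdd (π : C p) (f : MvPowerSeries T (C p)) : Prop :=
  ∀ d, 0 ≤ ord (MvPowerSeries.coeff d (scale π f))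

theorem bdd_toK {π : C p} (hπ : 0 ≤ ord π) (f : MvPowerSeries T (OC p)) : Bdd π (toK f) := by
  intro d
  rw [coeff_scale, MvPowerSeries.coeff_map, ord_mul]
  exact add_nonneg ((OC p).pow_mem hπ _) (ordO_nonneg _)

theorem Bdd.exists_toK {π : C p} {f : MvPowerSeries T (C p)} (hf : Bdd π f) :
    ∃ g : MvPowerSeries T (OC p), toK g = scale π f := by
  let g : MvPowerSeries T (OC p) := fun d => ⟨MvPowerSeries.coeff d (scale π f), hf d⟩
  exact ⟨g, MvPowerSeries.ext fun d => rfl⟩

theorem bdd_of_toK {π : C p} {f : MvPowerSeries T (C p)} {g : MvPowerSeries T (OC p)}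
    (h : scale π f = toK g) : Bdd π f := by
  intro d
  rw [h]
  exact ordO_nonneg _

theorem Bdd.mul_right {π π' : C p} {f : MvPowerSeries T (C p)} (hf : Bdd π f)
    (hπ' : 0 ≤ ord π') : Bdd (π * π') f := by
  intro d
  rw [← scale_scale, coeff_scale, ord_mul]
  exact add_nonneg ((OC p).pow_mem hπ' _) (hf d)

theorem Bdd.add {π : C p} {f g : MvPowerSeries T (C p)} (hf : Bdd π f) (hg : Bdd π g) :
    Bdd π (f + g) := by
  intro d
  rw [map_add, map_add]
  exact le_ord_add (hf d) (hg d)

theorem Bdd.mul {π : C p} {f g : MvPowerSeries T (C p)} (hf : Bdd π f) (hg : Bdd π g) :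
    Bdd π (f * g) := by
  obtain ⟨a, ha⟩ := hf.exists_toK
  obtain ⟨b, hb⟩ := hg.exists_toK
  exact bdd_of_toK (g := a * b) (by rw [map_mul, map_mul, ha, hb])

theorem bdd_C {π a : C p} (ha : 0 ≤ ord a) :
    Bdd π (MvPowerSeries.C a : MvPowerSeries T (C p)) :=
  bdd_of_toK (g := MvPowerSeries.C ⟨a, ha⟩) (by rw [scale_C, MvPowerSeries.map_C]; rfl)

theorem Bdd.pow {π : C p} {f : MvPowerSeries T (C p)} (hf : Bdd π f) (m : ℕ) :
    Bdd π (f ^ m) := by
  induction m with
  | zero => simpa using bdd_C (T := T) (π := π) (a := 1) (by simp [ord_one])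
  | succ m ih => rw [pow_succ]; exact ih.mul hf

theorem Bdd.sum {π : C p} {ι : Type*} (s : Finset ι) {f : ι → MvPowerSeries T (C p)}
    (hf : ∀ i ∈ s, Bdd π (f i)) : Bdd π (∑ i ∈ s, f i) :=
  Finset.sum_induction f (Bdd π) (fun _ _ => Bdd.add)
    (by simpa using bdd_C (T := T) (π := π) (a := 0) (by simp)) hf

theorem pow_mem_degIdeal {a : MvPowerSeries T (OC p)} {N : ℕ} (ha : a ∈ degIdeal N) :
    ∀ m : ℕ, a ^ m ∈ degIdeal (m * N)
  | 0 => fun d hd => by simp at hd
  | m + 1 => by
    classical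
    intro d hd
    rw [pow_succ, MvPowerSeries.coeff_mul]
    refine Finset.sum_eq_zero fun x hx => ?_
    have hsum := congrArg Finsupp.degree (Finset.HasAntidiagonal.mem_antidiagonal.1 hx)
    rw [map_add] at hsum
    by_cases h : x.2.degree < N
    · rw [ha x.2 h, mul_zero]
    · rw [pow_mem_degIdeal ha m x.1 (by rw [Nat.succ_mul] at hd; omega), zero_mul]

/-- A fixed point `τ = U^-1 (c₁ τ^q - c)` for a power `q` of p. -/
theorem exists_fixed {k : ℕ} (hk : 1 ≤ k) (c₁ : OC p) {c U : MvPowerSeries T (OC p)}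
    (hc : constantCoeff c = 0) (hU : IsUnit U) :
    ∃ τ : MvPowerSeries T (OC p), constantCoeff τ = 0 ∧
      U * τ = MvPowerSeries.C c₁ * τ ^ p ^ k - c := by
  obtain ⟨V, hV⟩ := hU.exists_left_inv
  set f : MvPowerSeries T (OC p) → MvPowerSeries T (OC p) :=
    fun x => V * (MvPowerSeries.C c₁ * x ^ p ^ k - c) with hf
  have hq : 2 ≤ p ^ k := (Fact.out : p.Prime).two_le.trans (Nat.le_self_pow (by omega) p)
  have hcontr : ∀ N x y, 1 ≤ N → x - y ∈ degIdeal N → f x - f y ∈ degIdeal (N + 1) := by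
    intro N x y hN hxy
    have e : f x - f y = V * (MvPowerSeries.C c₁ * (x - y) ^ p ^ k) := by
      rw [sub_pow_char_pow, hf]; ring
    rw [e]
    refine Ideal.mul_mem_left _ _ (Ideal.mul_mem_left _ _ fun d hd => ?_)
    exact pow_mem_degIdeal hxy _ d (by
      have : 2 * N ≤ p ^ k * N := Nat.mul_le_mul_right N hq
      omega)
  have hstep : ∀ m, f^[m + 1] 0 - f^[m] 0 ∈ degIdeal (m + 1) := by
    intro m
    induction m with
    | zero =>
      intro d hd
      obtain rfl : d = 0 := (Finsupp.degree_eq_zero_iff d).1 (by omega)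
      simp [hf, hc, MvPowerSeries.coeff_zero_eq_constantCoeff_apply,
        zero_pow (pow_ne_zero k (Fact.out : p.Prime).ne_zero)]
    | succ m ih =>
      rw [Function.iterate_succ_apply' f (m + 1), Function.iterate_succ_apply' f m]
      refine hcontr _ _ _ (by omega) ?_
      rwa [Function.iterate_succ_apply' f m] at ih
  have hstab : ∀ m j, f^[m + j] 0 - f^[m] 0 ∈ degIdeal (m + 1) := by
    intro m j
    induction j with
    | zero => simp
    | succ j ih =>
      have h := hstep (m + j)
      have e : f^[m + (j + 1)] 0 - f^[m] 0 =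
          (f^[m + j + 1] 0 - f^[m + j] 0) + (f^[m + j] 0 - f^[m] 0) := by
        rw [← Nat.add_assoc]; ring
      rw [e]
      exact add_mem (fun d hd => h d (by omega)) ih
  let τ : MvPowerSeries T (OC p) := fun d => MvPowerSeries.coeff d (f^[d.degree] 0)
  have hτd : ∀ d, MvPowerSeries.coeff d τ = MvPowerSeries.coeff d (f^[d.degree] 0) := fun d => rfl
  have hτ : ∀ N, τ - f^[N] 0 ∈ degIdeal (N + 1) := by
    intro N d hd
    rw [map_sub, hτd, sub_eq_zero]
    obtain ⟨j, hj⟩ := Nat.exists_eq_add_of_le (show d.degree ≤ N by omega)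
    have h := hstab d.degree j d (by omega)
    rw [map_sub, sub_eq_zero] at h
    rw [hj, h]
  have hτ0 : constantCoeff τ = 0 := by
    rw [← MvPowerSeries.coeff_zero_eq_constantCoeff_apply, hτd]
    simp
  refine ⟨τ, hτ0, ?_⟩
  have hfix : τ = f τ := by
    ext1 d
    have h1 := hτ (d.degree + 1) d (by omega)
    have h2 := hcontr (d.degree + 1) _ _ (by omega) (hτ d.degree) d (by omega)
    rw [← Function.iterate_succ_apply' f] at h2
    rw [map_sub, sub_eq_zero] at h1 h2
    rw [h1, ← h2]
  conv_lhs => rw [hfix, hf]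
  rw [← mul_assoc, mul_comm U V, hV, one_mul]

/-- A root of `X^q = v X + R` lifting a given root for the constant terms. -/
theorem exists_root_series {k : ℕ} (hk : 1 ≤ k) {π : C p} (hπ : π ≠ 0) (hπ0 : 0 ≤ ord π)
    {v R : MvPowerSeries T (C p)} (hv : Bdd π v) (hR : Bdd π R) (hv0 : constantCoeff v ≠ 0)
    {θ : C p} (hθ : 0 ≤ ord θ)
    (heq : θ ^ p ^ k = constantCoeff v * θ + constantCoeff R) :
    ∃ X : MvPowerSeries T (C p), constantCoeff X = θ ∧ X ^ p ^ k = v * X + R ∧
      ∃ π' : C p, π' ≠ 0 ∧ 0 ≤ ord π' ∧ Bdd π' X := by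
  classical
  set v0 := constantCoeff v with hv0d
  have hv0int : 0 ≤ ord v0 := by
    have := hv 0
    rwa [MvPowerSeries.coeff_zero_eq_constantCoeff_apply, constantCoeff_scale] at this
  set π₂ : C p := v0 ^ 2 with hπ₂
  have hπ₂0 : 0 ≤ ord π₂ := (OC p).pow_mem hv0int 2
  have hπ₂ne : π₂ ≠ 0 := pow_ne_zero 2 hv0
  obtain ⟨v₁, hv₁⟩ := hv.exists_toK
  obtain ⟨R₁, hR₁⟩ := hR.exists_toK
  -- the unit and the right hand side after rescaling
  have hU : ∀ d : T →₀ ℕ, 0 ≤ ord (MvPowerSeries.coeff d (scale π₂ (scale π v)) / v0) := by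
    intro d
    rw [coeff_scale]
    by_cases hd : d = 0
    · subst hd
      rw [MvPowerSeries.coeff_zero_eq_constantCoeff_apply, constantCoeff_scale, ← hv0d]
      simp [div_self hv0, ord_one]
    · obtain ⟨m, hm⟩ := Nat.exists_eq_succ_of_ne_zero (mt (Finsupp.degree_eq_zero_iff d).1 hd)
      have e : π₂ ^ d.degree * MvPowerSeries.coeff d (scale π v) / v0 =
          v0 * (π₂ ^ m * MvPowerSeries.coeff d (scale π v)) := by
        rw [hm, pow_succ, hπ₂]; field_simp
      rw [e, ord_mul, ord_mul]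
      exact add_nonneg hv0int (add_nonneg ((OC p).pow_mem hπ₂0 _) (hv d))
  let U : MvPowerSeries T (OC p) :=
    fun d => ⟨MvPowerSeries.coeff d (scale π₂ (scale π v)) / v0, hU d⟩
  have hUeq : scale (π * π₂) v = MvPowerSeries.C v0 * toK U := by
    ext1 d
    rw [← scale_scale, MvPowerSeries.coeff_C_mul, MvPowerSeries.coeff_map]
    show _ = v0 * (MvPowerSeries.coeff d (scale π₂ (scale π v)) / v0)
    field_simp
  have hUunit : IsUnit U := by
    rw [MvPowerSeries.isUnit_iff_constantCoeff]
    have : constantCoeff U = 1 := by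
      refine Subtype.ext ?_
      show MvPowerSeries.coeff 0 (scale π₂ (scale π v)) / v0 = 1
      rw [MvPowerSeries.coeff_zero_eq_constantCoeff_apply, constantCoeff_scale,
        constantCoeff_scale, ← hv0d, div_self hv0]
    rw [this]
    exact isUnit_one
  set c' : MvPowerSeries T (C p) :=
    scale π R + scale π v * MvPowerSeries.C θ - MvPowerSeries.C (θ ^ p ^ k) with hc'
  have hc'int : ∀ d, 0 ≤ ord (MvPowerSeries.coeff d c') := fun d => by
    rw [hc', map_sub, map_add, MvPowerSeries.coeff_mul_C, MvPowerSeries.coeff_C]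
    refine le_ord_sub (le_ord_add (hR d) ?_) ?_
    · rw [ord_mul]; exact add_nonneg (hv d) hθ
    · split_ifs
      · exact (OC p).pow_mem hθ _
      · simp
  have hc'0 : constantCoeff c' = 0 := by
    rw [hc', map_sub, map_add, map_mul, constantCoeff_scale, constantCoeff_scale,
      MvPowerSeries.constantCoeff_C, MvPowerSeries.constantCoeff_C, heq, ← hv0d]
    ring
  have hc : ∀ d, 0 ≤ ord (MvPowerSeries.coeff d (scale π₂ c') / π₂) := by
    intro d
    rw [coeff_scale]
    by_cases hd : d = 0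
    · subst hd
      rw [MvPowerSeries.coeff_zero_eq_constantCoeff_apply, hc'0]
      simp
    · obtain ⟨m, hm⟩ := Nat.exists_eq_succ_of_ne_zero (mt (Finsupp.degree_eq_zero_iff d).1 hd)
      have e : π₂ ^ d.degree * MvPowerSeries.coeff d c' / π₂ =
          π₂ ^ m * MvPowerSeries.coeff d c' := by
        rw [hm, pow_succ]; field_simp
      rw [e, ord_mul]
      exact add_nonneg ((OC p).pow_mem hπ₂0 _) (hc'int d)
  let c : MvPowerSeries T (OC p) := fun d => ⟨MvPowerSeries.coeff d (scale π₂ c') / π₂, hc d⟩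
  have hceq : scale π₂ c' = MvPowerSeries.C π₂ * toK c := by
    ext1 d
    rw [MvPowerSeries.coeff_C_mul, MvPowerSeries.coeff_map]
    show _ = π₂ * (MvPowerSeries.coeff d (scale π₂ c') / π₂)
    field_simp
  have hc0 : constantCoeff c = 0 := by
    refine Subtype.ext ?_
    show MvPowerSeries.coeff 0 (scale π₂ c') / π₂ = 0
    rw [MvPowerSeries.coeff_zero_eq_constantCoeff_apply, constantCoeff_scale, hc'0, zero_div]
  have hq2 : 2 ≤ p ^ k := (Fact.out : p.Prime).two_le.trans (Nat.le_self_pow (by omega) p)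
  obtain ⟨τ, hτ0, hτ⟩ := exists_fixed hk ⟨v0 ^ (p ^ k - 2), (OC p).pow_mem hv0int _⟩ hc0 hUunit
  have hππ : π * π₂ ≠ 0 := mul_ne_zero hπ hπ₂ne
  set X := scale (π * π₂)⁻¹ (MvPowerSeries.C θ + MvPowerSeries.C v0 * toK τ) with hX
  have hscX : scale (π * π₂) X = MvPowerSeries.C θ + MvPowerSeries.C v0 * toK τ := by
    rw [hX, scale_scale, inv_mul_cancel₀ hππ, scale_one]
  refine ⟨X, ?_, scale_injective hππ ?_, π * π₂, hππ, ?_, ?_⟩
  · have h : constantCoeff (toK τ) = 0 := by
      rw [MvPowerSeries.constantCoeff_map, hτ0, map_zero]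
    rw [hX, constantCoeff_scale, map_add, map_mul, h, mul_zero, add_zero,
      MvPowerSeries.constantCoeff_C]
  · have hcR : scale (π * π₂) R = MvPowerSeries.C π₂ * toK c + MvPowerSeries.C (θ ^ p ^ k) -
        MvPowerSeries.C v0 * toK U * MvPowerSeries.C θ := by
      rw [← hceq, hc', map_sub, map_add, map_mul, scale_scale, scale_scale, scale_C, scale_C,
        hUeq]
      ring
    have hτK := congrArg (toK (p := p) (T := T)) hτ
    rw [map_mul, map_sub, map_mul, map_pow, MvPowerSeries.map_C] at hτK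
    rw [map_pow, hscX, map_add, map_mul, hscX, hUeq, hcR, add_pow_char_pow, mul_pow, ← map_pow,
      ← map_pow, show v0 ^ p ^ k = v0 ^ 2 * v0 ^ (p ^ k - 2) by
        rw [← pow_add, Nat.add_sub_cancel' hq2], map_mul, hπ₂, map_pow]
    simp only [Subring.coe_subtype, map_pow] at hτK ⊢
    linear_combination -(MvPowerSeries.C v0 ^ 2) * hτK
  · rw [ord_mul]; exact add_nonneg hπ0 hπ₂0
  · refine bdd_of_toK (g := MvPowerSeries.C ⟨θ, hθ⟩ + MvPowerSeries.C ⟨v0, hv0int⟩ * τ) ?_
    rw [hscX, map_add, map_mul, MvPowerSeries.map_C, MvPowerSeries.map_C]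
    rfl

end Vale.Agent.P217.CharP
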