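import Vale.Agent.P217.CharP.Chi
import Vale.Agent.P217.CharP.Solve

/-!
P217, module M8: the coordinate theta of the Honda law of height h, formally in the
displacement of the point.
-/

open MvPowerSeries

noncomputable section

namespace Vale.Agent.P217.CharP

variable {p n : ℕ} [Fact p.Prime]

theorem coeff_pow_self_of_constantCoeff_zero {R : Type*} [CommRing R] {g : PowerSeries R}
    (hg : PowerSeries.constantCoeff g = 0) (i : ℕ) :
    PowerSeries.coeff i (g ^ i) = PowerSeries.coeff 1 g ^ i := by
  obtain ⟨h, rfl⟩ := PowerSeries.X_dvd_iff.2 hg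
  rw [mul_pow]
  have h1 : PowerSeries.coeff 1 (PowerSeries.X * h) = PowerSeries.constantCoeff h := by
    rw [show (1 : ℕ) = 0 + 1 from rfl, PowerSeries.coeff_succ_X_mul,
      PowerSeries.coeff_zero_eq_constantCoeff]
  have h2 := PowerSeries.coeff_X_pow_mul (h ^ i) i 0
  rw [zero_add] at h2
  rw [h1, h2, PowerSeries.coeff_zero_eq_constantCoeff, map_pow]

theorem coeff_pow_of_lt {R : Type*} [CommRing R] {g : PowerSeries R}
    (hg : PowerSeries.constantCoeff g = 0) {i j : ℕ} (hij : i < j) :
    PowerSeries.coeff i (g ^ j) = 0 := by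
  obtain ⟨h, rfl⟩ := PowerSeries.X_dvd_iff.2 hg
  rw [mul_pow, PowerSeries.coeff_X_pow_mul', if_neg (by omega)]

theorem coeff_subst_eq_sum {R : Type*} [CommRing R] {g : PowerSeries R}
    (hg : PowerSeries.constantCoeff g = 0) (f : PowerSeries R) (i : ℕ) :
    PowerSeries.coeff i (PowerSeries.subst g f) =
      ∑ j ∈ Finset.range (i + 1), PowerSeries.coeff j f * PowerSeries.coeff i (g ^ j) := by
  rw [PowerSeries.coeff_subst' (PowerSeries.HasSubst.of_constantCoeff_zero' hg),
    finsum_eq_sum_of_support_subset _ (s := Finset.range (i + 1))]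
  · simp [smul_eq_mul]
  · intro j hj
    simp only [Finset.coe_range, Set.mem_Iio]
    by_contra hij
    exact hj (by simp [coeff_pow_of_lt hg (show i < j by omega)])

namespace Setup

variable (S : Setup p n)

/-- The series g over `C p`-valued functions of the displacement. -/
def gK : PowerSeries (MvPowerSeries S.Free (C p)) := PowerSeries.map toK S.g

theorem coeff_g (m : ℕ) :
    PowerSeries.coeff m S.g = PowerSeries.coeff (p ^ S.h * m) (mulSeries S.law p) := by
  rw [S.g_spec, PowerSeries.coeff_expand_mul]

theorem constantCoeff_g : PowerSeries.constantCoeff S.g = 0 := by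
  rw [← PowerSeries.coeff_zero_eq_constantCoeff, coeff_g, mul_zero,
    PowerSeries.coeff_zero_eq_constantCoeff, constantCoeff_mulSeries]

theorem constantCoeff_gK : PowerSeries.constantCoeff S.gK = 0 := by
  rw [gK, ← PowerSeries.coeff_zero_eq_constantCoeff_apply, PowerSeries.coeff_map,
    PowerSeries.coeff_zero_eq_constantCoeff_apply, S.constantCoeff_g, map_zero]

theorem coeff_one_gK : PowerSeries.coeff 1 S.gK = toK (S.coord S.i) := by
  rw [gK, PowerSeries.coeff_map, coeff_g, mul_one, coeff_mulSeries_lead]

/-- The equation satisfied by theta at the base point. -/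
theorem theta_rec {H : FormalGroup (Kb p)} (hH : IsHondaKb p S.h H) {θ : PowerSeries (C p)}
    (hθ : IsHom S.base.law (H.map HahnSeries.C) θ) :
    PowerSeries.subst (PowerSeries.map constantCoeff S.gK) θ =
      PowerSeries.map (iterateFrobenius (C p) p S.h) θ := by
  have hq : p ^ S.h ≠ 0 := pow_ne_zero _ (Fact.out : p.Prime).ne_zero
  have h1 := hθ.subst_mulSeries p
  have hH' : mulSeries (H.map HahnSeries.C : FormalGroup (C p)) p =
      PowerSeries.X ^ (p ^ S.h) := by
    rw [← map_mulSeries, hH.1]
    simp
  have hlaw : mulSeries S.base.law p =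
      PowerSeries.expand (p ^ S.h) hq (PowerSeries.map constantCoeff S.gK) := by
    have e : S.base.law = S.law.map ((OC p).subtype.comp constantCoeff) := by
      rw [Near.law, law, map_map_law]
      congr 1
      exact RingHom.ext fun e => congrArg (fun z : OC p => (z : C p)) (evO_zero (S.tay e))
    rw [e, ← map_mulSeries, S.g_spec, PowerSeries.map_expand, gK]
    congr 1
  rw [hH', hlaw, PowerSeries.subst_pow hθ.hasSubst, PowerSeries.subst_X hθ.hasSubst] at h1
  have hg0 : PowerSeries.HasSubst (PowerSeries.map constantCoeff S.gK) :=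
    PowerSeries.HasSubst.of_constantCoeff_zero' (by
      rw [← PowerSeries.coeff_zero_eq_constantCoeff, PowerSeries.coeff_map,
        PowerSeries.coeff_zero_eq_constantCoeff, S.constantCoeff_gK, map_zero])
  have h2 : PowerSeries.expand (p ^ S.h) hq
      (PowerSeries.subst (PowerSeries.map constantCoeff S.gK) θ) =
      PowerSeries.expand (p ^ S.h) hq (PowerSeries.map (iterateFrobenius (C p) p S.h) θ) := by
    rw [← PowerSeries.map_expand]
    refine ((PowerSeries.expand_subst (p ^ S.h) hq hg0 θ).trans h1).trans ?_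
    exact (MvPowerSeries.map_iterateFrobenius_expand p (Fact.out : p.Prime).ne_zero θ S.h).symm
  ext1 i
  simpa using congrArg (PowerSeries.coeff (p ^ S.h * i)) h2

open Classical in
/-- The coefficients of theta as series in the displacement. -/
def theta (θ : PowerSeries (C p)) : ℕ → MvPowerSeries S.Free (C p)
  | 0 => 0
  | i + 1 =>
    if h : ∃ X : MvPowerSeries S.Free (C p), constantCoeff X = PowerSeries.coeff (i + 1) θ ∧
        X ^ p ^ S.h = toK (S.coord S.i) ^ (i + 1) * X +
          ∑ j : Fin (i + 1), theta θ j * PowerSeries.coeff (i + 1) (S.gK ^ (j : ℕ)) ∧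
        ∃ π' : C p, π' ≠ 0 ∧ 0 ≤ ord π' ∧ Bdd π' X
    then h.choose else 0
termination_by i => i
decreasing_by exact j.2

theorem constantCoeff_coord_i : constantCoeff (toK (S.coord S.i)) = ((S.a S.i : OC p) : C p) := by
  rw [MvPowerSeries.constantCoeff_map, coord, dif_pos le_rfl]
  simp

/-- The properties of theta. -/
theorem theta_spec {θ : PowerSeries (C p)} (hint : ∀ i, 0 ≤ ord (PowerSeries.coeff i θ))
    (h0 : PowerSeries.constantCoeff θ = 0)
    (hrec : PowerSeries.subst (PowerSeries.map constantCoeff S.gK) θ =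
      PowerSeries.map (iterateFrobenius (C p) p S.h) θ) :
    ∀ i, constantCoeff (S.theta θ i) = PowerSeries.coeff i θ ∧
      S.theta θ i ^ p ^ S.h =
        ∑ j ∈ Finset.range (i + 1), S.theta θ j * PowerSeries.coeff i (S.gK ^ j) ∧
      ∃ π' : C p, π' ≠ 0 ∧ 0 ≤ ord π' ∧ Bdd π' (S.theta θ i) := by
  classical
  intro i
  induction i using Nat.strong_induction_on with
  | _ i ih =>
    cases i with
    | zero =>
      refine ⟨?_, ?_, 1, one_ne_zero, by simp [ord_one], ?_⟩
      · simp [theta, h0]
      · simp [theta, zero_pow (pow_ne_zero _ (Fact.out : p.Prime).ne_zero)]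
      · simpa [theta] using bdd_C (T := S.Free) (π := (1 : C p)) (a := 0) (by simp)
    | succ i =>
      set R := ∑ j : Fin (i + 1), S.theta θ j * PowerSeries.coeff (i + 1) (S.gK ^ (j : ℕ))
        with hR
      -- a common bound for the earlier coefficients
      have hcommon : ∀ m ≤ i + 1, ∃ π : C p, π ≠ 0 ∧ 0 ≤ ord π ∧
          ∀ j < m, Bdd π (S.theta θ j) := by
        intro m hm
        induction m with
        | zero => exact ⟨1, one_ne_zero, by simp [ord_one], fun j hj => absurd hj (by omega)⟩
        | succ m ihm =>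
          obtain ⟨π, hπ, hπ0, hb⟩ := ihm (by omega)
          obtain ⟨-, -, π', hπ', hπ'0, hb'⟩ := ih m (by omega)
          refine ⟨π * π', mul_ne_zero hπ hπ', by rw [ord_mul]; exact add_nonneg hπ0 hπ'0,
            fun j hj => ?_⟩
          rcases Nat.lt_succ_iff_lt_or_eq.1 hj with hj | rfl
          · exact (hb j hj).mul_right hπ'0
          · rw [mul_comm]; exact hb'.mul_right hπ0
      obtain ⟨π, hπ, hπ0, hb⟩ := hcommon (i + 1) le_rfl
      have hRb : Bdd π R := Bdd.sum _ fun j _ => (hb j j.2).mul (by
        rw [gK, ← map_pow, PowerSeries.coeff_map]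
        exact bdd_toK hπ0 _)
      have hvb : Bdd π (toK (S.coord S.i) ^ (i + 1)) := (bdd_toK hπ0 _).pow _
      have hv0 : constantCoeff (toK (S.coord S.i) ^ (i + 1)) ≠ 0 := by
        rw [map_pow, constantCoeff_coord_i]
        refine pow_ne_zero _ fun h => S.ne ?_
        exact Subtype.ext h
      have heq : PowerSeries.coeff (i + 1) θ ^ p ^ S.h =
          constantCoeff (toK (S.coord S.i) ^ (i + 1)) * PowerSeries.coeff (i + 1) θ +
            constantCoeff R := by
        have h := congrArg (PowerSeries.coeff (i + 1)) hrec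
        rw [coeff_subst_eq_sum (by
          rw [← PowerSeries.coeff_zero_eq_constantCoeff, PowerSeries.coeff_map,
            PowerSeries.coeff_zero_eq_constantCoeff, S.constantCoeff_gK, map_zero]),
          PowerSeries.coeff_map, iterateFrobenius_def, Finset.sum_range_succ] at h
        rw [← h, hR, map_sum, add_comm]
        congr 1
        · rw [← map_pow (PowerSeries.map constantCoeff), PowerSeries.coeff_map,
            coeff_pow_self_of_constantCoeff_zero S.constantCoeff_gK, coeff_one_gK, mul_comm]
        · rw [← Fin.sum_univ_eq_sum_range]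
          refine Finset.sum_congr rfl fun j _ => ?_
          rw [map_mul, (ih j j.2).1, ← map_pow (PowerSeries.map constantCoeff),
            PowerSeries.coeff_map]
      have hex := exists_root_series (k := S.h) S.one_le_h hπ hπ0 hvb hRb hv0 (hint (i + 1)) heq
      have hT : S.theta θ (i + 1) = hex.choose := by
        rw [theta, dif_pos hex]
      obtain ⟨h1, h2, h3⟩ := hex.choose_spec
      refine ⟨by rw [hT]; exact h1, ?_, by rw [hT]; exact h3⟩
      rw [Finset.sum_range_succ, coeff_pow_self_of_constantCoeff_zero S.constantCoeff_gK,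
        coeff_one_gK, hT, h2,
        ← Fin.sum_univ_eq_sum_range
          (fun j => S.theta θ j * PowerSeries.coeff (i + 1) (S.gK ^ j)) (i + 1)]
      simp only [hR]
      ring

/-- Scaling of series with coefficients in the valuation ring. -/
def scaleO (π : OC p) : MvPowerSeries S.Free (OC p) →+* MvPowerSeries S.Free (OC p) :=
  MvPowerSeries.rescale fun _ => π

theorem toK_scaleO (π : OC p) (a : MvPowerSeries S.Free (OC p)) :
    toK (S.scaleO π a) = scale (π : C p) (toK a) := by
  ext1 d
  simp [scaleO, coeff_scale, Finsupp.prod, Finset.prod_pow_eq_pow_sum, Finsupp.degree_apply,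
    MvPowerSeries.coeff_rescale]

theorem evO_scaleO (π : OC p) {d d' : S.Free → OC p} {hd : ∀ t, 0 < ordO (d t)}
    {hd' : ∀ t, 0 < ordO (d' t)} (h : ∀ t, d t = π * d' t)
    (a : MvPowerSeries S.Free (OC p)) : evO d' hd' (S.scaleO π a) = evO d hd a := by
  classical
  obtain ⟨ε, hε, hb⟩ := exists_bound_O hd
  refine (DFunLike.congr_fun (hom_ext_O hε (f := evO d hd)
    (g := (evO d' hd').comp (S.scaleO π)) (fun t => by simpa using hb t) (fun r => ?_)
    fun t => ?_) a).symm
  · have e : S.scaleO π (MvPowerSeries.C r) = MvPowerSeries.C r := by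
      ext1 e
      rw [scaleO, MvPowerSeries.coeff_rescale, MvPowerSeries.coeff_C]
      split_ifs with he
      · simp [he]
      · simp
    simp [e]
  · have e : S.scaleO π (MvPowerSeries.X t) = MvPowerSeries.C π * MvPowerSeries.X t := by
      ext1 e
      rw [scaleO, MvPowerSeries.coeff_rescale, MvPowerSeries.coeff_C_mul,
        MvPowerSeries.coeff_X]
      split_ifs with he
      · simp [he]
      · simp
    simp [e, h t]

/-- An integral model of the truncation of theta below `B` after scaling by `π`. -/
structure ThetaModel (θ : PowerSeries (C p)) (B : ℕ) where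
  π : OC p
  π_ne : π ≠ 0
  coeffs : ℕ → MvPowerSeries S.Free (OC p)
  coeffs_eq : ∀ i < B, toK (coeffs i) = scale (π : C p) (S.theta θ i)

theorem exists_thetaModel {θ : PowerSeries (C p)} (hint : ∀ i, 0 ≤ ord (PowerSeries.coeff i θ))
    (h0 : PowerSeries.constantCoeff θ = 0)
    (hrec : PowerSeries.subst (PowerSeries.map constantCoeff S.gK) θ =
      PowerSeries.map (iterateFrobenius (C p) p S.h) θ) (B : ℕ) :
    Nonempty (S.ThetaModel θ B) := by
  classical
  have hcommon : ∃ π : C p, π ≠ 0 ∧ 0 ≤ ord π ∧ ∀ j < B, Bdd π (S.theta θ j) := by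
    induction B with
    | zero => exact ⟨1, one_ne_zero, by simp [ord_one], fun j hj => absurd hj (by omega)⟩
    | succ B ihB =>
      obtain ⟨π, hπ, hπ0, hb⟩ := ihB
      obtain ⟨-, -, π', hπ', hπ'0, hb'⟩ := S.theta_spec hint h0 hrec B
      refine ⟨π * π', mul_ne_zero hπ hπ', by rw [ord_mul]; exact add_nonneg hπ0 hπ'0,
        fun j hj => ?_⟩
      rcases Nat.lt_succ_iff_lt_or_eq.1 hj with hj | rfl
      · exact (hb j hj).mul_right hπ'0
      · rw [mul_comm]; exact hb'.mul_right hπ0
  obtain ⟨π, hπ, hπ0, hb⟩ := hcommon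
  refine ⟨⟨π, hπ0⟩, fun h => hπ (congrArg Subtype.val h),
    fun i => if hi : i < B then (hb i hi).exists_toK.choose else 0, fun i hi => ?_⟩
  rw [dif_pos hi]
  exact (hb i hi).exists_toK.choose_spec

end Setup

end Vale.Agent.P217.CharP
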